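import Vale.Agent.P060.Menger

/-!
P060 linear: the augmentation property of linkages (gammoid exchange), from Menger's theorem and
submodularity of separations.
-/

namespace Vale.Agent.P060.Lin

open Finset Vale.Agent.P060

variable {V : Type} [Fintype V] [DecidableEq V]

open MengerAux

omit [Fintype V] [DecidableEq V] in
theorem ext_walk_side {G : SimpleGraph V} {S : Set V} {P Q : Set V}
    (hsub : S ⊆ P ∪ Q) (hno : ∀ a ∈ P, ∀ b ∈ Q, ¬ G.Adj a b) :
    ∀ {a b : S} (_ : (G.induce S).Walk a b), a.1 ∈ P → b.1 ∈ P := by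
  intro a b p
  induction p with
  | nil => exact id
  | cons h p ih =>
    rename_i x y z
    intro hx
    apply ih
    rcases hsub y.2 with h1 | h1
    · exact h1
    · exact absurd h (hno _ hx _ h1)

omit [Fintype V] in
theorem ext_side {G : SimpleGraph V} {S P Q : Finset V} (hS : Conn G S) (hsub : S ⊆ P ∪ Q)
    (hno : NoEdge G P Q) {s : V} (hs : s ∈ S) (hsP : s ∈ P) : S ⊆ P := by
  intro w hw
  have hpre := hS.preconnected ⟨s, by simpa using hs⟩ ⟨w, by simpa using hw⟩
  obtain ⟨p⟩ := hpre
  have := ext_walk_side (G := G) (S := (S : Set V)) (P := (P : Set V)) (Q := (Q : Set V))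
    (by intro x hx
        have := hsub (by simpa using hx)
        rw [mem_union] at this
        simpa using this)
    (by intro a ha b hb; exact hno a (by simpa using ha) b (by simpa using hb)) p
    (by simpa using hsP)
  simpa using this

omit [Fintype V] in
/-- a connected set which meets both sides of a separation meets its middle -/
theorem meet {G : SimpleGraph V} {S C D L : Finset V} (hs : Sep G S C D) (hL : Conn G L)
    (hLS : L ⊆ S) (h1 : (L ∩ C).Nonempty) (h2 : (L ∩ D).Nonempty) :
    (L ∩ (C ∩ D)).Nonempty := by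
  by_contra hcon
  rw [Finset.not_nonempty_iff_eq_empty] at hcon
  have hno : ∀ x ∈ L, ¬ (x ∈ C ∧ x ∈ D) := by
    intro x hx hxx
    have : x ∈ L ∩ (C ∩ D) := by simp [hx, hxx.1, hxx.2]
    rw [hcon] at this
    simp at this
  obtain ⟨a, ha⟩ := h1
  obtain ⟨b, hb⟩ := h2
  rw [mem_inter] at ha hb
  have hsub : L ⊆ (C \ D) ∪ (D \ C) := by
    intro x hx
    have hxS := hLS hx
    rw [← hs.1, mem_union] at hxS
    have := hno x hx
    simp only [mem_union, mem_sdiff]
    tauto
  have haD : a ∈ C \ D := by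
    have := hno a ha.1
    simp only [mem_sdiff]
    tauto
  have hL2 := ext_side hL hsub hs.2 ha.1 haD
  have := hL2 hb.1
  rw [mem_sdiff] at this
  exact this.2 hb.2

omit [Fintype V] in
/-- the easy direction of Menger's theorem -/
theorem fam_le {G : SimpleGraph V} {S A B C D : Finset V} {k : ℕ} (h : Fam G S A B k)
    (hs : Sep G S C D) (hA : A ⊆ C) (hB : B ⊆ D) : k ≤ (C ∩ D).card := by
  obtain ⟨L, hLS, hLc, hLd, hLA, hLB⟩ := h
  have hx : ∀ i, (L i ∩ (C ∩ D)).Nonempty := by
    intro i
    apply meet hs (hLc i) (hLS i)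
    · obtain ⟨x, hx⟩ := Finset.card_pos.1 (by rw [hLA i]; exact Nat.one_pos)
      rw [mem_inter] at hx
      exact ⟨x, by simp [hx.1, hA hx.2]⟩
    · obtain ⟨x, hx⟩ := Finset.card_pos.1 (by rw [hLB i]; exact Nat.one_pos)
      rw [mem_inter] at hx
      exact ⟨x, by simp [hx.1, hB hx.2]⟩
  choose x hx using hx
  have hinj : Function.Injective x := by
    intro i j hij
    by_contra hne
    have h1 := hx i
    have h2 := hx j
    rw [mem_inter] at h1 h2
    rw [← hij] at h2
    exact (Finset.disjoint_left.1 (hLd i j hne)) h1.1 h2.1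
  calc k = (univ : Finset (Fin k)).card := by simp
    _ = (univ.image x).card := (Finset.card_image_of_injective _ hinj).symm
    _ ≤ (C ∩ D).card := by
      apply Finset.card_le_card
      intro y hy
      rw [mem_image] at hy
      obtain ⟨i, _, rfl⟩ := hy
      exact (mem_inter.1 (hx i)).2

omit [Fintype V] [DecidableEq V] in
theorem conn_one (G : SimpleGraph V) (v : V) : Conn G {v} := by
  unfold Conn
  have : Subsingleton (({v} : Finset V) : Set V) := by
    constructor
    intro a b
    apply Subtype.ext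
    have ha := a.2
    have hb := b.2
    simp only [coe_singleton, Set.mem_singleton_iff] at ha hb
    rw [ha, hb]
  have : Nonempty (({v} : Finset V) : Set V) := ⟨⟨v, by simp⟩⟩
  exact ⟨fun a b => by rw [Subsingleton.elim a b]⟩

omit [Fintype V] in
theorem fam_mono_k {G : SimpleGraph V} {S A B : Finset V} {k l : ℕ} (h : Fam G S A B k)
    (hl : l ≤ k) : Fam G S A B l := by
  obtain ⟨L, hLS, hLc, hLd, hLA, hLB⟩ := h
  refine ⟨fun i => L (Fin.castLE hl i), fun i => hLS _, fun i => hLc _, fun i j hij => hLd _ _ ?_,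
    fun i => hLA _, fun i => hLB _⟩
  intro h
  exact hij (Fin.castLE_injective hl h)

omit [Fintype V] in
theorem sep_union {G : SimpleGraph V} {S C1 D1 C2 D2 : Finset V} (h1 : Sep G S C1 D1)
    (h2 : Sep G S C2 D2) : Sep G S (C1 ∪ C2) (D1 ∩ D2) := by
  have hm1 : ∀ x, x ∈ S ↔ (x ∈ C1 ∨ x ∈ D1) := fun x => by rw [← h1.1, mem_union]
  have hm2 : ∀ x, x ∈ S ↔ (x ∈ C2 ∨ x ∈ D2) := fun x => by rw [← h2.1, mem_union]
  refine ⟨?_, ?_⟩
  · ext x
    have a1 := hm1 x
    have a2 := hm2 x
    simp only [mem_union, mem_inter]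
    tauto
  · intro a ha b hb
    have a1 := hm1 a
    have a2 := hm2 a
    have e1 := h1.2 a
    have e2 := h2.2 a
    simp only [mem_sdiff, mem_union, mem_inter] at ha hb e1 e2
    by_cases haD : a ∈ D1
    · have h3 : a ∉ D2 := fun h => ha.2 ⟨haD, h⟩
      have h4 : a ∈ C2 := by tauto
      exact e2 ⟨h4, h3⟩ b (by tauto)
    · have h4 : a ∈ C1 := by tauto
      exact e1 ⟨h4, haD⟩ b (by tauto)

omit [Fintype V] in
theorem sep_swap {G : SimpleGraph V} {S A B : Finset V} (h : Sep G S A B) : Sep G S B A :=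
  ⟨by rw [Finset.union_comm]; exact h.1, fun a ha b hb hab => h.2 b hb a ha hab.symm⟩

omit [Fintype V] in
theorem sep_inter {G : SimpleGraph V} {S C1 D1 C2 D2 : Finset V} (h1 : Sep G S C1 D1)
    (h2 : Sep G S C2 D2) : Sep G S (C1 ∩ C2) (D1 ∪ D2) := by
  exact sep_swap (sep_union (sep_swap h1) (sep_swap h2))

omit [Fintype V] in
theorem sep_card (C1 D1 C2 D2 : Finset V) :
    ((C1 ∪ C2) ∩ (D1 ∩ D2)).card + ((C1 ∩ C2) ∩ (D1 ∪ D2)).card ≤
      (C1 ∩ D1).card + (C2 ∩ D2).card := by
  rw [← Finset.card_union_add_card_inter, ← Finset.card_union_add_card_inter (C1 ∩ D1)]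
  apply Nat.add_le_add
  · apply Finset.card_le_card
    intro x
    simp only [mem_union, mem_inter]
    tauto
  · apply Finset.card_le_card
    intro x
    simp only [mem_union, mem_inter]
    tauto

/-- a linkage of `T` can be extended by one vertex of `W` if `W` is better linked -/
theorem ext1 {G : SimpleGraph V} {S T W Y : Finset V} (hTS : T ⊆ S) (hWS : W ⊆ S) (hYS : Y ⊆ S)
    (hT : Fam G S T Y T.card) (hW : Fam G S W Y (T.card + 1)) :
    ∃ w ∈ W, w ∉ T ∧ Fam G S (insert w T) Y (T.card + 1) := by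
  by_contra hcon
  push Not at hcon
  have key : ∀ U : Finset V, U ⊆ W → ∃ C D, Sep G S C D ∧ T ∪ U ⊆ C ∧ Y ⊆ D ∧
      (C ∩ D).card ≤ T.card := by
    intro U
    induction U using Finset.induction_on with
    | empty =>
      intro _
      refine ⟨T, S, ⟨Finset.union_eq_right.2 hTS, ?_⟩, by simp, hYS, ?_⟩
      · intro a ha
        rw [mem_sdiff] at ha
        exact absurd (hTS ha.1) ha.2
      · exact Finset.card_le_card Finset.inter_subset_left
    | insert w U hw ih =>
      intro hU
      obtain ⟨C1, D1, hs1, hc1, hd1, hk1⟩ := ih ((Finset.subset_insert _ _).trans hU)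
      have hwW : w ∈ W := hU (Finset.mem_insert_self _ _)
      by_cases hwT : w ∈ T
      · refine ⟨C1, D1, hs1, ?_, hd1, hk1⟩
        intro x hx
        simp only [mem_union, mem_insert] at hx
        rcases hx with hx | hx | hx
        · exact hc1 (mem_union_left _ hx)
        · exact hc1 (mem_union_left _ (hx ▸ hwT))
        · exact hc1 (mem_union_right _ hx)
      · have hnf := hcon w hwW hwT
        have : ∃ C2 D2, Sep G S C2 D2 ∧ insert w T ⊆ C2 ∧ Y ⊆ D2 ∧ (C2 ∩ D2).card < T.card + 1 := by
          by_contra hc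
          push Not at hc
          apply hnf
          apply menger G S (insert w T) Y (T.card + 1) _ hYS
          · intro C D h1 h2 h3
            exact hc C D h1 h2 h3
          · intro x hx
            rw [mem_insert] at hx
            rcases hx with rfl | hx
            · exact hWS hwW
            · exact hTS hx
        obtain ⟨C2, D2, hs2, hc2, hd2, hk2⟩ := this
        refine ⟨C1 ∪ C2, D1 ∩ D2, sep_union hs1 hs2, ?_, Finset.subset_inter hd1 hd2, ?_⟩
        · intro x hx
          simp only [mem_union, mem_insert] at hx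
          rcases hx with hx | hx | hx
          · exact mem_union_left _ (hc1 (mem_union_left _ hx))
          · exact mem_union_right _ (hc2 (hx ▸ Finset.mem_insert_self _ _))
          · exact mem_union_left _ (hc1 (mem_union_right _ hx))
        · have h3 := fam_le hT (sep_inter hs1 hs2)
            (Finset.subset_inter (Finset.subset_union_left.trans hc1)
              ((Finset.subset_insert _ _).trans hc2))
            (hd1.trans Finset.subset_union_left)
          have h4 := sep_card C1 D1 C2 D2
          omega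
  obtain ⟨C, D, hs, hc, hd, hk⟩ := key W (Finset.Subset.refl _)
  have := fam_le hW hs (Finset.subset_union_right.trans hc) hd
  omega

/-- **augmentation property** of linkages -/
theorem ext {G : SimpleGraph V} {S T W Y : Finset V} (hTS : T ⊆ S) (hWS : W ⊆ S) (hYS : Y ⊆ S)
    (p : ℕ) (hT : Fam G S T Y T.card) (hW : Fam G S W Y (T.card + p)) :
    ∃ W' ⊆ W, Disjoint W' T ∧ W'.card = p ∧ Fam G S (T ∪ W') Y (T.card + p) := by
  induction p with
  | zero => exact ⟨∅, by simp, by simp, by simp, by simpa using hT⟩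
  | succ p ih =>
    obtain ⟨W', h1, h2, h3, h4⟩ := ih (fam_mono_k hW (by omega))
    have hc : (T ∪ W').card = T.card + p := by
      rw [Finset.card_union_of_disjoint h2.symm, h3]
    obtain ⟨w, hw, hwT, hf⟩ := ext1 (T := T ∪ W') (Finset.union_subset hTS (h1.trans hWS)) hWS hYS
      (by rw [hc]; exact h4) (by rw [hc]; exact hW)
    rw [mem_union, not_or] at hwT
    refine ⟨insert w W', ?_, ?_, ?_, ?_⟩
    · intro x hx
      rw [mem_insert] at hx
      rcases hx with rfl | hx
      · exact hw
      · exact h1 hx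
    · rw [Finset.disjoint_insert_left]
      exact ⟨hwT.1, h2⟩
    · rw [Finset.card_insert_of_notMem hwT.2, h3]
    · rw [Finset.union_insert]
      rw [hc] at hf
      exact hf

omit [Fintype V] in
/-- indexing of a full linkage by its sources -/
theorem fam_index {G : SimpleGraph V} {S A B : Finset V} (h : Fam G S A B A.card) :
    ∃ L : V → Finset V, (∀ a ∈ A, L a ⊆ S) ∧ (∀ a ∈ A, Conn G (L a)) ∧
      (∀ a ∈ A, L a ∩ A = {a}) ∧ (∀ a ∈ A, (L a ∩ B).card = 1) ∧
      ∀ a ∈ A, ∀ b ∈ A, a ≠ b → Disjoint (L a) (L b) := by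
  obtain ⟨L, hLS, hLc, hLd, hLA, hLB⟩ := h
  have hx : ∀ i, ∃ x, L i ∩ A = {x} := fun i => Finset.card_eq_one.1 (hLA i)
  choose x hx using hx
  have hxm : ∀ i, x i ∈ L i ∧ x i ∈ A := fun i => by
    have : x i ∈ L i ∩ A := by rw [hx i]; simp
    exact mem_inter.1 this
  have hinj : Function.Injective x := by
    intro i j hij
    by_contra hne
    have h2 := (hxm j).1
    rw [← hij] at h2
    exact (Finset.disjoint_left.1 (hLd i j hne)) (hxm i).1 h2
  have himg : univ.image x = A := by
    apply Finset.eq_of_subset_of_card_le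
    · intro y hy
      rw [mem_image] at hy
      obtain ⟨i, _, rfl⟩ := hy
      exact (hxm i).2
    · rw [Finset.card_image_of_injective _ hinj]; simp
  have hsurj : ∀ a ∈ A, ∃ i, x i = a := by
    intro a ha
    rw [← himg, mem_image] at ha
    obtain ⟨i, _, h⟩ := ha
    exact ⟨i, h⟩
  classical
  let f : V → Finset V := fun a => if ha : a ∈ A then L (hsurj a ha).choose else ∅
  have hf : ∀ a (ha : a ∈ A), ∃ i, f a = L i ∧ x i = a := by
    intro a ha
    exact ⟨(hsurj a ha).choose, by simp only [f, dif_pos ha], (hsurj a ha).choose_spec⟩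
  refine ⟨f, ?_, ?_, ?_, ?_, ?_⟩
  · intro a ha
    obtain ⟨i, h1, _⟩ := hf a ha
    rw [h1]; exact hLS i
  · intro a ha
    obtain ⟨i, h1, _⟩ := hf a ha
    rw [h1]; exact hLc i
  · intro a ha
    obtain ⟨i, h1, h2⟩ := hf a ha
    rw [h1, hx i, h2]
  · intro a ha
    obtain ⟨i, h1, _⟩ := hf a ha
    rw [h1]; exact hLB i
  · intro a ha b hb hab
    obtain ⟨i, h1, h2⟩ := hf a ha
    obtain ⟨j, h3, h4⟩ := hf b hb
    rw [h1, h3]
    apply hLd
    rintro rfl
    exact hab (h2.symm.trans h4)

end Vale.Agent.P060.Lin
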