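import Mathlib
import Vale.Agent.P060.Defs

/-!
P060, linear bound: definitions. `Col G S k`: `G[S]` is `k`-colourable. `HConn G S κ`: every
separation of `G[S]` with both sides proper has order at least `κ`.
-/

namespace Vale.Agent.P060

open Finset

variable {V : Type} [Fintype V] [DecidableEq V]

/-- `G[S]` is `k`-colourable. -/
def Col (G : SimpleGraph V) (S : Finset V) (k : ℕ) : Prop :=
  ∃ f : V → ℕ, (∀ v ∈ S, f v < k) ∧ ∀ a ∈ S, ∀ b ∈ S, G.Adj a b → f a ≠ f b

/-- Every separation of `G[S]` with both sides proper has order at least `κ`. -/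
def HConn (G : SimpleGraph V) (S : Finset V) (κ : ℕ) : Prop :=
  ∀ A B : Finset V, Sep G S A B → (A \ B).Nonempty → (B \ A).Nonempty → κ ≤ (A ∩ B).card

/-- induced path `p 0, ..., p s` -/
def IndPath (G : SimpleGraph V) (p : ℕ → V) (s : ℕ) : Prop :=
  (∀ i ≤ s, ∀ j ≤ s, (G.Adj (p i) (p j) ↔ (i + 1 = j ∨ j + 1 = i))) ∧
    ∀ i ≤ s, ∀ j ≤ s, p i = p j → i = j

variable {G : SimpleGraph V}

theorem Col.mono {S T : Finset V} {k l : ℕ} (h : Col G T k) (hST : S ⊆ T) (hkl : k ≤ l) :
    Col G S l := by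
  obtain ⟨f, h1, h2⟩ := h
  exact ⟨f, fun v hv => lt_of_lt_of_le (h1 v (hST hv)) hkl,
    fun a ha b hb hab => h2 a (hST ha) b (hST hb) hab⟩

theorem Col.union {S T : Finset V} {k l : ℕ} (h1 : Col G S k) (h2 : Col G T l) :
    Col G (S ∪ T) (k + l) := by
  classical
  obtain ⟨f, hf1, hf2⟩ := h1
  obtain ⟨g, hg1, hg2⟩ := h2
  refine ⟨fun v => if v ∈ S then f v else k + g v, ?_, ?_⟩
  · intro v hv
    by_cases hS : v ∈ S
    · simp only [hS, if_true]
      have := hf1 v hS
      omega
    · simp only [hS, if_false]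
      have := hg1 v ((Finset.mem_union.mp hv).resolve_left hS)
      omega
  · intro a ha b hb hab
    by_cases haS : a ∈ S <;> by_cases hbS : b ∈ S
    · simp only [haS, hbS, if_true]
      exact hf2 a haS b hbS hab
    · simp only [haS, hbS, if_true, if_false]
      have := hf1 a haS
      omega
    · simp only [haS, hbS, if_true, if_false]
      have := hf1 b hbS
      omega
    · simp only [haS, hbS, if_false]
      have := hg2 a ((Finset.mem_union.mp ha).resolve_left haS) b
        ((Finset.mem_union.mp hb).resolve_left hbS) hab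
      omega

theorem Col.card (S : Finset V) : Col G S S.card := by
  classical
  obtain ⟨e⟩ : Nonempty (S ≃ Fin S.card) := ⟨S.equivFin⟩
  refine ⟨fun v => if h : v ∈ S then (e ⟨v, h⟩ : ℕ) else 0, ?_, ?_⟩
  · intro v hv
    simp only [hv, dif_pos]
    exact (e ⟨v, hv⟩).2
  · intro a ha b hb hab h
    simp only [ha, hb, dif_pos] at h
    have h1 : e ⟨a, ha⟩ = e ⟨b, hb⟩ := Fin.ext h
    have h2 := e.injective h1
    have h3 : a = b := congrArg Subtype.val h2
    subst h3
    exact G.loopless.irrefl _ hab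

theorem Col.indep {I : Finset V} (h : Indep G I) : Col G I 1 :=
  ⟨fun _ => 0, fun _ _ => Nat.zero_lt_one, fun a ha b hb hab => (h a ha b hb hab).elim⟩

end Vale.Agent.P060
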