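import Mathlib
import Vale.Agent.P060.Defs

/-!
P060 (linear bound): woven sets.
-/

namespace Vale.Agent.P060

open Finset

variable {V : Type} [Fintype V] [DecidableEq V]

/-- `S` is `(a, p)`-woven: for any `a` roots and any at most `p` pairs of further vertices of `S`
(the two vertices of a pair may coincide) there are a `K_a` model in `S` rooted at the roots and
disjoint connected subsets of `S` joining the pairs, all disjoint. -/
def Woven (G : SimpleGraph V) (S : Finset V) (a p : ℕ) : Prop :=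
  ∀ (R : Fin a → V) (q : ℕ) (s t : Fin q → V), q ≤ p →
    Function.Injective R → Function.Injective s → Function.Injective t →
    (∀ i j, i ≠ j → s i ≠ t j) → (∀ i j, R i ≠ s j) → (∀ i j, R i ≠ t j) →
    (∀ i, R i ∈ S) → (∀ i, s i ∈ S) → (∀ i, t i ∈ S) →
    ∃ (B : Fin a → Finset V) (L : Fin q → Finset V),
      (∀ i, B i ⊆ S) ∧ (∀ i, Conn G (B i)) ∧ (∀ i, R i ∈ B i) ∧
      (∀ i, L i ⊆ S) ∧ (∀ i, Conn G (L i)) ∧ (∀ i, s i ∈ L i) ∧ (∀ i, t i ∈ L i) ∧
      (∀ i j, i ≠ j → Disjoint (B i) (B j)) ∧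
      (∀ i j, i ≠ j → ∃ x ∈ B i, ∃ y ∈ B j, G.Adj x y) ∧
      (∀ i j, i ≠ j → Disjoint (L i) (L j)) ∧ ∀ i j, Disjoint (B i) (L j)

end Vale.Agent.P060
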