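import Mathlib
import Vale.Agent.P060.Defs
import Vale.Agent.P060.Menger
import Vale.Agent.P060.Lin.WovenDef

/-!
P060 (linear bound): rerouting a system of disjoint connected sets through woven pieces.
-/

namespace Vale.Agent.P060

open Finset

variable {V : Type} [Fintype V] [DecidableEq V]

namespace Reroute

omit [Fintype V] in
/-- the first visit of a walk to a set -/
theorem first_visit {G : SimpleGraph V} (S : Finset V) {y z : V} (p : G.Walk y z)
    (h : ∃ v ∈ p.support, v ∈ S) :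
    ∃ x ∈ S, ∃ p1 : G.Walk y x, (∀ v ∈ p1.support, v ∈ p.support) ∧
      ∀ v ∈ p1.support, v ∈ S → v = x := by
  induction p with
  | nil =>
    rename_i u
    obtain ⟨v, hv, hvS⟩ := h
    have hvu : v = u := by simpa using hv
    subst hvu
    exact ⟨v, hvS, SimpleGraph.Walk.nil, fun w hw => hw, fun w hw _ => by simpa using hw⟩
  | cons hadj q ih =>
    rename_i u v' w'
    by_cases hu : u ∈ S
    · refine ⟨u, hu, SimpleGraph.Walk.nil, ?_, fun w hw _ => by simpa using hw⟩
      intro w hw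
      have hwu : w = u := by simpa using hw
      subst hwu
      exact SimpleGraph.Walk.start_mem_support _
    · obtain ⟨v, hv, hvS⟩ := h
      have hv' : v ∈ q.support := by
        rw [SimpleGraph.Walk.support_cons] at hv
        rcases List.mem_cons.1 hv with h1 | h1
        · exact absurd (h1 ▸ hvS) hu
        · exact h1
      obtain ⟨x, hx, p1, h1, h2⟩ := ih ⟨v, hv', hvS⟩
      refine ⟨x, hx, SimpleGraph.Walk.cons hadj p1, ?_, ?_⟩
      · intro w hw
        rw [SimpleGraph.Walk.support_cons] at hw ⊢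
        rcases List.mem_cons.1 hw with h3 | h3
        · exact List.mem_cons.2 (Or.inl h3)
        · exact List.mem_cons.2 (Or.inr (h1 w h3))
      · intro w hw hwS
        rw [SimpleGraph.Walk.support_cons] at hw
        rcases List.mem_cons.1 hw with h3 | h3
        · exact absurd (h3 ▸ hwS) hu
        · exact h2 w h3 hwS

/-- a connected set containing `y` and meeting `S` contains a connected set with `y` which meets
`S` in exactly one vertex -/
theorem first_set {G : SimpleGraph V} {A S : Finset V} (hA : Conn G A) {y : V} (hy : y ∈ A)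
    (h : (A ∩ S).Nonempty) :
    ∃ x ∈ S, ∃ A1 ⊆ A, Conn G A1 ∧ y ∈ A1 ∧ x ∈ A1 ∧ ∀ v ∈ A1, v ∈ S → v = x := by
  obtain ⟨b, hb⟩ := h
  rw [Finset.mem_inter] at hb
  obtain ⟨p, _, hp⟩ := MengerAux.conn_path hA hy hb.1
  obtain ⟨x, hx, p1, h1, h2⟩ := first_visit S p ⟨b, p.end_mem_support, hb.2⟩
  refine ⟨x, hx, p1.support.toFinset, ?_, MengerAux.conn_support p1, ?_, ?_, ?_⟩
  · intro w hw
    exact hp w (h1 w (List.mem_toFinset.1 hw))
  · simp
  · simp
  · intro v hv hvS
    exact h2 v (List.mem_toFinset.1 hv) hvS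

/-- the state of the rerouting process after the pieces of `D` have been treated -/
structure St (G : SimpleGraph V) {κ : Type} [DecidableEq κ] (w : ℕ) (T : Finset V)
    (S : κ → Finset V) (S0 : Finset V) (D : Finset κ) (A : κ × Fin w → Finset V) (y z : κ × Fin w → V)
    (B : κ × Fin w → Finset V) : Prop where
  sub : ∀ e, A e ⊆ T
  conn : ∀ e, Conn G (A e)
  yA : ∀ e, y e ∈ A e
  yS : ∀ e, y e ∈ S e.1
  zA : ∀ e, z e ∈ A e
  zS : ∀ e, ∀ v ∈ A e, v ∈ S0 → v = z e
  disj : ∀ e e', e ≠ e' → Disjoint (A e) (A e')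
  Bconn : ∀ e, e.1 ∈ D → Conn G (B e)
  BS : ∀ e, e.1 ∈ D → B e ⊆ S e.1
  yB : ∀ e, e.1 ∈ D → y e ∈ B e
  BA : ∀ e e', e ≠ e' → e.1 ∈ D → Disjoint (B e) (A e')
  BB : ∀ k i j, k ∈ D → i ≠ j → Disjoint (B (k, i)) (B (k, j))
  adj : ∀ k i j, k ∈ D → i ≠ j → ∃ x ∈ B (k, i), ∃ x' ∈ B (k, j), G.Adj x x'

theorem step (G : SimpleGraph V) {κ : Type} [Fintype κ] [DecidableEq κ] (w : ℕ)
    (T : Finset V) (S : κ → Finset V) (S0 : Finset V) (hST : ∀ k, S k ⊆ T)
    (hS : ∀ k k', k ≠ k' → Disjoint (S k) (S k'))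
    (hS0 : ∀ k, Disjoint (S k) S0) (hw : ∀ k, Woven G (S k) w (Fintype.card κ * w - w))
    (D : Finset κ) (A : κ × Fin w → Finset V) (y z : κ × Fin w → V)
    (B : κ × Fin w → Finset V) (h : St G w T S S0 D A y z B) (k0 : κ) :
    ∃ A' y' B', St G w T S S0 (insert k0 D) A' y' z B' := by
  classical
  have e1 : ∀ i : Fin w, ∃ x ∈ S k0, ∃ A1 ⊆ A (k0, i), Conn G A1 ∧ z (k0, i) ∈ A1 ∧ x ∈ A1 ∧
      ∀ v ∈ A1, v ∈ S k0 → v = x := fun i =>
    first_set (h.conn (k0, i)) (h.zA (k0, i))
      ⟨y (k0, i), Finset.mem_inter.2 ⟨h.yA (k0, i), h.yS (k0, i)⟩⟩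
  choose r hr A1 hA1 hA1c hA1z hA1r hA1u using e1
  let ι : Type := {e : κ × Fin w // e.1 ≠ k0 ∧ (A e ∩ S k0).Nonempty}
  have e2 : ∀ ε : ι, ∃ x ∈ S k0, ∃ Aa ⊆ A ε.1, Conn G Aa ∧ y ε.1 ∈ Aa ∧ x ∈ Aa ∧
      ∀ v ∈ Aa, v ∈ S k0 → v = x := fun ε =>
    first_set (h.conn ε.1) (h.yA ε.1) ε.2.2
  choose s hs Aa hAa hAac hAay hAas hAau using e2
  have e3 : ∀ ε : ι, ∃ x ∈ S k0, ∃ Ac ⊆ A ε.1, Conn G Ac ∧ z ε.1 ∈ Ac ∧ x ∈ Ac ∧
      ∀ v ∈ Ac, v ∈ S k0 → v = x := fun ε =>
    first_set (h.conn ε.1) (h.zA ε.1) ε.2.2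
  choose t ht Ac hAc hAcc hAcz hAct hAcu using e3
  let f : ι ≃ Fin (Fintype.card ι) := Fintype.equivFin ι
  have hq : Fintype.card ι ≤ Fintype.card κ * w - w := by
    have h1 : Function.Injective (fun x : ι ⊕ Fin w => (Sum.elim (fun ε : ι => ε.1)
        (fun i => (k0, i)) x : κ × Fin w)) := by
      rintro (ε | i) (ε' | j) h2
      · exact congrArg Sum.inl (Subtype.ext h2)
      · have h3 : ε.1 = (k0, j) := h2
        exact absurd (by rw [h3]) ε.2.1
      · have h3 : (k0, i) = ε'.1 := h2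
        exact absurd (by rw [← h3]) ε'.2.1
      · have h3 : (k0, i) = (k0, j) := h2
        simpa using h3
    have h2 := Fintype.card_le_of_injective _ h1
    simp only [Fintype.card_sum, Fintype.card_prod, Fintype.card_fin] at h2
    omega
  -- a common vertex forces equal indices
  have key : ∀ e e' v, v ∈ A e → v ∈ A e' → e = e' := by
    intro e e' v h1 h2
    by_contra hne
    exact Finset.disjoint_left.1 (h.disj e e' hne) h1 h2
  have rinj : Function.Injective r := by
    intro i j hij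
    have h1 := key (k0, i) (k0, j) (r i) (hA1 i (hA1r i)) (hij ▸ hA1 j (hA1r j))
    simpa using h1
  have hsA : ∀ ε, s ε ∈ A ε.1 := fun ε => hAa ε (hAas ε)
  have htA : ∀ ε, t ε ∈ A ε.1 := fun ε => hAc ε (hAct ε)
  obtain ⟨B', L', hB1, hB2, hB3, hL1, hL2, hL3, hL4, hBB, hBadj, hLL, hBL⟩ :=
    hw k0 r (Fintype.card ι) (fun j => s (f.symm j)) (fun j => t (f.symm j)) hq rinj
      (by
        intro i j hij
        have h1 := key _ _ _ (hsA (f.symm i)) (by
          have : s (f.symm i) = s (f.symm j) := hij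
          rw [this]; exact hsA _)
        exact f.symm.injective (Subtype.ext h1))
      (by
        intro i j hij
        have h1 := key _ _ _ (htA (f.symm i)) (by
          have : t (f.symm i) = t (f.symm j) := hij
          rw [this]; exact htA _)
        exact f.symm.injective (Subtype.ext h1))
      (by
        intro i j hij heq
        have h1 := key _ _ _ (hsA (f.symm i)) (by
          have : s (f.symm i) = t (f.symm j) := heq
          rw [this]; exact htA _)
        exact hij (f.symm.injective (Subtype.ext h1)))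
      (by
        intro i j heq
        have h1 := key _ _ _ (hA1 i (hA1r i)) (by
          have : r i = s (f.symm j) := heq
          rw [this]; exact hsA _)
        exact (f.symm j).2.1 (by rw [← h1]))
      (by
        intro i j heq
        have h1 := key _ _ _ (hA1 i (hA1r i)) (by
          have : r i = t (f.symm j) := heq
          rw [this]; exact htA _)
        exact (f.symm j).2.1 (by rw [← h1]))
      hr (fun j => hs _) (fun j => ht _)
  have hL3' : ∀ ε : ι, s ε ∈ L' (f ε) := fun ε => by simpa using hL3 (f ε)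
  have hL4' : ∀ ε : ι, t ε ∈ L' (f ε) := fun ε => by simpa using hL4 (f ε)
  let A' : κ × Fin w → Finset V := fun e =>
    if h1 : e.1 = k0 then A1 e.2
    else if h2 : (A e ∩ S k0).Nonempty then
      Aa ⟨e, h1, h2⟩ ∪ L' (f ⟨e, h1, h2⟩) ∪ Ac ⟨e, h1, h2⟩
    else A e
  let U : κ × Fin w → Finset V := fun e =>
    if h1 : e.1 = k0 then B' e.2
    else if h2 : (A e ∩ S k0).Nonempty then L' (f ⟨e, h1, h2⟩)
    else ∅
  let y' : κ × Fin w → V := fun e => if e.1 = k0 then r e.2 else y e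
  let Bn : κ × Fin w → Finset V := fun e => if e.1 = k0 then B' e.2 else B e
  have A'0 : ∀ i, A' (k0, i) = A1 i := by intro i; simp [A']
  have A'1 : ∀ ε : ι, A' ε.1 = Aa ε ∪ L' (f ε) ∪ Ac ε := by
    rintro ⟨e, h1, h2⟩
    simp only [A', h1, h2, dite_true, dite_false]
  have A'2 : ∀ e, e.1 ≠ k0 → ¬ (A e ∩ S k0).Nonempty → A' e = A e := by
    intro e h1 h2
    simp only [A', h1, h2, dite_false]
  have U0 : ∀ i, U (k0, i) = B' i := by intro i; simp [U]
  have U1 : ∀ ε : ι, U ε.1 = L' (f ε) := by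
    rintro ⟨e, h1, h2⟩
    simp only [U, h1, h2, dite_true, dite_false]
  have U2 : ∀ e, e.1 ≠ k0 → ¬ (A e ∩ S k0).Nonempty → U e = ∅ := by
    intro e h1 h2
    simp only [U, h1, h2, dite_false]
  have cases : ∀ e : κ × Fin w, (∃ i, e = (k0, i)) ∨ (∃ ε : ι, e = ε.1) ∨
      (e.1 ≠ k0 ∧ ¬ (A e ∩ S k0).Nonempty) := by
    intro e
    by_cases h1 : e.1 = k0
    · exact Or.inl ⟨e.2, Prod.ext h1 rfl⟩
    · by_cases h2 : (A e ∩ S k0).Nonempty
      · exact Or.inr (Or.inl ⟨⟨e, h1, h2⟩, rfl⟩)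
      · exact Or.inr (Or.inr ⟨h1, h2⟩)
  have hUS : ∀ e, U e ⊆ S k0 := by
    intro e
    rcases cases e with ⟨i, rfl⟩ | ⟨ε, rfl⟩ | ⟨h1, h2⟩
    · rw [U0]; exact hB1 i
    · rw [U1]; exact hL1 _
    · rw [U2 e h1 h2]; exact Finset.empty_subset _
  have hUa : ∀ e, ∀ v ∈ A' e, v ∈ S k0 → v ∈ U e := by
    intro e v hv hvS
    rcases cases e with ⟨i, rfl⟩ | ⟨ε, rfl⟩ | ⟨h1, h2⟩
    · rw [A'0] at hv
      rw [U0, hA1u i v hv hvS]
      exact hB3 i
    · rw [A'1] at hv
      rw [U1]
      rcases Finset.mem_union.1 hv with hv | hv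
      · rcases Finset.mem_union.1 hv with hv | hv
        · rw [hAau ε v hv hvS]; exact hL3' ε
        · exact hv
      · rw [hAcu ε v hv hvS]; exact hL4' ε
    · rw [A'2 e h1 h2] at hv
      exact absurd ⟨v, Finset.mem_inter.2 ⟨hv, hvS⟩⟩ h2
  have hUb : ∀ e, ∀ v ∈ A' e, v ∉ S k0 → v ∈ A e := by
    intro e v hv hvS
    rcases cases e with ⟨i, rfl⟩ | ⟨ε, rfl⟩ | ⟨h1, h2⟩
    · rw [A'0] at hv
      exact hA1 i hv
    · rw [A'1] at hv
      rcases Finset.mem_union.1 hv with hv | hv
      · rcases Finset.mem_union.1 hv with hv | hv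
        · exact hAa ε hv
        · exact absurd (hL1 _ hv) hvS
      · exact hAc ε hv
    · rwa [A'2 e h1 h2] at hv
  have hUU : ∀ e e', e ≠ e' → Disjoint (U e) (U e') := by
    intro e e' hne
    rcases cases e with ⟨i, rfl⟩ | ⟨ε, rfl⟩ | ⟨h1, h2⟩
    · rcases cases e' with ⟨j, rfl⟩ | ⟨ε', rfl⟩ | ⟨h1', h2'⟩
      · rw [U0, U0]
        exact hBB i j (fun hij => hne (by rw [hij]))
      · rw [U0, U1]
        exact hBL _ _
      · rw [U2 e' h1' h2']
        exact Finset.disjoint_empty_right _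
    · rcases cases e' with ⟨j, rfl⟩ | ⟨ε', rfl⟩ | ⟨h1', h2'⟩
      · rw [U0, U1]
        exact (hBL _ _).symm
      · rw [U1, U1]
        exact hLL _ _ (fun hij => hne (by rw [f.injective hij]))
      · rw [U2 e' h1' h2']
        exact Finset.disjoint_empty_right _
    · rw [U2 e h1 h2]
      exact Finset.disjoint_empty_left _
  refine ⟨A', y', Bn, ?_, ?_, ?_, ?_, ?_, ?_, ?_, ?_, ?_, ?_, ?_, ?_, ?_⟩
  · -- sub
    intro e v hv
    by_cases hvk : v ∈ S k0
    · exact hST k0 hvk
    · exact h.sub e (hUb e v hv hvk)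
  · -- conn
    intro e
    rcases cases e with ⟨i, rfl⟩ | ⟨ε, rfl⟩ | ⟨h1, h2⟩
    · rw [A'0]; exact hA1c i
    · rw [A'1]
      have c1 : Conn G (Aa ε ∪ L' (f ε)) :=
        MengerAux.conn_union (hAac ε) (hL2 _) (hAas ε) (hL3' ε)
      exact MengerAux.conn_union c1 (hAcc ε) (Finset.mem_union.2 (Or.inr (hL4' ε))) (hAct ε)
    · rw [A'2 e h1 h2]; exact h.conn e
  · -- yA
    intro e
    rcases cases e with ⟨i, rfl⟩ | ⟨ε, rfl⟩ | ⟨h1, h2⟩
    · rw [A'0]
      simp only [y', if_true]
      exact hA1r i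
    · rw [A'1]
      simp only [y', ε.2.1, if_false]
      exact Finset.mem_union.2 (Or.inl (Finset.mem_union.2 (Or.inl (hAay ε))))
    · rw [A'2 e h1 h2]
      simp only [y', h1, if_false]
      exact h.yA e
  · -- yS
    intro e
    by_cases h1 : e.1 = k0
    · simp only [y', h1, if_true]
      exact hr _
    · simp only [y', h1, if_false]
      exact h.yS e
  · -- zA
    intro e
    rcases cases e with ⟨i, rfl⟩ | ⟨ε, rfl⟩ | ⟨h1, h2⟩
    · rw [A'0]; exact hA1z i
    · rw [A'1]
      exact Finset.mem_union.2 (Or.inr (hAcz ε))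
    · rw [A'2 e h1 h2]; exact h.zA e
  · -- zS
    intro e v hv hvS
    have hvk : v ∉ S k0 := fun h1 => Finset.disjoint_left.1 (hS0 k0) h1 hvS
    exact h.zS e v (hUb e v hv hvk) hvS
  · -- disj
    intro e e' hne
    rw [Finset.disjoint_left]
    intro v hv hv'
    by_cases hvk : v ∈ S k0
    · exact Finset.disjoint_left.1 (hUU e e' hne) (hUa e v hv hvk) (hUa e' v hv' hvk)
    · exact Finset.disjoint_left.1 (h.disj e e' hne) (hUb e v hv hvk) (hUb e' v hv' hvk)
  · -- Bconn
    intro e he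
    by_cases h1 : e.1 = k0
    · simp only [Bn, h1, if_true]
      exact hB2 _
    · simp only [Bn, h1, if_false]
      exact h.Bconn e (Finset.mem_of_mem_insert_of_ne he h1)
  · -- BS
    intro e he
    by_cases h1 : e.1 = k0
    · simp only [Bn, h1, if_true]
      exact hB1 _
    · simp only [Bn, h1, if_false]
      exact h.BS e (Finset.mem_of_mem_insert_of_ne he h1)
  · -- yB
    intro e he
    by_cases h1 : e.1 = k0
    · simp only [Bn, y', h1, if_true]
      exact hB3 _
    · simp only [Bn, y', h1, if_false]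
      exact h.yB e (Finset.mem_of_mem_insert_of_ne he h1)
  · -- BA
    intro e e' hne he
    rw [Finset.disjoint_left]
    intro v hv hv'
    rcases cases e with ⟨i, rfl⟩ | ⟨ε, rfl⟩ | ⟨h1, h2⟩
    · simp only [Bn, if_true] at hv
      exact Finset.disjoint_left.1 (hUU _ e' hne) (by rw [U0]; exact hv)
        (hUa e' v hv' (hB1 i hv))
    · have hD := Finset.mem_of_mem_insert_of_ne he ε.2.1
      simp only [Bn, ε.2.1, if_false] at hv
      have hvk : v ∉ S k0 := fun h1 =>
        Finset.disjoint_left.1 (hS _ _ ε.2.1) (h.BS _ hD hv) h1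
      exact Finset.disjoint_left.1 (h.BA _ e' hne hD) hv (hUb e' v hv' hvk)
    · have hD := Finset.mem_of_mem_insert_of_ne he h1
      simp only [Bn, h1, if_false] at hv
      have hvk : v ∉ S k0 := fun h3 =>
        Finset.disjoint_left.1 (hS _ _ h1) (h.BS _ hD hv) h3
      exact Finset.disjoint_left.1 (h.BA _ e' hne hD) hv (hUb e' v hv' hvk)
  · -- BB
    intro k i j hk hij
    by_cases h1 : k = k0
    · simp only [Bn, h1, if_true]
      exact hBB i j hij
    · simp only [Bn, h1, if_false]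
      exact h.BB k i j (Finset.mem_of_mem_insert_of_ne hk h1) hij
  · -- adj
    intro k i j hk hij
    by_cases h1 : k = k0
    · simp only [Bn, h1, if_true]
      exact hBadj i j hij
    · simp only [Bn, h1, if_false]
      exact h.adj k i j (Finset.mem_of_mem_insert_of_ne hk h1) hij

end Reroute

open Reroute in
/-- Rerouting: disjoint connected sets from the pieces to the hub, and woven pieces, give disjoint
connected sets which all reach the hub and are pairwise adjacent inside every piece. -/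
theorem reroute (G : SimpleGraph V) {κ : Type} [Fintype κ] [DecidableEq κ] (w : ℕ)
    (T : Finset V) (S : κ → Finset V) (S0 : Finset V) (hST : ∀ k, S k ⊆ T)
    (hS : ∀ k k', k ≠ k' → Disjoint (S k) (S k'))
    (hS0 : ∀ k, Disjoint (S k) S0) (A : κ × Fin w → Finset V) (y z : κ × Fin w → V)
    (hAT : ∀ e, A e ⊆ T)
    (hA : ∀ e, Conn G (A e) ∧ y e ∈ A e ∧ y e ∈ S e.1 ∧ z e ∈ A e ∧ z e ∈ S0 ∧
      ∀ v ∈ A e, v ∈ S0 → v = z e)
    (hd : ∀ e e', e ≠ e' → Disjoint (A e) (A e'))
    (hw : ∀ k, Woven G (S k) w (Fintype.card κ * w - w)) :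
    ∃ E : κ → Fin w → Finset V, (∀ k i, E k i ⊆ T) ∧ (∀ k i, Conn G (E k i)) ∧
      (∀ k i, z (k, i) ∈ E k i ∧ ∀ v ∈ E k i, v ∈ S0 → v = z (k, i)) ∧
      (∀ k i k' i', (k, i) ≠ (k', i') → Disjoint (E k i) (E k' i')) ∧
      (∀ k i j, i ≠ j → ∃ x ∈ E k i, ∃ y ∈ E k j, G.Adj x y) := by
  classical
  have main : ∀ D : Finset κ, ∃ A' y' B', St G w T S S0 D A' y' z B' := by
    intro D
    induction D using Finset.induction_on with
    | empty =>
      refine ⟨A, y, fun _ => ∅, hAT, fun e => (hA e).1, fun e => (hA e).2.1, fun e => (hA e).2.2.1,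
        fun e => (hA e).2.2.2.1, fun e => (hA e).2.2.2.2.2, hd, ?_, ?_, ?_, ?_, ?_, ?_⟩
      · intro e he; simp at he
      · intro e he; simp at he
      · intro e he; simp at he
      · intro e e' _ he; simp at he
      · intro k i j hk; simp at hk
      · intro k i j hk; simp at hk
    | insert k0 D _ ih =>
      obtain ⟨A', y', B', h⟩ := ih
      exact step G w T S S0 hST hS hS0 hw D A' y' z B' h k0
  obtain ⟨A', y', B, h⟩ := main univ
  refine ⟨fun k i => A' (k, i) ∪ B (k, i), ?_, ?_, ?_, ?_, ?_⟩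
  · intro k i
    exact Finset.union_subset (h.sub _) ((h.BS (k, i) (Finset.mem_univ _)).trans (hST k))
  · intro k i
    exact MengerAux.conn_union (h.conn _) (h.Bconn _ (Finset.mem_univ _)) (h.yA _)
      (h.yB _ (Finset.mem_univ _))
  · intro k i
    refine ⟨Finset.mem_union.2 (Or.inl (h.zA _)), ?_⟩
    intro v hv hv0
    rcases Finset.mem_union.1 hv with hv | hv
    · exact h.zS _ v hv hv0
    · exact absurd hv0 (Finset.disjoint_left.1 (hS0 k) (h.BS (k, i) (Finset.mem_univ _) hv))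
  · intro k i k' i' hne
    rw [Finset.disjoint_union_left, Finset.disjoint_union_right, Finset.disjoint_union_right]
    refine ⟨⟨h.disj _ _ hne, (h.BA _ _ hne.symm (Finset.mem_univ _)).symm⟩,
      h.BA _ _ hne (Finset.mem_univ _), ?_⟩
    by_cases hk : k = k'
    · subst hk
      exact h.BB k i i' (Finset.mem_univ _) (fun h1 => hne (by rw [h1]))
    · exact Finset.disjoint_of_subset_left (h.BS (k, i) (Finset.mem_univ _))
        (Finset.disjoint_of_subset_right (h.BS (k', i') (Finset.mem_univ _)) (hS k k' hk))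
  · intro k i j hij
    obtain ⟨x, hx, x', hx', hadj⟩ := h.adj k i j (Finset.mem_univ _) hij
    exact ⟨x, Finset.mem_union.2 (Or.inr hx), x', Finset.mem_union.2 (Or.inr hx'), hadj⟩

end Vale.Agent.P060
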