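import Mathlib
import Vale.Agent.P060.Lin.LinDefs
import Vale.Agent.P060.Menger
import Vale.Agent.P060.Lin.Ext

namespace Vale.Agent.P060

open Finset

variable {V : Type} [Fintype V] [DecidableEq V]

/-- restriction of a separation to `S \ D` -/
theorem flow_sep_restrict {G : SimpleGraph V} {S C E : Finset V} (D : Finset V)
    (h : Sep G S C E) : Sep G (S \ D) (C \ D) (E \ D) := by
  refine ⟨?_, ?_⟩
  · ext x
    have : x ∈ S ↔ (x ∈ C ∨ x ∈ E) := by rw [← h.1, mem_union]
    simp only [mem_union, mem_sdiff]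
    tauto
  · intro a ha b hb
    simp only [mem_sdiff] at ha hb
    exact h.2 a (by simp only [mem_sdiff]; tauto) b (by simp only [mem_sdiff]; tauto)

/-- extension of a separation of `S \ D` to `S` -/
theorem flow_sep_extend {G : SimpleGraph V} {S C E D : Finset V} (hD : D ⊆ S)
    (h : Sep G (S \ D) C E) : Sep G S (C ∪ D) (E ∪ D) := by
  refine ⟨?_, ?_⟩
  · ext x
    have h1 : x ∈ S \ D ↔ (x ∈ C ∨ x ∈ E) := by rw [← h.1, mem_union]
    have h2 : x ∈ D → x ∈ S := fun hx => hD hx
    simp only [mem_sdiff] at h1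
    simp only [mem_union]
    tauto
  · intro a ha b hb
    simp only [mem_sdiff, mem_union] at ha hb
    exact h.2 a (by simp only [mem_sdiff]; tauto) b (by simp only [mem_sdiff]; tauto)

/-- one augmentation step, in terms of separations -/
theorem flow_step {G : SimpleGraph V} {S A Y X : Finset V} {n : ℕ} (hAS : A ⊆ S) (hYS : Y ⊆ S)
    (hXA : X ⊆ A)
    (hX : ∀ C E, Sep G S C E → A ⊆ C → Y ⊆ E → A \ X ⊆ E → A.card ≤ (C ∩ E).card)
    (hn : ∀ C E, Sep G S C E → A ⊆ C → Y ⊆ E → n ≤ (C ∩ E).card) (hXn : X.card < n) :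
    ∃ d ∈ A, d ∉ X ∧ ∀ C E, Sep G S C E → A ⊆ C → Y ⊆ E → A \ insert d X ⊆ E →
      A.card ≤ (C ∩ E).card := by
  by_contra hcon
  push Not at hcon
  have key : ∀ U : Finset V, U ⊆ A → Disjoint U X → ∃ C E, Sep G S C E ∧ A ⊆ C ∧ Y ⊆ E ∧
      A \ (X ∪ U) ⊆ E ∧ (C ∩ E).card + U.card ≤ A.card := by
    intro U
    induction U using Finset.induction_on with
    | empty =>
      intro _ _
      refine ⟨A, S, ⟨Finset.union_eq_right.2 hAS, ?_⟩, Finset.Subset.refl _, hYS, ?_, ?_⟩
      · intro a ha
        rw [mem_sdiff] at ha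
        exact absurd (hAS ha.1) ha.2
      · exact Finset.sdiff_subset.trans hAS
      · simpa using Finset.card_le_card (Finset.inter_subset_left (s₁ := A) (s₂ := S))
    | insert d U hd ih =>
      intro hU hdis
      rw [Finset.disjoint_insert_left] at hdis
      obtain ⟨C1, E1, hs1, hc1, he1, ha1, hk1⟩ :=
        ih ((Finset.subset_insert _ _).trans hU) hdis.2
      obtain ⟨C2, E2, hs2, hc2, he2, ha2, hk2⟩ :=
        hcon d (hU (Finset.mem_insert_self _ _)) hdis.1
      have h3 : A.card ≤ ((C1 ∩ C2) ∩ (E1 ∪ E2)).card := by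
        apply hX _ _ (Lin.sep_inter hs1 hs2) (Finset.subset_inter hc1 hc2)
          (he1.trans Finset.subset_union_left)
        intro x hx
        rw [mem_sdiff] at hx
        rw [mem_union]
        by_cases hxU : x ∈ U
        · right
          apply ha2
          rw [mem_sdiff, mem_insert]
          refine ⟨hx.1, ?_⟩
          rintro (h | h)
          · exact hd (h ▸ hxU)
          · exact hx.2 h
        · left
          apply ha1
          rw [mem_sdiff, mem_union]
          exact ⟨hx.1, by tauto⟩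
      have h4 := Lin.sep_card C1 E1 C2 E2
      refine ⟨C1 ∪ C2, E1 ∩ E2, Lin.sep_union hs1 hs2, hc1.trans Finset.subset_union_left,
        Finset.subset_inter he1 he2, ?_, ?_⟩
      · intro x hx
        simp only [mem_sdiff, mem_union, mem_insert] at hx
        rw [mem_inter]
        constructor
        · apply ha1
          rw [mem_sdiff, mem_union]
          exact ⟨hx.1, by tauto⟩
        · apply ha2
          rw [mem_sdiff, mem_insert]
          exact ⟨hx.1, by tauto⟩
      · rw [Finset.card_insert_of_notMem hd]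
        omega
  obtain ⟨C, E, hs, hc, he, _, hk⟩ := key (A \ X) Finset.sdiff_subset Finset.sdiff_disjoint
  have h1 := hn C E hs hc he
  have h2 : (A \ X).card = A.card - X.card := Finset.card_sdiff_of_subset hXA
  have h3 := Finset.card_le_card hXA
  omega

/-- ROW FLOW: extend a linkage `Z -> Y` avoiding `D` by `a` paths from `D`. -/
theorem flow (G : SimpleGraph V) (S Z Y D : Finset V) (κ a : ℕ) (hS : HConn G S κ)
    (hZ : Z ⊆ S) (hY : Y ⊆ S) (hD : D ⊆ S) (hDZ : Disjoint D Z) (hDY : Disjoint D Y)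
    (hP : ∃ L : Fin Z.card → Finset V, (∀ i, L i ⊆ S \ D) ∧ (∀ i, Conn G (L i)) ∧
      (∀ i j, i ≠ j → Disjoint (L i) (L j)) ∧ (∀ i, (L i ∩ Z).card = 1) ∧
      ∀ i, (L i ∩ Y).card = 1)
    (hk : Z.card + a ≤ κ) (hYc : Z.card + a ≤ Y.card) (hDc : a ≤ D.card) :
    ∃ D' ⊆ D, D'.card = a ∧ ∃ L : Fin (Z.card + a) → Finset V,
      (∀ i, L i ⊆ (S \ D) ∪ D') ∧ (∀ i, Conn G (L i)) ∧
      (∀ i j, i ≠ j → Disjoint (L i) (L j)) ∧ (∀ i, (L i ∩ (Z ∪ D')).card = 1) ∧
      ∀ i, (L i ∩ Y).card = 1 := by
  classical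
  set A := Z ∪ D with hA
  have hAS : A ⊆ S := Finset.union_subset hZ hD
  have hAc : A.card = Z.card + D.card := Finset.card_union_of_disjoint hDZ.symm
  -- the total connectivity
  have hn : ∀ C E, Sep G S C E → A ⊆ C → Y ⊆ E → Z.card + a ≤ (C ∩ E).card := by
    intro C E hs hc he
    by_cases h1 : (C \ E).Nonempty
    · by_cases h2 : (E \ C).Nonempty
      · exact hk.trans (hS C E hs h1 h2)
      · rw [Finset.not_nonempty_iff_eq_empty, Finset.sdiff_eq_empty_iff_subset] at h2
        exact hYc.trans (Finset.card_le_card (Finset.subset_inter (he.trans h2) he))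
    · rw [Finset.not_nonempty_iff_eq_empty, Finset.sdiff_eq_empty_iff_subset] at h1
      have := Finset.card_le_card (Finset.subset_inter hc (hc.trans h1))
      omega
  -- `Z` is linked
  have h0 : ∀ C E, Sep G S C E → A ⊆ C → Y ⊆ E → A \ Z ⊆ E → A.card ≤ (C ∩ E).card := by
    intro C E hs hc he hz
    have hDA : A \ Z = D := by
      rw [hA, Finset.union_sdiff_left]
      exact Finset.sdiff_eq_self_of_disjoint hDZ
    rw [hDA] at hz
    have hDC : D ⊆ C := Finset.subset_union_right.trans hc
    have hf : Z.card ≤ ((C \ D) ∩ (E \ D)).card := by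
      apply Lin.fam_le (A := Z) (B := Y) hP (flow_sep_restrict D hs)
      · intro x hx
        rw [mem_sdiff]
        exact ⟨hc (mem_union_left _ hx), fun h => (Finset.disjoint_left.1 hDZ) h hx⟩
      · intro x hx
        rw [mem_sdiff]
        exact ⟨he hx, fun h => (Finset.disjoint_left.1 hDY) h hx⟩
    have h1 : D ∪ ((C \ D) ∩ (E \ D)) ⊆ C ∩ E := by
      intro x hx
      simp only [mem_union, mem_inter, mem_sdiff] at hx ⊢
      rcases hx with hx | hx
      · exact ⟨hDC hx, hz hx⟩
      · exact ⟨hx.1.1, hx.2.1⟩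
    have h2 : Disjoint D ((C \ D) ∩ (E \ D)) := by
      rw [Finset.disjoint_left]
      intro x hx hx2
      simp only [mem_inter, mem_sdiff] at hx2
      exact hx2.1.2 hx
    have h3 := Finset.card_le_card h1
    rw [Finset.card_union_of_disjoint h2] at h3
    omega
  -- augmentation
  have haug : ∀ b, b ≤ a → ∃ X, Z ⊆ X ∧ X ⊆ A ∧ X.card = Z.card + b ∧
      ∀ C E, Sep G S C E → A ⊆ C → Y ⊆ E → A \ X ⊆ E → A.card ≤ (C ∩ E).card := by
    intro b
    induction b with
    | zero =>
      intro _
      exact ⟨Z, Finset.Subset.refl _, Finset.subset_union_left, rfl, h0⟩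
    | succ b ih =>
      intro hb
      obtain ⟨X, hX1, hX2, hX3, hX4⟩ := ih (by omega)
      obtain ⟨d, hd1, hd2, hd3⟩ := flow_step hAS hY hX2 hX4 hn (by omega)
      refine ⟨insert d X, hX1.trans (Finset.subset_insert _ _), ?_, ?_, hd3⟩
      · intro x hx
        rw [mem_insert] at hx
        rcases hx with rfl | hx
        · exact hd1
        · exact hX2 hx
      · rw [Finset.card_insert_of_notMem hd2]
        omega
  obtain ⟨X, hX1, hX2, hX3, hX4⟩ := haug a le_rfl
  -- menger in `S \ (A \ X)`
  have hAX : A \ X ⊆ S := Finset.sdiff_subset.trans hAS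
  have hAXD : A \ X ⊆ D := by
    intro x hx
    rw [mem_sdiff, hA, mem_union] at hx
    rcases hx.1 with h | h
    · exact absurd (hX1 h) hx.2
    · exact h
  obtain ⟨L, hL1, hL2, hL3, hL4, hL5⟩ := menger G (S \ (A \ X)) X Y (Z.card + a)
    (by
      intro x hx
      rw [mem_sdiff, mem_sdiff]
      exact ⟨hAS (hX2 hx), fun h => h.2 hx⟩)
    (by
      intro x hx
      rw [mem_sdiff]
      exact ⟨hY hx, fun h => (Finset.disjoint_left.1 hDY) (hAXD h) hx⟩)
    (by
      intro C E hs hc he
      have h1 := hX4 _ _ (flow_sep_extend hAX hs)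
        (by
          intro x hx
          rw [mem_union]
          by_cases hxX : x ∈ X
          · exact Or.inl (hc hxX)
          · exact Or.inr (by rw [mem_sdiff]; exact ⟨hx, hxX⟩))
        (he.trans Finset.subset_union_left) Finset.subset_union_right
      have h2 : (C ∪ A \ X) ∩ (E ∪ A \ X) ⊆ (C ∩ E) ∪ (A \ X) := by
        intro x hx
        simp only [mem_union, mem_inter] at hx ⊢
        tauto
      have h3 := (Finset.card_le_card h2).trans (Finset.card_union_le _ _)
      have h4 : (A \ X).card = A.card - X.card := Finset.card_sdiff_of_subset hX2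
      have h5 := Finset.card_le_card hX2
      omega)
  refine ⟨X \ Z, ?_, ?_, L, ?_, hL2, hL3, ?_, hL5⟩
  · intro x hx
    rw [mem_sdiff] at hx
    have := hX2 hx.1
    rw [hA, mem_union] at this
    tauto
  · rw [Finset.card_sdiff_of_subset hX1]
    omega
  · intro i x hx
    have h8 := hL1 i hx
    have h7 : x ∈ Z → x ∉ D := fun h h' => (Finset.disjoint_left.1 hDZ) h' h
    simp only [mem_sdiff, mem_union, hA] at h8 ⊢
    tauto
  · intro i
    rw [Finset.union_sdiff_of_subset hX1]
    exact hL4 i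

end Vale.Agent.P060
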