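import Mathlib
import Vale.Agent.P060.Lin.LinDefs

/-!
# P060, linear bound, row GN: a highly connected subgraph of large chromatic number
(Girao and Narayanan), by weighted precoloured triples.
-/

namespace Vale.Agent.P060

open Finset

set_option linter.unusedSectionVars false

variable {V : Type} [Fintype V] [DecidableEq V]

namespace GNaux

/-! ### degrees -/

open Classical in
theorem deg_eq (G : SimpleGraph V) (T : Finset V) (v : V) :
    degIn G T v = ∑ w ∈ T, if G.Adj v w then 1 else 0 := by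
  unfold degIn
  rw [Finset.card_filter]

theorem deg_mono (G : SimpleGraph V) {A B : Finset V} (h : A ⊆ B) (v : V) :
    degIn G A v ≤ degIn G B v := by
  classical
  unfold degIn
  exact card_le_card (filter_subset_filter _ h)

theorem deg_card (G : SimpleGraph V) (A : Finset V) (v : V) : degIn G A v ≤ A.card := by
  classical
  unfold degIn
  exact card_filter_le _ _

theorem deg_union (G : SimpleGraph V) {A B : Finset V} (h : Disjoint A B) (v : V) :
    degIn G (A ∪ B) v = degIn G A v + degIn G B v := by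
  classical
  rw [deg_eq, deg_eq, deg_eq, sum_union h]

theorem deg_union_le (G : SimpleGraph V) (A B : Finset V) (v : V) :
    degIn G (A ∪ B) v ≤ degIn G A v + B.card := by
  classical
  have h1 : A ∪ B = A ∪ (B \ A) := by
    rw [union_sdiff_self_eq_union]
  rw [h1, deg_union G disjoint_sdiff v]
  have h2 := deg_card G (B \ A) v
  have h3 : (B \ A).card ≤ B.card := card_le_card sdiff_subset
  omega

theorem deg_sdiff (G : SimpleGraph V) {R T : Finset V} (h : T ⊆ R) (v : V) :
    degIn G (R \ T) v + degIn G T v = degIn G R v := by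
  rw [← deg_union G sdiff_disjoint v, sdiff_union_of_subset h]

theorem deg_comm (G : SimpleGraph V) (A B : Finset V) :
    ∑ a ∈ A, degIn G B a = ∑ b ∈ B, degIn G A b := by
  classical
  simp only [deg_eq]
  rw [sum_comm]
  refine sum_congr rfl fun b _ => sum_congr rfl fun a _ => ?_
  by_cases h : G.Adj a b
  · rw [if_pos h, if_pos h.symm]
  · rw [if_neg h, if_neg (fun h' => h h'.symm)]

theorem deg_zero (G : SimpleGraph V) {A : Finset V} {v : V} (h : ∀ a ∈ A, ¬ G.Adj v a) :
    degIn G A v = 0 := by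
  classical
  rw [deg_eq]
  exact sum_eq_zero fun a ha => if_neg (h a ha)

theorem exists_of_deg_pos (G : SimpleGraph V) {A : Finset V} {v : V} (h : 0 < degIn G A v) :
    ∃ a ∈ A, G.Adj v a := by
  by_contra hc
  push Not at hc
  rw [deg_zero G hc] at h
  exact lt_irrefl _ h

open Classical in
theorem card_img_nbr (G : SimpleGraph V) (A : Finset V) (v : V) (φ : V → ℕ) :
    ((A.filter (fun x => G.Adj v x)).image φ).card ≤ degIn G A v := by
  refine card_image_le.trans ?_
  unfold degIn
  exact le_of_eq (by congr)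

/-! ### greedy choice of distinct colours -/

theorem greedy (T : Finset V) (P : Finset ℕ) (F : V → Finset ℕ)
    (h : ∀ u ∈ T, (F u).card + T.card ≤ P.card) :
    ∃ g : V → ℕ, (∀ u ∈ T, g u ∈ P ∧ g u ∉ F u) ∧ ∀ a ∈ T, ∀ b ∈ T, a ≠ b → g a ≠ g b := by
  induction T using Finset.induction_on with
  | empty => exact ⟨fun _ => 0, by simp, by simp⟩
  | insert a T ha ih =>
    obtain ⟨g, g1, g2⟩ := ih (fun u hu => by
      have := h u (mem_insert_of_mem hu)
      rw [card_insert_of_notMem ha] at this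
      omega)
    have h1 := h a (mem_insert_self _ _)
    rw [card_insert_of_notMem ha] at h1
    have h2 : (F a ∪ T.image g).card < P.card := by
      have h3 := card_union_le (F a) (T.image g)
      have h4 : (T.image g).card ≤ T.card := card_image_le
      omega
    obtain ⟨c, hcP, hc⟩ := exists_mem_notMem_of_card_lt_card h2
    rw [mem_union, not_or] at hc
    refine ⟨fun v => if v = a then c else g v, ?_, ?_⟩
    · intro u hu
      beta_reduce
      rcases mem_insert.1 hu with rfl | huT
      · rw [if_pos rfl]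
        exact ⟨hcP, hc.1⟩
      · have hua : u ≠ a := fun h => ha (h ▸ huT)
        rw [if_neg hua]
        exact g1 u huT
    · intro x hx y hy hxy
      beta_reduce
      rcases mem_insert.1 hx with rfl | hxT <;> rcases mem_insert.1 hy with rfl | hyT
      · exact absurd rfl hxy
      · have hya : y ≠ x := fun h => ha (h ▸ hyT)
        rw [if_pos rfl, if_neg hya]
        intro he
        exact hc.2 (mem_image.2 ⟨y, hyT, he.symm⟩)
      · have hxa : x ≠ y := fun h => ha (h ▸ hxT)
        rw [if_neg hxa, if_pos rfl]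
        intro he
        exact hc.2 (mem_image.2 ⟨x, hxT, he⟩)
      · have hxa : x ≠ a := fun h => ha (h ▸ hxT)
        have hya : y ≠ a := fun h => ha (h ▸ hyT)
        rw [if_neg hxa, if_neg hya]
        exact g2 x hxT y hyT hxy

/-! ### triples -/

/-- `φ` on `X` extends to a proper colouring on `R` (edges inside `X` do not count). -/
def Ext (G : SimpleGraph V) (k : ℕ) (R X : Finset V) (φ : V → ℕ) : Prop :=
  ∃ ψ : V → ℕ, (∀ v ∈ R, ψ v < k) ∧ (∀ a ∈ R, ∀ b ∈ R, G.Adj a b → ψ a ≠ ψ b) ∧
    ∀ a ∈ R, ∀ x ∈ X, G.Adj a x → ψ a ≠ φ x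

/-- the weight -/
noncomputable def wt (G : SimpleGraph V) (D : ℕ) (R X : Finset V) : ℕ :=
  ∑ x ∈ X, min D (degIn G R x)

/-- bad triples -/
structure Bad (G : SimpleGraph V) (k D : ℕ) (U R X : Finset V) (φ : V → ℕ) : Prop where
  RU : R ⊆ U
  XU : X ⊆ U
  dis : Disjoint R X
  w : wt G D R X ≤ 2 * (D * D)
  m : ∀ v ∈ R, degIn G X v ≤ 5 * D
  ne : ¬ Ext G k R X φ

/-- minimality -/
def Minl (G : SimpleGraph V) (k D : ℕ) (U R : Finset V) : Prop :=
  ∀ (R' X' : Finset V) (φ' : V → ℕ), R'.card < R.card → ¬ Bad G k D U R' X' φ'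

theorem exists_min (G : SimpleGraph V) (U : Finset V) (k D : ℕ) (hk : ¬ Col G U k) :
    ∃ (R X : Finset V) (φ : V → ℕ), Bad G k D U R X φ ∧ Minl G k D U R := by
  classical
  have hbase : Bad G k D U U ∅ (fun _ => 0) := by
    refine ⟨Finset.Subset.refl _, empty_subset _, by simp, by simp [wt], ?_, ?_⟩
    · intro v _
      have := deg_card G (∅ : Finset V) v
      rw [card_empty] at this
      omega
    · rintro ⟨ψ, h1, h2, -⟩
      exact hk ⟨ψ, h1, h2⟩
  have h : ∃ n : ℕ, ∃ (R X : Finset V) (φ : V → ℕ), R.card = n ∧ Bad G k D U R X φ :=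
    ⟨_, U, ∅, fun _ => 0, rfl, hbase⟩
  obtain ⟨R, X, φ, hR, hB⟩ := Nat.find_spec h
  refine ⟨R, X, φ, hB, fun R' X' φ' hlt hB' => ?_⟩
  have hlt' : R'.card < Nat.find h := by omega
  exact Nat.find_min h hlt' ⟨R', X', φ', rfl, hB'⟩

variable {G : SimpleGraph V} {k D : ℕ} {U R X : Finset V} {φ : V → ℕ}

/-- the rich vertices -/
noncomputable def rich (G : SimpleGraph V) (D : ℕ) (R X : Finset V) : Finset V := by
  classical
  exact X.filter (fun x => D ≤ degIn G R x)

/-- the poor vertices -/
noncomputable def poor (G : SimpleGraph V) (D : ℕ) (R X : Finset V) : Finset V := by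
  classical
  exact X.filter (fun x => ¬ D ≤ degIn G R x)

theorem mem_rich {x : V} : x ∈ rich G D R X ↔ x ∈ X ∧ D ≤ degIn G R x := by
  classical
  unfold rich
  rw [mem_filter]

theorem mem_poor {x : V} : x ∈ poor G D R X ↔ x ∈ X ∧ ¬ D ≤ degIn G R x := by
  classical
  unfold poor
  rw [mem_filter]

theorem rich_sub : rich G D R X ⊆ X := fun _ h => (mem_rich.1 h).1

theorem poor_sub : poor G D R X ⊆ X := fun _ h => (mem_poor.1 h).1

theorem rich_disj_poor : Disjoint (rich G D R X) (poor G D R X) := by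
  rw [Finset.disjoint_left]
  intro x h1 h2
  exact (mem_poor.1 h2).2 (mem_rich.1 h1).2

theorem rich_union_poor : rich G D R X ∪ poor G D R X = X := by
  ext x
  rw [mem_union, mem_rich, mem_poor]
  tauto

theorem wt_eq : wt G D R X = (rich G D R X).card * D + ∑ x ∈ poor G D R X, degIn G R x := by
  unfold wt
  conv_lhs => rw [← rich_union_poor (G := G) (D := D) (R := R) (X := X)]
  rw [sum_union rich_disj_poor]
  congr 1
  · rw [← smul_eq_mul, ← sum_const]
    refine sum_congr rfl fun x hx => ?_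
    exact min_eq_left (mem_rich.1 hx).2
  · refine sum_congr rfl fun x hx => ?_
    exact min_eq_right (not_le.1 (mem_poor.1 hx).2).le

theorem rich_card (hD : 1 ≤ D) (hw : wt G D R X ≤ 2 * (D * D)) :
    (rich G D R X).card ≤ 2 * D := by
  rw [wt_eq] at hw
  have h1 : (rich G D R X).card * D ≤ 2 * D * D := by
    have : 2 * D * D = 2 * (D * D) := by ring
    omega
  exact Nat.le_of_mul_le_mul_right h1 hD

theorem ext_of_lt (hB : Bad G k D U R X φ) (hmin : Minl G k D U R) {R' : Finset V}
    (hR' : R' ⊆ R) (hlt : R'.card < R.card) : Ext G k R' X φ := by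
  by_contra hne
  refine hmin R' X φ hlt ⟨hR'.trans hB.RU, hB.XU, disjoint_of_subset_left hR' hB.dis, ?_,
    fun v hv => hB.m v (hR' hv), hne⟩
  refine le_trans ?_ hB.w
  unfold wt
  exact sum_le_sum fun x _ => min_le_min le_rfl (deg_mono G hR' x)

/-- (1) no vertex of `R` has many neighbours in `X` -/
theorem no_big (hD : 1 ≤ D) (hk : 10 * D ≤ k) (hB : Bad G k D U R X φ)
    (hmin : Minl G k D U R) : ∀ v ∈ R, degIn G X v < 3 * D := by
  classical
  by_contra hcon
  push Not at hcon
  obtain ⟨v0, hv0, hv0d⟩ := hcon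
  set T : Finset V := R.filter (fun v => 3 * D ≤ degIn G X v) with hT
  have hTR : T ⊆ R := filter_subset _ _
  have hv0T : v0 ∈ T := mem_filter.2 ⟨hv0, hv0d⟩
  set X1 := rich G D R X with hX1
  set X0 := poor G D R X with hX0
  have hrc : X1.card ≤ 2 * D := rich_card hD hB.w
  have hd0 : ∀ v ∈ T, D ≤ degIn G X0 v := by
    intro v hv
    have h1 := (mem_filter.1 hv).2
    have h2 : degIn G X v = degIn G X1 v + degIn G X0 v := by
      rw [← deg_union G rich_disj_poor v, rich_union_poor]
    have h3 := deg_card G X1 v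
    omega
  have hsum1 : T.card * D ≤ ∑ x ∈ X0, degIn G T x := by
    rw [← deg_comm G T X0, ← smul_eq_mul, ← sum_const]
    exact sum_le_sum hd0
  have hsum2 : ∑ x ∈ X0, degIn G T x ≤ ∑ x ∈ X0, degIn G R x :=
    sum_le_sum fun x _ => deg_mono G hTR x
  have hw := hB.w
  have hweq : wt G D R X = X1.card * D + ∑ x ∈ X0, degIn G R x := wt_eq
  have hTc : T.card ≤ 2 * D := by
    have h1 : T.card * D ≤ 2 * D * D := by
      have : 2 * D * D = 2 * (D * D) := by ring
      omega
    exact Nat.le_of_mul_le_mul_right h1 hD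
  have hXT : Disjoint X T := (disjoint_of_subset_left hTR hB.dis).symm
  -- the new weight
  have hwnew : wt G D (R \ T) (X ∪ T) ≤ 2 * (D * D) := by
    refine le_trans ?_ hw
    unfold wt
    rw [sum_union hXT]
    have h1 : ∑ x ∈ T, min D (degIn G (R \ T) x) ≤ T.card * D := by
      rw [← smul_eq_mul, ← sum_const]
      exact sum_le_sum fun x _ => min_le_left _ _
    have h2 : ∑ x ∈ X, min D (degIn G (R \ T) x) + ∑ x ∈ X0, degIn G T x ≤
        ∑ x ∈ X, min D (degIn G R x) := by
      have e1 : ∑ x ∈ X, min D (degIn G (R \ T) x) =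
          ∑ x ∈ X1, min D (degIn G (R \ T) x) + ∑ x ∈ X0, min D (degIn G (R \ T) x) := by
        rw [← sum_union rich_disj_poor, rich_union_poor]
      have e2 : ∑ x ∈ X, min D (degIn G R x) =
          ∑ x ∈ X1, min D (degIn G R x) + ∑ x ∈ X0, min D (degIn G R x) := by
        rw [← sum_union rich_disj_poor, rich_union_poor]
      have e3 : ∑ x ∈ X1, min D (degIn G (R \ T) x) ≤ ∑ x ∈ X1, min D (degIn G R x) :=
        sum_le_sum fun x _ => min_le_min le_rfl (deg_mono G sdiff_subset x)
      have e4 : ∑ x ∈ X0, min D (degIn G (R \ T) x) + ∑ x ∈ X0, degIn G T x ≤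
          ∑ x ∈ X0, min D (degIn G R x) := by
        rw [← sum_add_distrib]
        refine sum_le_sum fun x hx => ?_
        have h5 := deg_sdiff G hTR x
        have h6 := (mem_poor.1 hx).2
        omega
      omega
    omega
  -- colours for `T`
  obtain ⟨g, g1, g2⟩ := greedy T (range k) (fun u => (X.filter (fun x => G.Adj u x)).image φ)
    (by
      intro u hu
      have h1 : ((X.filter (fun x => G.Adj u x)).image φ).card ≤ degIn G X u := by
        refine card_image_le.trans ?_
        unfold degIn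
        exact le_of_eq (by congr)
      have h2 := hB.m u (hTR hu)
      rw [card_range]
      omega)
  have hlt : (R \ T).card < R.card := by
    apply card_lt_card
    rw [ssubset_iff_of_subset sdiff_subset]
    exact ⟨v0, hv0, fun h => (mem_sdiff.1 h).2 hv0T⟩
  refine hmin (R \ T) (X ∪ T) (fun v => if v ∈ T then g v else φ v) hlt
    ⟨sdiff_subset.trans hB.RU, union_subset hB.XU (hTR.trans hB.RU), ?_, hwnew, ?_, ?_⟩
  · rw [disjoint_union_right]
    exact ⟨disjoint_of_subset_left sdiff_subset hB.dis, sdiff_disjoint⟩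
  · intro v hv
    have hvR := (mem_sdiff.1 hv).1
    have hvT := (mem_sdiff.1 hv).2
    have h1 : ¬ 3 * D ≤ degIn G X v := fun h => hvT (mem_filter.2 ⟨hvR, h⟩)
    have h2 := deg_union_le G X T v
    omega
  · rintro ⟨ψ, p1, p2, p3⟩
    replace p3 : ∀ a ∈ R \ T, ∀ x ∈ X ∪ T, G.Adj a x → ψ a ≠ if x ∈ T then g x else φ x := p3
    apply hB.ne
    refine ⟨fun v => if v ∈ T then g v else ψ v, ?_, ?_, ?_⟩
    · intro v hv
      beta_reduce
      by_cases hvT : v ∈ T
      · rw [if_pos hvT]
        exact mem_range.1 (g1 v hvT).1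
      · rw [if_neg hvT]
        exact p1 v (mem_sdiff.2 ⟨hv, hvT⟩)
    · intro a ha b hb hab
      beta_reduce
      by_cases haT : a ∈ T <;> by_cases hbT : b ∈ T
      · rw [if_pos haT, if_pos hbT]
        exact g2 a haT b hbT hab.ne
      · rw [if_pos haT, if_neg hbT]
        have := p3 b (mem_sdiff.2 ⟨hb, hbT⟩) a (mem_union_right _ haT) hab.symm
        rw [if_pos haT] at this
        exact this.symm
      · rw [if_neg haT, if_pos hbT]
        have := p3 a (mem_sdiff.2 ⟨ha, haT⟩) b (mem_union_right _ hbT) hab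
        rw [if_pos hbT] at this
        exact this
      · rw [if_neg haT, if_neg hbT]
        exact p2 a (mem_sdiff.2 ⟨ha, haT⟩) b (mem_sdiff.2 ⟨hb, hbT⟩) hab
    · intro a ha x hx hax
      beta_reduce
      have hxT : x ∉ T := fun h => (Finset.disjoint_left.1 hXT) hx h
      by_cases haT : a ∈ T
      · rw [if_pos haT]
        intro he
        exact (g1 a haT).2 (mem_image.2 ⟨x, mem_filter.2 ⟨hx, hax⟩, he.symm⟩)
      · rw [if_neg haT]
        have := p3 a (mem_sdiff.2 ⟨ha, haT⟩) x (mem_union_left _ hx) hax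
        rw [if_neg hxT] at this
        exact this

/-- (2) large degree -/
theorem deg_ge (hB : Bad G k D U R X φ) (hmin : Minl G k D U R) {v : V} (hv : v ∈ R) :
    k ≤ degIn G R v + degIn G X v := by
  classical
  by_contra hlt
  push Not at hlt
  obtain ⟨ψ, p1, p2, p3⟩ := ext_of_lt hB hmin (R' := R.erase v) (erase_subset _ _)
    (card_erase_lt_of_mem hv)
  have hc : ((R.filter (fun x => G.Adj v x)).image ψ ∪
      (X.filter (fun x => G.Adj v x)).image φ).card < (range k).card := by
    rw [card_range]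
    have h1 := card_union_le ((R.filter (fun x => G.Adj v x)).image ψ)
      ((X.filter (fun x => G.Adj v x)).image φ)
    have h2 : ((R.filter (fun x => G.Adj v x)).image ψ).card ≤ degIn G R v := by
      refine card_image_le.trans ?_
      unfold degIn
      exact le_of_eq (by congr)
    have h3 : ((X.filter (fun x => G.Adj v x)).image φ).card ≤ degIn G X v := by
      refine card_image_le.trans ?_
      unfold degIn
      exact le_of_eq (by congr)
    omega
  obtain ⟨c, hck, hc⟩ := exists_mem_notMem_of_card_lt_card hc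
  rw [mem_union, not_or] at hc
  obtain ⟨hc1, hc2⟩ := hc
  apply hB.ne
  refine ⟨fun w => if w = v then c else ψ w, ?_, ?_, ?_⟩
  · intro w hw
    beta_reduce
    by_cases hwv : w = v
    · rw [if_pos hwv]
      exact mem_range.1 hck
    · rw [if_neg hwv]
      exact p1 w (mem_erase.2 ⟨hwv, hw⟩)
  · intro a ha b hb hab
    beta_reduce
    by_cases hav : a = v <;> by_cases hbv : b = v
    · exfalso
      rw [hav, hbv] at hab
      exact G.loopless.irrefl v hab
    · rw [if_pos hav, if_neg hbv]
      intro he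
      rw [hav] at hab
      exact hc1 (mem_image.2 ⟨b, mem_filter.2 ⟨hb, hab⟩, he.symm⟩)
    · rw [if_neg hav, if_pos hbv]
      intro he
      rw [hbv] at hab
      exact hc1 (mem_image.2 ⟨a, mem_filter.2 ⟨ha, hab.symm⟩, he⟩)
    · rw [if_neg hav, if_neg hbv]
      exact p2 a (mem_erase.2 ⟨hav, ha⟩) b (mem_erase.2 ⟨hbv, hb⟩) hab
  · intro a ha x hx hax
    beta_reduce
    by_cases hav : a = v
    · rw [if_pos hav]
      intro he
      rw [hav] at hax
      exact hc2 (mem_image.2 ⟨x, mem_filter.2 ⟨hx, hax⟩, he.symm⟩)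
    · rw [if_neg hav]
      exact p3 a (mem_erase.2 ⟨hav, ha⟩) x hx hax

/-- (3a) a small separation with light `B`-side is impossible -/
theorem no_split (hD : 1 ≤ D) (hk : 10 * D ≤ k) (hB : Bad G k D U R X φ)
    (hmin : Minl G k D U R) {A B : Finset V} (hs : Sep G (R ∪ rich G D R X) A B)
    (hc : (A ∩ B).card < D) (hA : (R ∩ (A \ B)).Nonempty) (hBne : (R ∩ (B \ A)).Nonempty)
    (hw : ∑ x ∈ X \ (A ∩ B), min D (degIn G (R ∩ (B \ A)) x) ≤ D * D) : False := by
  classical
  obtain ⟨hAB, hno⟩ := hs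
  have hRAB : R ⊆ A ∪ B := by rw [hAB]; exact subset_union_left
  obtain ⟨a0, ha0⟩ := hA
  obtain ⟨b0, hb0⟩ := hBne
  rw [mem_inter, mem_sdiff] at ha0 hb0
  -- extend to `R ∩ A`
  obtain ⟨ψ, p1, p2, p3⟩ := ext_of_lt hB hmin (R' := R ∩ A) inter_subset_left
    (card_lt_card (by
      rw [ssubset_iff_of_subset inter_subset_left]
      exact ⟨b0, hb0.1, fun h => hb0.2.2 (mem_inter.1 h).2⟩))
  set RB : Finset V := R ∩ (B \ A) with hRB
  set Z : Finset V := R ∩ (A ∩ B) with hZ
  have hXZ : Disjoint X Z := (disjoint_of_subset_left inter_subset_left hB.dis).symm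
  have hRBlt : RB.card < R.card := card_lt_card (by
      rw [ssubset_iff_of_subset inter_subset_left]
      exact ⟨a0, ha0.1, fun h => ha0.2.2 (mem_sdiff.1 (mem_inter.1 h).2).1⟩)
  have hZc : Z.card ≤ (A ∩ B).card := card_le_card inter_subset_right
  have hwnew : wt G D RB (X ∪ Z) ≤ 2 * (D * D) := by
    unfold wt
    have h1 : X ∪ Z ⊆ (X \ (A ∩ B)) ∪ (A ∩ B) := by
      intro x hx
      rw [mem_union, mem_sdiff]
      by_cases hxAB : x ∈ A ∩ B
      · exact Or.inr hxAB
      · rcases mem_union.1 hx with h | h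
        · exact Or.inl ⟨h, hxAB⟩
        · exact absurd (mem_inter.1 h).2 hxAB
    refine (sum_le_sum_of_subset h1).trans ?_
    rw [sum_union sdiff_disjoint]
    have h2 : ∑ x ∈ A ∩ B, min D (degIn G RB x) ≤ (A ∩ B).card * D := by
      rw [← smul_eq_mul, ← sum_const]
      exact sum_le_sum fun x _ => min_le_left _ _
    have h3 : (A ∩ B).card * D ≤ D * D := Nat.mul_le_mul_right D hc.le
    omega
  refine hmin RB (X ∪ Z) (fun v => if v ∈ R then ψ v else φ v) hRBlt
    ⟨inter_subset_left.trans hB.RU, union_subset hB.XU (inter_subset_left.trans hB.RU), ?_,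
      hwnew, ?_, ?_⟩
  · rw [disjoint_union_right]
    refine ⟨disjoint_of_subset_left inter_subset_left hB.dis, ?_⟩
    rw [Finset.disjoint_left]
    intro x h1 h2
    exact (mem_sdiff.1 (mem_inter.1 h1).2).2 (mem_inter.1 (mem_inter.1 h2).2).1
  · intro v hv
    have h1 := no_big hD hk hB hmin v (mem_inter.1 hv).1
    have h2 := deg_union_le G X Z v
    omega
  · rintro ⟨χ, q1, q2, q3⟩
    replace q3 : ∀ a ∈ RB, ∀ x ∈ X ∪ Z, G.Adj a x → χ a ≠ if x ∈ R then ψ x else φ x := q3
    apply hB.ne
    have hmemB : ∀ v ∈ R, v ∉ A → v ∈ RB := fun v hv hvA => by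
      rcases mem_union.1 (hRAB hv) with h | h
      · exact absurd h hvA
      · exact mem_inter.2 ⟨hv, mem_sdiff.2 ⟨h, hvA⟩⟩
    have hcross : ∀ a ∈ R, a ∈ A → ∀ b ∈ R, b ∉ A → G.Adj a b → χ b ≠ ψ a := by
      intro a ha haA b hb hbA hab
      have hbB := hmemB b hb hbA
      have haB : a ∈ B := by
        by_contra haB
        exact hno a (mem_sdiff.2 ⟨haA, haB⟩) b (mem_inter.1 hbB).2 hab
      have h1 := q3 b hbB a (mem_union_right _ (mem_inter.2 ⟨ha, mem_inter.2 ⟨haA, haB⟩⟩)) hab.symm
      rwa [if_pos ha] at h1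
    refine ⟨fun v => if v ∈ A then ψ v else χ v, ?_, ?_, ?_⟩
    · intro v hv
      beta_reduce
      by_cases hvA : v ∈ A
      · rw [if_pos hvA]
        exact p1 v (mem_inter.2 ⟨hv, hvA⟩)
      · rw [if_neg hvA]
        exact q1 v (hmemB v hv hvA)
    · intro a ha b hb hab
      beta_reduce
      by_cases haA : a ∈ A <;> by_cases hbA : b ∈ A
      · rw [if_pos haA, if_pos hbA]
        exact p2 a (mem_inter.2 ⟨ha, haA⟩) b (mem_inter.2 ⟨hb, hbA⟩) hab
      · rw [if_pos haA, if_neg hbA]
        exact (hcross a ha haA b hb hbA hab).symm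
      · rw [if_neg haA, if_pos hbA]
        exact hcross b hb hbA a ha haA hab.symm
      · rw [if_neg haA, if_neg hbA]
        exact q2 a (hmemB a ha haA) b (hmemB b hb hbA) hab
    · intro a ha x hx hax
      beta_reduce
      by_cases haA : a ∈ A
      · rw [if_pos haA]
        exact p3 a (mem_inter.2 ⟨ha, haA⟩) x hx hax
      · rw [if_neg haA]
        have h1 := q3 a (hmemB a ha haA) x (mem_union_left _ hx) hax
        have hxR : x ∉ R := fun h => (Finset.disjoint_left.1 hB.dis) h hx
        rwa [if_neg hxR] at h1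

/-- (3b) both proper sides of a small separation contain vertices of `R` -/
theorem side_ne {A B : Finset V} (hs : Sep G (R ∪ rich G D R X) A B)
    (hc : (A ∩ B).card < D) (hBA : (B \ A).Nonempty) : (R ∩ (B \ A)).Nonempty := by
  classical
  obtain ⟨hAB, hno⟩ := hs
  by_contra hcon
  rw [not_nonempty_iff_eq_empty] at hcon
  obtain ⟨x, hx⟩ := hBA
  have hxS : x ∈ R ∪ rich G D R X := by
    rw [← hAB]
    exact mem_union_right _ (mem_sdiff.1 hx).1
  have hxR : x ∉ R := fun h => by
    have : x ∈ R ∩ (B \ A) := mem_inter.2 ⟨h, hx⟩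
    rw [hcon] at this
    exact notMem_empty _ this
  have hxr : x ∈ rich G D R X := (mem_union.1 hxS).resolve_left hxR
  have h1 := (mem_rich.1 hxr).2
  have h2 : R = (R ∩ (A ∩ B)) ∪ (R \ (A ∩ B)) := by
    ext y
    rw [mem_union, mem_inter, mem_sdiff]
    tauto
  have h3 : degIn G R x ≤ (A ∩ B).card := by
    have hd : Disjoint (R ∩ (A ∩ B)) (R \ (A ∩ B)) := by
      rw [Finset.disjoint_left]
      intro y h1 h2
      exact (mem_sdiff.1 h2).2 (mem_inter.1 h1).2
    rw [h2, deg_union G hd x]
    have h4 : degIn G (R \ (A ∩ B)) x = 0 := by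
      apply deg_zero
      intro y hy hxy
      obtain ⟨hyR, hyAB⟩ := mem_sdiff.1 hy
      have hyS : y ∈ A ∪ B := by rw [hAB]; exact mem_union_left _ hyR
      have hyBA : y ∉ B \ A := fun h => by
        have : y ∈ R ∩ (B \ A) := mem_inter.2 ⟨hyR, h⟩
        rw [hcon] at this
        exact notMem_empty _ this
      have hyA : y ∈ A \ B := by
        rw [mem_union] at hyS
        rw [mem_inter] at hyAB
        rw [mem_sdiff] at hyBA ⊢
        tauto
      exact hno y hyA x hx hxy.symm
    have h5 := deg_card G (R ∩ (A ∩ B)) x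
    have h6 : (R ∩ (A ∩ B)).card ≤ (A ∩ B).card := card_le_card inter_subset_right
    omega
  omega

theorem sep_symm {S A B : Finset V} (h : Sep G S A B) : Sep G S B A := by
  obtain ⟨h1, h2⟩ := h
  exact ⟨by rw [union_comm]; exact h1, fun a ha b hb hab => h2 b hb a ha hab.symm⟩

/-- (3) connectivity -/
theorem hconn (hD : 1 ≤ D) (hk : 10 * D ≤ k) (hB : Bad G k D U R X φ)
    (hmin : Minl G k D U R) : HConn G (R ∪ rich G D R X) D := by
  classical
  intro A B hs hA hBne
  by_contra hc
  rw [not_le] at hc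
  have hs' := sep_symm hs
  have hc' : (B ∩ A).card < D := by rwa [inter_comm]
  have hRA := side_ne hs' hc' hA
  have hRB := side_ne hs hc hBne
  have hsum : ∑ x ∈ X \ (A ∩ B), min D (degIn G (R ∩ (A \ B)) x) +
      ∑ x ∈ X \ (A ∩ B), min D (degIn G (R ∩ (B \ A)) x) ≤ 2 * (D * D) := by
    rw [← sum_add_distrib]
    refine le_trans ?_ hB.w
    unfold wt
    refine le_trans (sum_le_sum (g := fun x => min D (degIn G R x)) fun x hx => ?_)
      (sum_le_sum_of_subset sdiff_subset)
    obtain ⟨hxX, hxAB⟩ := mem_sdiff.1 hx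
    have hdisj : Disjoint (R ∩ (A \ B)) (R ∩ (B \ A)) := by
      rw [Finset.disjoint_left]
      intro y h1 h2
      exact (mem_sdiff.1 (mem_inter.1 h1).2).2 (mem_sdiff.1 (mem_inter.1 h2).2).1
    have h1 : degIn G (R ∩ (A \ B)) x + degIn G (R ∩ (B \ A)) x ≤ degIn G R x := by
      rw [← deg_union G hdisj x]
      exact deg_mono G (union_subset inter_subset_left inter_subset_left) x
    beta_reduce
    by_cases hr : D ≤ degIn G R x
    · have hxr : x ∈ rich G D R X := mem_rich.2 ⟨hxX, hr⟩
      have hxS : x ∈ A ∪ B := by rw [hs.1]; exact mem_union_right _ hxr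
      by_cases hxA : x ∈ A
      · have hxB : x ∉ B := fun h => hxAB (mem_inter.2 ⟨hxA, h⟩)
        have h2 : degIn G (R ∩ (B \ A)) x = 0 := deg_zero G fun y hy hxy =>
          hs.2 x (mem_sdiff.2 ⟨hxA, hxB⟩) y (mem_inter.1 hy).2 hxy
        omega
      · have hxB : x ∈ B := (mem_union.1 hxS).resolve_left hxA
        have h2 : degIn G (R ∩ (A \ B)) x = 0 := deg_zero G fun y hy hxy =>
          hs.2 y (mem_inter.1 hy).2 x (mem_sdiff.2 ⟨hxB, hxA⟩) hxy.symm
        omega
    · omega
  rcases le_or_gt (∑ x ∈ X \ (A ∩ B), min D (degIn G (R ∩ (B \ A)) x)) (D * D) with h | h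
  · exact no_split hD hk hB hmin hs hc hRA hRB h
  · refine no_split hD hk hB hmin hs' hc' hRB hRA ?_
    rw [inter_comm B A]
    omega

/-- at most one shift sends the class `i` to the colour `c` -/
theorem shift_card {n : ℕ} (e : ℕ → ℕ) (he : ∀ i < n, ∀ j < n, e i = e j → i = j)
    (i c : ℕ) : ((range n).filter (fun s => c = e ((i + s) % n))).card ≤ 1 := by
  rw [card_le_one]
  intro s hs s' hs'
  obtain ⟨h1, h2⟩ := mem_filter.1 hs
  obtain ⟨h3, h4⟩ := mem_filter.1 hs'
  rw [mem_range] at h1 h3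
  have hn : 0 < n := by omega
  have h5 := he _ (Nat.mod_lt (i + s) hn) _ (Nat.mod_lt (i + s') hn) (h2.symm.trans h4)
  have h6 : i + s ≡ i + s' [MOD n] := h5
  have h7 : s ≡ s' [MOD n] := Nat.ModEq.add_left_cancel' i h6
  unfold Nat.ModEq at h7
  rwa [Nat.mod_eq_of_lt h1, Nat.mod_eq_of_lt h3] at h7

theorem shift_inj {n : ℕ} (e : ℕ → ℕ) (he : ∀ i < n, ∀ j < n, e i = e j → i = j)
    (s : ℕ) {i j : ℕ} (hi : i < n) (hj : j < n) (h : e ((i + s) % n) = e ((j + s) % n)) :
    i = j := by
  have hn : 0 < n := by omega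
  have h5 := he _ (Nat.mod_lt (i + s) hn) _ (Nat.mod_lt (j + s) hn) h
  have h6 : i + s ≡ j + s [MOD n] := h5
  have h7 : i ≡ j [MOD n] := Nat.ModEq.add_right_cancel' s h6
  unfold Nat.ModEq at h7
  rwa [Nat.mod_eq_of_lt hi, Nat.mod_eq_of_lt hj] at h7

/-- (4) the chromatic number of `R` -/
theorem not_col (hD : 1 ≤ D) (hk : 10 * D ≤ k) (hB : Bad G k D U R X φ)
    (hmin : Minl G k D U R) : ¬ Col G R (k - 10 * D) := by
  classical
  rintro ⟨f, f1, f2⟩
  set X1 := rich G D R X with hX1
  set X0 := poor G D R X with hX0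
  have hrc : X1.card ≤ 2 * D := rich_card hD hB.w
  set P : Finset ℕ := range k \ X1.image φ with hP
  have hPc : k ≤ P.card + 2 * D := by
    have h1 : (range k).card ≤ P.card + (X1.image φ).card := by
      rw [hP]
      have := card_sdiff_add_card (range k) (X1.image φ)
      have h2 : (range k).card ≤ (range k ∪ X1.image φ).card := card_le_card subset_union_left
      omega
    have h2 : (X1.image φ).card ≤ X1.card := card_image_le
    rw [card_range] at h1
    omega
  set n := P.card with hn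
  -- an enumeration of `P`
  obtain ⟨e, heP, hei⟩ : ∃ e : ℕ → ℕ, (∀ i < n, e i ∈ P) ∧
      ∀ i < n, ∀ j < n, e i = e j → i = j := by
    refine ⟨fun i => if h : i < n then ((P.equivFin).symm ⟨i, h⟩ : ℕ) else 0, ?_, ?_⟩
    · intro i hi
      beta_reduce
      rw [dif_pos hi]
      exact ((P.equivFin).symm ⟨i, hi⟩).2
    · intro i hi j hj hij
      beta_reduce at hij
      rw [dif_pos hi, dif_pos hj] at hij
      have h1 := (P.equivFin).symm.injective (Subtype.ext hij)
      exact congrArg Fin.val h1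
  have hn0 : 0 < n := by omega
  -- conflicts
  set conf : ℕ → Finset V := fun s =>
    R.filter (fun v => ∃ x ∈ X0, G.Adj v x ∧ φ x = e ((f v + s) % n)) with hconf
  have hsum : ∑ s ∈ range n, (conf s).card ≤ 2 * (D * D) := by
    have h1 : ∀ s, (conf s).card ≤
        ∑ v ∈ R, ∑ x ∈ X0, if G.Adj v x ∧ φ x = e ((f v + s) % n) then 1 else 0 := by
      intro s
      rw [hconf]
      beta_reduce
      rw [card_filter]
      refine sum_le_sum fun v _ => ?_
      by_cases h : ∃ x ∈ X0, G.Adj v x ∧ φ x = e ((f v + s) % n)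
      · rw [if_pos h]
        obtain ⟨x, hx, hx2⟩ := h
        have h3 := single_le_sum (s := X0)
          (f := fun x => if G.Adj v x ∧ φ x = e ((f v + s) % n) then 1 else 0)
          (fun _ _ => Nat.zero_le _) hx
        beta_reduce at h3
        rw [if_pos hx2] at h3
        exact h3
      · rw [if_neg h]
        exact Nat.zero_le _
    calc ∑ s ∈ range n, (conf s).card
        ≤ ∑ s ∈ range n, ∑ v ∈ R, ∑ x ∈ X0,
          (if G.Adj v x ∧ φ x = e ((f v + s) % n) then 1 else 0) := sum_le_sum fun s _ => h1 s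
      _ = ∑ v ∈ R, ∑ x ∈ X0, ∑ s ∈ range n,
          (if G.Adj v x ∧ φ x = e ((f v + s) % n) then 1 else 0) := by
          rw [sum_comm]
          refine sum_congr rfl fun v _ => ?_
          rw [sum_comm]
      _ ≤ ∑ v ∈ R, ∑ x ∈ X0, (if G.Adj v x then 1 else 0) := by
          refine sum_le_sum fun v _ => sum_le_sum fun x _ => ?_
          by_cases hvx : G.Adj v x
          · rw [if_pos hvx]
            have h2 := shift_card e hei (f v) (φ x)
            rw [card_filter] at h2
            refine le_trans (le_of_eq (sum_congr rfl fun s _ => ?_)) h2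
            by_cases h3 : φ x = e ((f v + s) % n)
            · rw [if_pos h3, if_pos ⟨hvx, h3⟩]
            · rw [if_neg h3, if_neg (fun h => h3 h.2)]
          · rw [if_neg hvx]
            refine le_of_eq (sum_eq_zero fun s _ => ?_)
            rw [if_neg (fun h => hvx h.1)]
      _ = ∑ x ∈ X0, degIn G R x := by
          rw [← deg_comm G R X0]
          refine sum_congr rfl fun v _ => ?_
          rw [deg_eq]
      _ ≤ 2 * (D * D) := by
          have h2 := hB.w
          have h3 : wt G D R X = X1.card * D + ∑ x ∈ X0, degIn G R x := wt_eq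
          omega
  obtain ⟨s, hs⟩ : ∃ s, (conf s).card ≤ D := by
    by_contra hcon
    push Not at hcon
    have h1 : ∑ s ∈ range n, (D + 1) ≤ ∑ s ∈ range n, (conf s).card :=
      sum_le_sum fun s _ => hcon s
    rw [sum_const, card_range, smul_eq_mul] at h1
    have h2 : 2 * D ≤ n := by omega
    have h3 : 2 * D * (D + 1) ≤ n * (D + 1) := Nat.mul_le_mul_right _ h2
    have h4 : 2 * D * (D + 1) = 2 * (D * D) + 2 * D := by ring
    omega
  have hTR : conf s ⊆ R := filter_subset _ _
  set T := conf s with hT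
  have hlt : ∀ v ∈ R, f v < n := fun v hv => by
    have := f1 v hv
    omega
  -- spare colours
  set P' : Finset ℕ := P \ (range (k - 10 * D)).image (fun i => e ((i + s) % n)) with hP'
  have hP'c : 8 * D ≤ P'.card := by
    have h1 : P'.card + ((range (k - 10 * D)).image (fun i => e ((i + s) % n))).card =
        (P ∪ (range (k - 10 * D)).image (fun i => e ((i + s) % n))).card :=
      card_sdiff_add_card _ _
    have h2 : P.card ≤ (P ∪ (range (k - 10 * D)).image (fun i => e ((i + s) % n))).card :=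
      card_le_card subset_union_left
    have h3 : ((range (k - 10 * D)).image (fun i => e ((i + s) % n))).card ≤ k - 10 * D := by
      refine card_image_le.trans ?_
      rw [card_range]
    omega
  obtain ⟨g, g1, g2⟩ := greedy T P' (fun u => (X.filter (fun x => G.Adj u x)).image φ)
    (by
      intro u hu
      have h1 : ((X.filter (fun x => G.Adj u x)).image φ).card ≤ degIn G X u := by
        refine card_image_le.trans ?_
        unfold degIn
        exact le_of_eq (by congr)
      have h2 := hB.m u (hTR hu)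
      omega)
  have hgP : ∀ u ∈ T, g u ∈ P := fun u hu => (mem_sdiff.1 (g1 u hu).1).1
  have hgn : ∀ u ∈ T, ∀ v ∈ R, g u ≠ e ((f v + s) % n) := by
    intro u hu v hv he
    exact (mem_sdiff.1 (g1 u hu).1).2
      (mem_image.2 ⟨f v, mem_range.2 (f1 v hv), he.symm⟩)
  have hsP : ∀ v ∈ R, e ((f v + s) % n) ∈ P := fun v _ => heP _ (Nat.mod_lt _ hn0)
  have hPk : ∀ c ∈ P, c < k := fun c hc => mem_range.1 (mem_sdiff.1 hc).1
  apply hB.ne
  refine ⟨fun v => if v ∈ T then g v else e ((f v + s) % n), ?_, ?_, ?_⟩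
  · intro v hv
    beta_reduce
    by_cases hvT : v ∈ T
    · rw [if_pos hvT]
      exact hPk _ (hgP v hvT)
    · rw [if_neg hvT]
      exact hPk _ (hsP v hv)
  · intro a ha b hb hab
    beta_reduce
    by_cases haT : a ∈ T <;> by_cases hbT : b ∈ T
    · rw [if_pos haT, if_pos hbT]
      exact g2 a haT b hbT hab.ne
    · rw [if_pos haT, if_neg hbT]
      exact hgn a haT b hb
    · rw [if_neg haT, if_pos hbT]
      exact (hgn b hbT a ha).symm
    · rw [if_neg haT, if_neg hbT]
      intro he
      exact f2 a ha b hb hab (shift_inj e hei s (hlt a ha) (hlt b hb) he)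
  · intro a ha x hx hax
    beta_reduce
    by_cases hxr : x ∈ X1
    · have hnP : φ x ∉ P := fun h => (mem_sdiff.1 h).2 (mem_image.2 ⟨x, hxr, rfl⟩)
      by_cases haT : a ∈ T
      · rw [if_pos haT]
        intro he
        exact hnP (he ▸ hgP a haT)
      · rw [if_neg haT]
        intro he
        exact hnP (he ▸ hsP a ha)
    · have hxp : x ∈ X0 := by
        have h1 : x ∈ rich G D R X ∪ poor G D R X := by rw [rich_union_poor]; exact hx
        exact (mem_union.1 h1).resolve_left hxr
      by_cases haT : a ∈ T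
      · rw [if_pos haT]
        intro he
        exact (g1 a haT).2 (mem_image.2 ⟨x, mem_filter.2 ⟨hx, hax⟩, he.symm⟩)
      · rw [if_neg haT]
        intro he
        exact haT (mem_filter.2 ⟨ha, x, hxp, hax, he.symm⟩)

end GNaux

/-- Strong form of row GN. -/
theorem gn_strong (G : SimpleGraph V) (S : Finset V) (c κ : ℕ) (hκ : 1 ≤ κ) (hc : 10 * κ ≤ c)
    (h : ¬ Col G S c) :
    ∃ R X : Finset V, R ⊆ S ∧ X ⊆ S ∧ Disjoint R X ∧ X.card ≤ 2 * κ ∧
      (∀ v ∈ R, c ≤ degIn G R v + 3 * κ) ∧ (∀ x ∈ X, κ ≤ degIn G R x) ∧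
      HConn G (R ∪ X) κ ∧ ¬ Col G R (c - 10 * κ) := by
  obtain ⟨R, X, φ, hB, hmin⟩ := GNaux.exists_min G S c κ h
  refine ⟨R, GNaux.rich G κ R X, hB.RU, GNaux.rich_sub.trans hB.XU,
    disjoint_of_subset_right GNaux.rich_sub hB.dis, GNaux.rich_card hκ hB.w, ?_,
    fun x hx => (GNaux.mem_rich.1 hx).2, GNaux.hconn hκ hc hB hmin, GNaux.not_col hκ hc hB hmin⟩
  intro v hv
  have h1 := GNaux.deg_ge hB hmin hv
  have h2 := GNaux.no_big hκ hc hB hmin v hv
  omega

/-- ROW GN (Girao and Narayanan: highly connected subgraph of large chromatic number). -/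
theorem gn (G : SimpleGraph V) (S : Finset V) (c κ : ℕ) (hκ : 1 ≤ κ) (hc : 200 * κ ≤ c)
    (h : ¬ Col G S c) :
    ∃ T ⊆ S, HConn G T κ ∧ ¬ Col G T (c - 20 * κ) := by
  obtain ⟨R, X, hR, hX, -, -, -, -, hcon, hcol⟩ := gn_strong G S c κ hκ (by omega) h
  exact ⟨R ∪ X, union_subset hR hX, hcon,
    fun hc' => hcol (hc'.mono subset_union_left (by omega))⟩

end Vale.Agent.P060
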