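import Mathlib
import Vale.Agent.P060.Lin.LinDefs
import Vale.Agent.P060.Link

namespace Vale.Agent.P060

open Finset

variable {V : Type} [Fintype V] [DecidableEq V]

namespace HConn

/-- Minimum degree in a highly connected set. -/
theorem degIn_ge {G : SimpleGraph V} {Y : Finset V} {κ : ℕ} (hY : HConn G Y κ)
    (hc : κ < Y.card) {v : V} (hv : v ∈ Y) : κ ≤ degIn G Y v := by
  classical
  set N : Finset V := Y.filter fun w => G.Adj v w with hN
  have hdeg : degIn G Y v = N.card := by
    unfold degIn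
    congr
  rw [hdeg]
  have hvN : v ∉ N := fun h => G.loopless.irrefl _ (mem_filter.1 h).2
  have hsep : Sep G Y (insert v N) (Y.erase v) := by
    constructor
    · ext w
      simp only [mem_union, mem_insert, mem_erase, hN, mem_filter]
      constructor
      · rintro ((rfl | h) | h)
        · exact hv
        · exact h.1
        · exact h.2
      · intro hw
        by_cases h : w = v
        · exact Or.inl (Or.inl h)
        · exact Or.inr ⟨h, hw⟩
    · intro a ha b hb hab
      simp only [mem_sdiff, mem_insert, mem_erase, hN, mem_filter] at ha hb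
      obtain ⟨ha1, ha2⟩ := ha
      obtain ⟨⟨hb1, hb2⟩, hb3⟩ := hb
      have hav : a = v := by
        rcases ha1 with h | h
        · exact h
        · by_contra hne
          exact ha2 ⟨hne, h.1⟩
      subst hav
      exact hb3 (Or.inr ⟨hb2, hab⟩)
  have hint : insert v N ∩ Y.erase v = N := by
    ext w
    simp only [mem_inter, mem_insert, mem_erase]
    constructor
    · rintro ⟨h1, h2, _⟩
      exact h1.resolve_left h2
    · intro h
      exact ⟨Or.inr h, fun he => hvN (he ▸ h), (mem_filter.1 h).1⟩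
  by_cases hB : (Y.erase v \ insert v N).Nonempty
  · have h1 := hY _ _ hsep ⟨v, mem_sdiff.2 ⟨mem_insert_self _ _, notMem_erase _ _⟩⟩ hB
    rwa [hint] at h1
  · rw [not_nonempty_iff_eq_empty, sdiff_eq_empty_iff_subset] at hB
    have h1 : Y.erase v ⊆ N := by
      intro w hw
      have h2 := hB hw
      rw [mem_insert] at h2
      exact h2.resolve_left (mem_erase.1 hw).1
    have h2 := card_le_card h1
    rw [card_erase_of_mem hv] at h2
    omega

/-- `rho` is at least the sum of the degrees. -/
theorem rho_ge {G : SimpleGraph V} {Y U : Finset V} {κ : ℕ} (hU : U ⊆ Y)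
    (hd : ∀ v ∈ U, κ ≤ degIn G Y v) : κ * U.card ≤ rho G Y U := by
  classical
  have h1 : rho G Y U = ((Y ×ˢ Y).filter (fun e => G.Adj e.1 e.2 ∧ (e.1 ∈ U ∨ e.2 ∈ U))).card := by
    unfold rho
    congr
  rw [h1]
  have h2 : (U.sigma fun v => Y.filter fun w => G.Adj v w).card ≤
      ((Y ×ˢ Y).filter (fun e => G.Adj e.1 e.2 ∧ (e.1 ∈ U ∨ e.2 ∈ U))).card := by
    refine card_le_card_of_injOn (fun x => (x.1, x.2)) ?_ ?_
    · rintro ⟨a, b⟩ h
      have h := Finset.mem_coe.1 h
      rw [mem_sigma, mem_filter] at h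
      exact Finset.mem_coe.2 (mem_filter.2 ⟨mem_product.2 ⟨hU h.1, h.2.1⟩, h.2.2, Or.inl h.1⟩)
    · rintro ⟨a, b⟩ _ ⟨a', b'⟩ _ h
      have h1 : a = a' := congrArg Prod.fst h
      have h2 : b = b' := congrArg Prod.snd h
      subst h1
      subst h2
      rfl
  refine le_trans ?_ h2
  rw [card_sigma, mul_comm, ← smul_eq_mul]
  refine Finset.card_nsmul_le_sum _ _ _ fun v hv => ?_
  have h3 : degIn G Y v = (Y.filter fun w => G.Adj v w).card := by
    unfold degIn
    congr
  rw [← h3]
  exact hd v hv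

end HConn

/-- Highly connected sets are linked (from `link`), with a better constant. -/
theorem link_hconn' (G : SimpleGraph V) (Y : Finset V) (κ p : ℕ) (hY : HConn G Y κ)
    (hκ : 32 * p + 65 ≤ κ) (hc : κ < Y.card) (s t : Fin p → V)
    (hs : Function.Injective s) (ht : Function.Injective t) (hst : ∀ i j, s i ≠ t j)
    (hsY : ∀ i, s i ∈ Y) (htY : ∀ i, t i ∈ Y) :
    ∃ L : Fin p → Finset V, (∀ i, L i ⊆ Y) ∧ (∀ i, Conn G (L i)) ∧ (∀ i, s i ∈ L i) ∧
      (∀ i, t i ∈ L i) ∧ ∀ i j, i ≠ j → Disjoint (L i) (L j) := by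
  classical
  set Z : Finset V := univ.image s ∪ univ.image t with hZ
  have hZY : Z ⊆ Y := by
    intro v hv
    rw [hZ, mem_union, mem_image, mem_image] at hv
    rcases hv with ⟨i, _, rfl⟩ | ⟨i, _, rfl⟩
    · exact hsY i
    · exact htY i
  have hZc : Z.card ≤ 2 * p := by
    have h1 := card_union_le (univ.image s) (univ.image t)
    have h2 : (univ.image s).card ≤ p := card_image_le.trans (by simp)
    have h3 : (univ.image t).card ≤ p := card_image_le.trans (by simp)
    rw [hZ]
    omega
  have hYZ : 0 < (Y \ Z).card := by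
    have := le_card_sdiff Z Y
    omega
  have hdeg : ∀ v ∈ Y \ Z, κ ≤ degIn G Y v := fun v hv =>
    HConn.degIn_ge hY hc (mem_sdiff.1 hv).1
  have hrho := HConn.rho_ge (G := G) (sdiff_subset : Y \ Z ⊆ Y) hdeg
  obtain ⟨L, h1, h2, h3, h4⟩ := link G Y Z (p + 1) (16 * (p + 1) + 16) (by omega) le_rfl hZY
    (by omega) (by
      refine lt_of_lt_of_le ?_ hrho
      exact Nat.mul_lt_mul_of_pos_right (by omega) hYZ) (by
      intro A B hs hA hlt
      by_cases hB : (B \ A).Nonempty
      · exfalso
        by_cases hA' : (A \ B).Nonempty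
        · have := hY A B hs hA' hB
          omega
        · rw [not_nonempty_iff_eq_empty, sdiff_eq_empty_iff_subset] at hA'
          rw [inter_eq_left.2 hA'] at hlt
          exact absurd (card_le_card hA) (not_le.2 hlt)
      · rw [not_nonempty_iff_eq_empty] at hB
        rw [hB]
        have : rho G Y ∅ = 0 := by
          unfold rho
          simp
        omega) p s t hs ht hst
    (fun i => mem_union_left _ (mem_image_of_mem _ (mem_univ _)))
    (fun i => mem_union_right _ (mem_image_of_mem _ (mem_univ _)))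
  refine ⟨L, h1, h2, fun i => ?_, fun i => ?_, h4⟩
  · have : s i ∈ L i ∩ Z := by
      rw [h3]
      simp
    exact (mem_inter.1 this).1
  · have : t i ∈ L i ∩ Z := by
      rw [h3]
      simp
    exact (mem_inter.1 this).1

/-- ROW LINKH: highly connected sets are linked (from `link`). -/
theorem link_hconn (G : SimpleGraph V) (Y : Finset V) (κ p : ℕ) (hY : HConn G Y κ)
    (hκ : 100 * (p + 1) ≤ κ) (hc : κ < Y.card) (s t : Fin p → V)
    (hs : Function.Injective s) (ht : Function.Injective t) (hst : ∀ i j, s i ≠ t j)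
    (hsY : ∀ i, s i ∈ Y) (htY : ∀ i, t i ∈ Y) :
    ∃ L : Fin p → Finset V, (∀ i, L i ⊆ Y) ∧ (∀ i, Conn G (L i)) ∧ (∀ i, s i ∈ L i) ∧
      (∀ i, t i ∈ L i) ∧ ∀ i j, i ≠ j → Disjoint (L i) (L j) :=
  link_hconn' G Y κ p hY (by omega) hc s t hs ht hst hsY htY

end Vale.Agent.P060
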