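import Mathlib
import Vale.Agent.P060.Lin.LinDefs
import Vale.Agent.P060.Menger
import Vale.Agent.P060.LinkDefs
import Vale.Agent.P060.LinkB
import Vale.Agent.P060.LinkC

/-!
P060, row ROOT (rooted models). Proof: a family `B` of `p ≥ 2|Z|` disjoint sets such that the
sets which avoid `Z` are connected and adjacent to all others, every component of a set which
meets `Z` meets `Z`, and no separation of order `< |Z|` separates `Z` from a set of the family.
A nontrivial tight separation restricts the family to one side; otherwise delete a vertex outside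
the family or contract an edge inside a member; at the end all members outside `Z` are single
vertices and Menger's theorem gives a matching.
-/

namespace Vale.Agent.P060

open Finset

variable {V : Type} [Fintype V] [DecidableEq V]

set_option linter.unusedSectionVars false

namespace Rooted

open LinkB

/-- the families of the induction -/
structure Cl (G : SimpleGraph V) (D Z : Finset V) (p : ℕ) (B : Fin p → Finset V) : Prop where
  sub : ∀ i, B i ⊆ D
  dis : ∀ i j, i ≠ j → Disjoint (B i) (B j)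
  con : ∀ i, Disjoint (B i) Z → Conn G (B i)
  tou : ∀ i, ¬ Disjoint (B i) Z → ∀ v ∈ B i, ∃ L ⊆ B i, Conn G L ∧ v ∈ L ∧ ∃ z ∈ L, z ∈ Z
  adj : ∀ i, Disjoint (B i) Z → ∀ j, i ≠ j → ∃ x ∈ B i, ∃ y ∈ B j, G.Adj x y
  sep : ∀ A A' : Finset V, Sep G D A A' → Z ⊆ A → (∃ j, B j ⊆ A' \ A) → Z.card ≤ (A ∩ A').card

/-- the conclusion -/
def Rt (G : SimpleGraph V) (D Z : Finset V) : Prop :=
  ∃ T : V → Finset V, (∀ z ∈ Z, T z ⊆ D ∧ Conn G (T z) ∧ z ∈ T z) ∧
    ∀ z ∈ Z, ∀ z' ∈ Z, z ≠ z' → Disjoint (T z) (T z') ∧ ∃ x ∈ T z, ∃ y ∈ T z', G.Adj x y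

theorem conn_nonempty {G : SimpleGraph V} {S : Finset V} (h : Conn G S) : S.Nonempty := by
  obtain ⟨v⟩ := h.nonempty
  exact ⟨v.1, v.2⟩

/-- an edge leaving `A' \ A` stays in `A'` -/
theorem sep_stay {G : SimpleGraph V} {D A A' : Finset V} (h : Sep G D A A') {x y : V}
    (hx : x ∈ A') (hxA : x ∉ A) (hy : y ∈ D) (hxy : G.Adj x y) : y ∈ A' := by
  by_contra hyA'
  have hyA : y ∈ A := by
    rw [← h.1] at hy
    exact (mem_union.1 hy).resolve_right hyA'
  exact h.2 y (mem_sdiff.2 ⟨hyA, hyA'⟩) x (mem_sdiff.2 ⟨hx, hxA⟩) hxy.symm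

theorem reach {G : SimpleGraph V} {D A A' K : Finset V} (h : Sep G D A A') (hK : K ⊆ D)
    (hKc : Conn G K) {v w : V} (hv : v ∈ K) (hvA' : v ∈ A') (hw : w ∈ K) (hwA : w ∈ A) :
    ∃ L ⊆ K ∩ A', Conn G L ∧ v ∈ L ∧ ∃ q ∈ L, q ∈ A ∩ A' := by
  have hvI : v ∈ K ∩ A' := mem_inter.2 ⟨hv, hvA'⟩
  refine ⟨cmp G (K ∩ A') v, cmp_sub, cmp_conn hvI, self_mem_cmp hvI, ?_⟩
  by_contra hcon
  push Not at hcon
  have hC : ∀ q ∈ cmp G (K ∩ A') v, q ∉ A := by
    intro q hq hqA
    exact hcon q hq (mem_inter.2 ⟨hqA, (mem_inter.1 (cmp_sub hq)).2⟩)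
  have hwC : w ∉ cmp G (K ∩ A') v := fun hwC => hC w hwC hwA
  obtain ⟨p, hpK, hpC, q, hqK, hqC, hpq⟩ := exists_cross hKc hv hw (self_mem_cmp hvI) hwC
  have hpA' := (mem_inter.1 (cmp_sub hpC)).2
  have hqA' := sep_stay h hpA' (hC p hpC) (hK hqK) hpq
  exact hqC (cmp_closed hpC (mem_inter.2 ⟨hqK, hqA'⟩) hpq)

section restrict

variable {G : SimpleGraph V} {D Z : Finset V} {p : ℕ} {B : Fin p → Finset V}

theorem Cl.nonempty (h : Cl G D Z p B) (i : Fin p) : (B i).Nonempty := by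
  by_cases hi : Disjoint (B i) Z
  · exact conn_nonempty (h.con i hi)
  · obtain ⟨v, hv, -⟩ := not_disjoint_iff.1 hi
    exact ⟨v, hv⟩

theorem Cl.meets (h : Cl G D Z p B) {A A' : Finset V} (hs : Sep G D A A') (hZ : Z ⊆ A)
    {j0 : Fin p} (hj0 : B j0 ⊆ A' \ A) (i : Fin p) : (B i ∩ A').Nonempty := by
  by_cases hi : j0 = i
  · subst hi
    obtain ⟨v, hv⟩ := h.nonempty j0
    exact ⟨v, mem_inter.2 ⟨hv, (mem_sdiff.1 (hj0 hv)).1⟩⟩
  · have hd : Disjoint (B j0) Z := by
      rw [disjoint_left]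
      intro v hv hvZ
      exact (mem_sdiff.1 (hj0 hv)).2 (hZ hvZ)
    obtain ⟨x, hx, y, hy, hxy⟩ := h.adj j0 hd i hi
    have hx' := mem_sdiff.1 (hj0 hx)
    exact ⟨y, mem_inter.2 ⟨hy, sep_stay hs hx'.1 hx'.2 (h.sub i hy) hxy⟩⟩

theorem Cl.inside (h : Cl G D Z p B) {A A' : Finset V} (hs : Sep G D A A') (hZ : Z ⊆ A)
    {j0 : Fin p} (hj0 : B j0 ⊆ A' \ A) (i : Fin p) (hi : Disjoint (B i) (A ∩ A')) :
    B i ⊆ A' \ A ∧ Disjoint (B i) Z := by
  obtain ⟨v, hv⟩ := h.meets hs hZ hj0 i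
  obtain ⟨hvB, hvA'⟩ := mem_inter.1 hv
  have hd : Disjoint (B i) Z := by
    by_contra hcon
    obtain ⟨L, hL, hLc, hvL, z, hzL, hzZ⟩ := h.tou i hcon v hvB
    obtain ⟨L', hL', -, -, q, hqL', hq⟩ :=
      reach hs (hL.trans (h.sub i)) hLc hvL hvA' hzL (hZ hzZ)
    exact disjoint_left.1 hi (hL (mem_inter.1 (hL' hqL')).1) hq
  refine ⟨?_, hd⟩
  intro w hw
  by_contra hcon
  have hwA : w ∈ A := by
    by_contra hwA
    apply hcon
    have hwD := h.sub i hw
    rw [← hs.1] at hwD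
    exact mem_sdiff.2 ⟨(mem_union.1 hwD).resolve_left hwA, hwA⟩
  obtain ⟨L', hL', -, -, q, hqL', hq⟩ :=
    reach hs (h.sub i) (h.con i hd) hvB hvA' hw hwA
  exact disjoint_left.1 hi (mem_inter.1 (hL' hqL')).1 hq

theorem Cl.restrict (h : Cl G D Z p B) {A A' : Finset V} (hs : Sep G D A A') (hZ : Z ⊆ A)
    {j0 : Fin p} (hj0 : B j0 ⊆ A' \ A) (hcard : (A ∩ A').card = Z.card) :
    Cl G A' (A ∩ A') p (fun i => B i ∩ A') := by
  have hdis : ∀ i, Disjoint (B i ∩ A') (A ∩ A') → Disjoint (B i) (A ∩ A') := by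
    intro i hi
    rw [disjoint_left] at hi ⊢
    intro v hv hvW
    exact hi (mem_inter.2 ⟨hv, (mem_inter.1 hvW).2⟩) hvW
  have heq : ∀ i, B i ⊆ A' \ A → B i ∩ A' = B i := by
    intro i hi
    exact inter_eq_left.2 (hi.trans sdiff_subset)
  have hA'D : A' ⊆ D := by
    rw [← hs.1]
    exact subset_union_right
  refine ⟨fun i => inter_subset_right, fun i j hij => ?_, fun i hi => ?_, fun i hi v hv => ?_,
    fun i hi j hij => ?_, fun C C' hC hWC hj => ?_⟩
  · exact disjoint_of_subset_left inter_subset_left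
      (disjoint_of_subset_right inter_subset_left (h.dis i j hij))
  · obtain ⟨h1, h2⟩ := h.inside hs hZ hj0 i (hdis i hi)
    rw [heq i h1]
    exact h.con i h2
  · obtain ⟨hvB, hvA'⟩ := mem_inter.1 hv
    obtain ⟨w, hw, hwW⟩ := not_disjoint_iff.1 hi
    by_cases hd : Disjoint (B i) Z
    · exact reach hs (h.sub i) (h.con i hd) hvB hvA' (mem_inter.1 hw).1 (mem_inter.1 hwW).1
    · obtain ⟨L, hL, hLc, hvL, z, hzL, hzZ⟩ := h.tou i hd v hvB
      obtain ⟨L', hL', h1, h2, h3⟩ := reach hs (hL.trans (h.sub i)) hLc hvL hvA' hzL (hZ hzZ)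
      exact ⟨L', hL'.trans (inter_subset_inter_right hL), h1, h2, h3⟩
  · obtain ⟨h1, h2⟩ := h.inside hs hZ hj0 i (hdis i hi)
    obtain ⟨x, hx, y, hy, hxy⟩ := h.adj i h2 j hij
    have hx' := mem_sdiff.1 (h1 hx)
    exact ⟨x, mem_inter.2 ⟨hx, hx'.1⟩, y,
      mem_inter.2 ⟨hy, sep_stay hs hx'.1 hx'.2 (h.sub j hy) hxy⟩, hxy⟩
  · obtain ⟨j, hj⟩ := hj
    have hC'A' : C' ⊆ A' := by
      rw [← hC.1]
      exact subset_union_right
    have hCA' : C ⊆ A' := by
      rw [← hC.1]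
      exact subset_union_left
    have hjW : Disjoint (B j) (A ∩ A') := by
      apply hdis
      rw [disjoint_left]
      intro v hv hvW
      exact (mem_sdiff.1 (hj hv)).2 (hWC hvW)
    obtain ⟨h1, h2⟩ := h.inside hs hZ hj0 j hjW
    have hsep : Sep G D (A ∪ C) C' := by
      refine ⟨?_, ?_⟩
      · rw [union_assoc, hC.1, hs.1]
      · intro u hu v hv huv
        obtain ⟨hu1, hu2⟩ := mem_sdiff.1 hu
        obtain ⟨hv1, hv2⟩ := mem_sdiff.1 hv
        have hvA : v ∉ A := fun hvA => hv2 (mem_union_left _ hvA)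
        have hvC : v ∉ C := fun hvC => hv2 (mem_union_right _ hvC)
        by_cases huC : u ∈ C
        · exact hC.2 u (mem_sdiff.2 ⟨huC, hu2⟩) v (mem_sdiff.2 ⟨hv1, hvC⟩) huv
        · have huA : u ∈ A := (mem_union.1 hu1).resolve_right huC
          have huA' : u ∉ A' := fun huA' => huC (hWC (mem_inter.2 ⟨huA, huA'⟩))
          exact hs.2 u (mem_sdiff.2 ⟨huA, huA'⟩) v (mem_sdiff.2 ⟨hC'A' hv1, hvA⟩) huv
    have hint : (A ∪ C) ∩ C' = C ∩ C' := by
      ext v
      simp only [mem_inter, mem_union]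
      constructor
      · rintro ⟨hv | hv, hv'⟩
        · exact ⟨hWC (mem_inter.2 ⟨hv, hC'A' hv'⟩), hv'⟩
        · exact ⟨hv, hv'⟩
      · rintro ⟨hv, hv'⟩
        exact ⟨Or.inr hv, hv'⟩
    rw [hcard, ← hint]
    refine h.sep (A ∪ C) C' hsep (hZ.trans subset_union_left) ⟨j, ?_⟩
    intro v hv
    have hv1 := mem_sdiff.1 (h1 hv)
    have hv2 := mem_sdiff.1 (hj (mem_inter.2 ⟨hv, hv1.1⟩))
    refine mem_sdiff.2 ⟨hv2.1, fun hv3 => ?_⟩
    rcases mem_union.1 hv3 with hv3 | hv3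
    · exact hv1.2 hv3
    · exact hv2.2 hv3

end restrict

/-- a system of `|Z|` disjoint sets each with exactly one vertex of `Z` covers `Z` -/
theorem cover {Z : Finset V} (L : Fin Z.card → Finset V)
    (hd : ∀ i j, i ≠ j → Disjoint (L i) (L j)) (h1 : ∀ i, (L i ∩ Z).card = 1) :
    ∀ z ∈ Z, ∃ k, z ∈ L k := by
  have hne : ∀ k, ∃ z, L k ∩ Z = {z} := fun k => card_eq_one.1 (h1 k)
  choose f hf using hne
  have hfk : ∀ k, f k ∈ L k ∧ f k ∈ Z := by
    intro k
    have : f k ∈ L k ∩ Z := by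
      rw [hf k]
      exact mem_singleton_self _
    exact mem_inter.1 this
  have hinj : Function.Injective f := by
    intro i j hij
    by_contra hne
    exact disjoint_left.1 (hd i j hne) (hfk i).1 (hij ▸ (hfk j).1)
  have himg : univ.image f = Z := by
    refine eq_of_subset_of_card_le ?_ ?_
    · intro v hv
      obtain ⟨k, -, rfl⟩ := mem_image.1 hv
      exact (hfk k).2
    · rw [card_image_of_injective _ hinj, card_univ, Fintype.card_fin]
  intro z hz
  rw [← himg] at hz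
  obtain ⟨k, -, rfl⟩ := mem_image.1 hz
  exact ⟨k, (hfk k).1⟩

theorem unique_of_card {L Z : Finset V} (h : (L ∩ Z).card = 1) {a b : V} (ha : a ∈ L)
    (haZ : a ∈ Z) (hb : b ∈ L) (hbZ : b ∈ Z) : a = b :=
  card_le_one.1 h.le a (mem_inter.2 ⟨ha, haZ⟩) b (mem_inter.2 ⟨hb, hbZ⟩)

/-- joining -/
theorem join {G : SimpleGraph V} {D Z A A' : Finset V} (hs : Sep G D A A')
    (L : Fin Z.card → Finset V) (hL : ∀ i, L i ⊆ A) (hLc : ∀ i, Conn G (L i))
    (hLd : ∀ i j, i ≠ j → Disjoint (L i) (L j)) (hLZ : ∀ i, (L i ∩ Z).card = 1)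
    (hLW : ∀ i, (L i ∩ (A ∩ A')).card = 1) (hR : Rt G A' (A ∩ A')) : Rt G D Z := by
  classical
  obtain ⟨T, hT1, hT2⟩ := hR
  have hw : ∀ k, ∃ w, w ∈ L k ∧ w ∈ A ∩ A' := by
    intro k
    obtain ⟨w, hw⟩ := card_eq_one.1 (hLW k)
    have : w ∈ L k ∩ (A ∩ A') := by
      rw [hw]
      exact mem_singleton_self _
    exact ⟨w, mem_inter.1 this⟩
  choose w hwL hwW using hw
  have hcov := cover L hLd hLZ
  have hk : ∀ z : V, ∃ X : Finset V, z ∈ Z → ∃ k, z ∈ L k ∧ X = L k ∪ T (w k) := by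
    intro z
    by_cases hz : z ∈ Z
    · obtain ⟨k, hk⟩ := hcov z hz
      exact ⟨L k ∪ T (w k), fun _ => ⟨k, hk, rfl⟩⟩
    · exact ⟨∅, fun h => absurd h hz⟩
  choose X hX using hk
  have hAD : A ⊆ D := by
    rw [← hs.1]
    exact subset_union_left
  have hA'D : A' ⊆ D := by
    rw [← hs.1]
    exact subset_union_right
  refine ⟨X, fun z hz => ?_, fun z hz z' hz' hne => ?_⟩
  · obtain ⟨k, hk, hXk⟩ := hX z hz
    obtain ⟨h1, h2, h3⟩ := hT1 (w k) (hwW k)
    rw [hXk]
    exact ⟨union_subset ((hL k).trans hAD) (h1.trans hA'D),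
      conn_union_mem (hLc k) h2 (hwL k) h3, mem_union_left _ hk⟩
  · obtain ⟨k, hk, hXk⟩ := hX z hz
    obtain ⟨k', hk', hXk'⟩ := hX z' hz'
    have hkk : k ≠ k' := by
      rintro rfl
      exact hne (unique_of_card (hLZ k) hk hz hk' hz')
    have hww : w k ≠ w k' := by
      intro h
      exact disjoint_left.1 (hLd k k' hkk) (hwL k) (h ▸ hwL k')
    obtain ⟨hd, x, hx, y, hy, hxy⟩ := hT2 (w k) (hwW k) (w k') (hwW k') hww
    have hcross : ∀ i i', w i ≠ w i' → ∀ v, v ∈ L i → v ∈ T (w i') → False := by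
      intro i i' hii v hv hv'
      have hvW : v ∈ A ∩ A' :=
        mem_inter.2 ⟨hL i hv, (hT1 (w i') (hwW i')).1 hv'⟩
      have hvw : v = w i := unique_of_card (hLW i) hv hvW (hwL i) (hwW i)
      rw [hvw] at hv'
      exact disjoint_left.1 (hT2 (w i) (hwW i) (w i') (hwW i') hii).1
        (hT1 (w i) (hwW i)).2.2 hv'
    rw [hXk, hXk']
    refine ⟨?_, x, mem_union_right _ hx, y, mem_union_right _ hy, hxy⟩
    rw [disjoint_left]
    intro v hv hv'
    rcases mem_union.1 hv with hv | hv <;> rcases mem_union.1 hv' with hv' | hv'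
    · exact disjoint_left.1 (hLd k k' hkk) hv hv'
    · exact hcross k k' hww v hv hv'
    · exact hcross k' k hww.symm v hv' hv
    · exact disjoint_left.1 hd hv hv'

/-- the linkage from `Z` to a tight separator -/
theorem linkage {G : SimpleGraph V} {D Z : Finset V} {p : ℕ} {B : Fin p → Finset V}
    (h : Cl G D Z p B) {A A' : Finset V} (hs : Sep G D A A') (hZ : Z ⊆ A) {j0 : Fin p}
    (hj0 : B j0 ⊆ A' \ A) :
    ∃ L : Fin Z.card → Finset V, (∀ i, L i ⊆ A) ∧ (∀ i, Conn G (L i)) ∧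
      (∀ i j, i ≠ j → Disjoint (L i) (L j)) ∧
      (∀ i, (L i ∩ Z).card = 1) ∧ ∀ i, (L i ∩ (A ∩ A')).card = 1 := by
  refine menger G A Z (A ∩ A') Z.card hZ inter_subset_left fun C C' hC hZC hWC' => ?_
  have hCA : C ⊆ A := by
    rw [← hC.1]
    exact subset_union_left
  have hC'A : C' ⊆ A := by
    rw [← hC.1]
    exact subset_union_right
  have hsep : Sep G D C (C' ∪ A') := by
    refine ⟨?_, ?_⟩
    · rw [← union_assoc, hC.1, hs.1]
    · intro u hu v hv huv
      obtain ⟨hu1, hu2⟩ := mem_sdiff.1 hu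
      obtain ⟨hv1, hv2⟩ := mem_sdiff.1 hv
      have huC' : u ∉ C' := fun hx => hu2 (mem_union_left _ hx)
      have huA' : u ∉ A' := fun hx => hu2 (mem_union_right _ hx)
      by_cases hvC' : v ∈ C'
      · exact hC.2 u (mem_sdiff.2 ⟨hu1, huC'⟩) v (mem_sdiff.2 ⟨hvC', hv2⟩) huv
      · have hvA' : v ∈ A' := (mem_union.1 hv1).resolve_left hvC'
        have hvA : v ∉ A := by
          intro hvA
          rw [← hC.1] at hvA
          exact (mem_union.1 hvA).elim hv2 hvC'
        exact hs.2 u (mem_sdiff.2 ⟨hCA hu1, huA'⟩) v (mem_sdiff.2 ⟨hvA', hvA⟩) huv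
  have hint : C ∩ (C' ∪ A') = C ∩ C' := by
    ext v
    simp only [mem_inter, mem_union]
    constructor
    · rintro ⟨hv, hv' | hv'⟩
      · exact ⟨hv, hv'⟩
      · exact ⟨hv, hWC' (mem_inter.2 ⟨hCA hv, hv'⟩)⟩
    · rintro ⟨hv, hv'⟩
      exact ⟨hv, Or.inl hv'⟩
  rw [← hint]
  refine h.sep C (C' ∪ A') hsep hZC ⟨j0, ?_⟩
  intro v hv
  have hv' := mem_sdiff.1 (hj0 hv)
  exact mem_sdiff.2 ⟨mem_union_right _ hv'.1, fun hvC => hv'.2 (hCA hvC)⟩

/-- there is no nontrivial tight separation -/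
def NoTight (G : SimpleGraph V) (D Z : Finset V) {p : ℕ} (B : Fin p → Finset V) : Prop :=
  ∀ A A' : Finset V, Sep G D A A' → Z ⊆ A → (∃ j, B j ⊆ A' \ A) →
    (A ∩ A').card = Z.card → A ∩ A' = Z

/-- deletion of a vertex outside the family -/
theorem Cl.delete {G : SimpleGraph V} {D Z : Finset V} {p : ℕ} {B : Fin p → Finset V}
    (h : Cl G D Z p B) (hT : NoTight G D Z B) {v : V} (hv : v ∈ D) (hvZ : v ∉ Z)
    (hvB : ∀ i, v ∉ B i) : Cl G (D.erase v) Z p B := by
  refine ⟨fun i x hx => mem_erase.2 ⟨fun hxv => hvB i (hxv ▸ hx), h.sub i hx⟩, h.dis, h.con,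
    h.tou, h.adj, fun A A' hs hZ hj => ?_⟩
  obtain ⟨j, hj⟩ := hj
  have hvA : v ∉ A := by
    intro hvA
    have : v ∈ D.erase v := by
      rw [← hs.1]
      exact mem_union_left _ hvA
    exact (mem_erase.1 this).1 rfl
  have hvA' : v ∉ A' := by
    intro hvA
    have : v ∈ D.erase v := by
      rw [← hs.1]
      exact mem_union_right _ hvA
    exact (mem_erase.1 this).1 rfl
  have hsep : Sep G D (insert v A) (insert v A') := by
    refine ⟨?_, ?_⟩
    · ext x
      have := congrArg (fun S => x ∈ S) hs.1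
      simp only [mem_union, mem_erase, eq_iff_iff] at this
      simp only [mem_union, mem_insert]
      by_cases hx : x = v
      · subst hx
        simp [hv]
      · simp only [hx, false_or, ne_eq, not_false_eq_true, true_and] at this ⊢
        exact this
    · intro a ha b hb hab
      obtain ⟨ha1, ha2⟩ := mem_sdiff.1 ha
      obtain ⟨hb1, hb2⟩ := mem_sdiff.1 hb
      have hav : a ≠ v := fun hx => ha2 (hx ▸ mem_insert_self _ _)
      have hbv : b ≠ v := fun hx => hb2 (hx ▸ mem_insert_self _ _)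
      exact hs.2 a (mem_sdiff.2 ⟨(mem_insert.1 ha1).resolve_left hav,
        fun hx => ha2 (mem_insert_of_mem hx)⟩) b (mem_sdiff.2
        ⟨(mem_insert.1 hb1).resolve_left hbv, fun hx => hb2 (mem_insert_of_mem hx)⟩) hab
  have hint : insert v A ∩ insert v A' = insert v (A ∩ A') := (insert_inter_distrib A A' v).symm
  have hc : (insert v (A ∩ A')).card = (A ∩ A').card + 1 :=
    card_insert_of_notMem (fun hx => hvA (mem_inter.1 hx).1)
  have hZ' : Z ⊆ insert v A := hZ.trans (subset_insert _ _)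
  have hj' : ∃ j, B j ⊆ insert v A' \ insert v A := by
    refine ⟨j, fun x hx => ?_⟩
    have hx' := mem_sdiff.1 (hj hx)
    refine mem_sdiff.2 ⟨mem_insert_of_mem hx'.1, fun hx2 => ?_⟩
    rcases mem_insert.1 hx2 with hx2 | hx2
    · exact hvB j (hx2 ▸ hx)
    · exact hx'.2 hx2
  have h1 := h.sep _ _ hsep hZ' hj'
  rw [hint, hc] at h1
  by_contra hlt
  have h2 := hT _ _ hsep hZ' hj' (by rw [hint, hc]; omega)
  rw [hint] at h2
  exact hvZ (h2 ▸ mem_insert_self _ _)

/-- contraction keeps connectivity -/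
theorem conn_erase_contr {G : SimpleGraph V} {K : Finset V} {x y : V} (hxy : G.Adj x y)
    (hx : x ∈ K) (hK : Conn G K) : Conn (contr G x y) (K.erase y) := by
  have hxy' : x ≠ y := hxy.ne
  have hxI : x ∈ K.erase y := mem_erase.2 ⟨hxy', hx⟩
  have hall : K.erase y ⊆ cmp (contr G x y) (K.erase y) x := by
    intro v hv
    by_contra hvC
    obtain ⟨hvy, hvK⟩ := mem_erase.1 hv
    have hvC' : v ∉ insert y (cmp (contr G x y) (K.erase y) x) := by
      intro h
      exact (mem_insert.1 h).elim hvy hvC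
    obtain ⟨p, hpK, hpC, q, hqK, hqC, hpq⟩ := exists_cross hK hx hvK
      (mem_insert_of_mem (self_mem_cmp hxI)) hvC'
    have hqy : q ≠ y := fun h => hqC (h ▸ mem_insert_self _ _)
    have hqC2 : q ∉ cmp (contr G x y) (K.erase y) x := fun h => hqC (mem_insert_of_mem h)
    have hqI : q ∈ K.erase y := mem_erase.2 ⟨hqy, hqK⟩
    rcases mem_insert.1 hpC with rfl | hpC
    · refine hqC2 (cmp_closed (self_mem_cmp hxI) hqI ⟨?_, Or.inr (Or.inl ⟨rfl, hpq⟩)⟩)
      rintro rfl
      exact hqC2 (self_mem_cmp hxI)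
    · exact hqC2 (cmp_closed hpC hqI ⟨hpq.ne, Or.inl hpq⟩)
  have : cmp (contr G x y) (K.erase y) x = K.erase y := Subset.antisymm cmp_sub hall
  rw [← this]
  exact cmp_conn hxI

theorem conn_contr {G : SimpleGraph V} {K : Finset V} {x y : V} (hK : Conn G K) :
    Conn (contr G x y) K :=
  conn_mono_on hK (fun a _ b _ hab => ⟨hab.ne, Or.inl hab⟩)

/-- contraction of an edge inside a member of the family -/
theorem Cl.contract {G : SimpleGraph V} {D Z : Finset V} {p : ℕ} {B : Fin p → Finset V}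
    (h : Cl G D Z p B) (hT : NoTight G D Z B) {x y : V} (hxy : G.Adj x y) {i0 : Fin p}
    (hx : x ∈ B i0) (hy : y ∈ B i0) (hyZ : y ∉ Z) :
    Cl (contr G x y) (D.erase y) Z p (fun i => (B i).erase y) := by
  have hxy' : x ≠ y := hxy.ne
  have hyi : ∀ i, y ∈ B i → i = i0 := by
    intro i hi
    by_contra hne
    exact disjoint_left.1 (h.dis i i0 hne) hi hy
  have hxi : ∀ i, y ∈ B i → x ∈ B i := fun i hi => (hyi i hi).symm ▸ hx
  have hdis : ∀ i, Disjoint ((B i).erase y) Z → Disjoint (B i) Z := by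
    intro i hi
    rw [disjoint_left] at hi ⊢
    intro v hv hvZ
    exact hi (mem_erase.2 ⟨fun hvy => hyZ (hvy ▸ hvZ), hv⟩) hvZ
  refine ⟨fun i => erase_subset_erase y (h.sub i), fun i j hij => ?_, fun i hi => ?_,
    fun i hi v hv => ?_, fun i hi j hij => ?_, fun A A' hs hZ hj => ?_⟩
  · exact disjoint_of_subset_left (erase_subset _ _)
      (disjoint_of_subset_right (erase_subset _ _) (h.dis i j hij))
  · have h1 := h.con i (hdis i hi)
    by_cases hyB : y ∈ B i
    · exact conn_erase_contr hxy (hxi i hyB) h1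
    · rw [erase_eq_of_notMem hyB]
      exact conn_contr h1
  · have hi' : ¬ Disjoint (B i) Z := fun hd =>
      hi (disjoint_of_subset_left (erase_subset _ _) hd)
    obtain ⟨hvy, hvB⟩ := mem_erase.1 hv
    obtain ⟨L, hL, hLc, hvL, z, hzL, hzZ⟩ := h.tou i hi' v hvB
    have hzy : z ≠ y := fun hzy => hyZ (hzy ▸ hzZ)
    by_cases hyL : y ∈ L
    · have hxB := hxi i (hL hyL)
      have hc : Conn G (L ∪ {x}) := conn_union_adj hLc (conn_single G x) hyL (by simp) hxy.symm
      have hsub : L ∪ {x} ⊆ B i := union_subset hL (by simpa using hxB)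
      exact ⟨(L ∪ {x}).erase y, erase_subset_erase y hsub,
        conn_erase_contr hxy (by simp) hc, mem_erase.2 ⟨hvy, mem_union_left _ hvL⟩, z,
        mem_erase.2 ⟨hzy, mem_union_left _ hzL⟩, hzZ⟩
    · refine ⟨L, fun u hu => mem_erase.2 ⟨fun huy => hyL (huy ▸ hu), hL hu⟩, conn_contr hLc, hvL,
        z, hzL, hzZ⟩
  · obtain ⟨a, ha, b, hb, hab⟩ := h.adj i (hdis i hi) j hij
    have hdij := disjoint_left.1 (h.dis i j hij)
    by_cases hay : a = y
    · subst hay
      have hxB := hxi i ha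
      have hba : b ≠ a := fun hba => hdij ha (hba ▸ hb)
      have hxb : x ≠ b := fun hxb => hdij hxB (hxb ▸ hb)
      exact ⟨x, mem_erase.2 ⟨hxy', hxB⟩, b, mem_erase.2 ⟨hba, hb⟩, hxb,
        Or.inr (Or.inl ⟨rfl, hab⟩)⟩
    · by_cases hby : b = y
      · subst hby
        have hxB := hxi j hb
        have hax : a ≠ x := fun hax => hdij ha (hax ▸ hxB)
        exact ⟨a, mem_erase.2 ⟨hay, ha⟩, x, mem_erase.2 ⟨hxy', hxB⟩, hax,
          Or.inr (Or.inr ⟨rfl, hab.symm⟩)⟩
      · exact ⟨a, mem_erase.2 ⟨hay, ha⟩, b, mem_erase.2 ⟨hby, hb⟩, hab.ne, Or.inl hab⟩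
  · obtain ⟨j, hj⟩ := hj
    have hyA : y ∉ A := by
      intro hyA
      have : y ∈ D.erase y := by
        rw [← hs.1]
        exact mem_union_left _ hyA
      exact (mem_erase.1 this).1 rfl
    have hyA' : y ∉ A' := by
      intro hyA
      have : y ∈ D.erase y := by
        rw [← hs.1]
        exact mem_union_right _ hyA
      exact (mem_erase.1 this).1 rfl
    have hxD : x ∈ A ∪ A' := by
      rw [hs.1]
      exact mem_erase.2 ⟨hxy', h.sub i0 hx⟩
    have hyD : y ∈ D := h.sub i0 hy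
    obtain ⟨E, hE⟩ : ∃ E : Finset V → Finset V, ∀ S v, v ∈ E S ↔ v ∈ S ∨ (v = y ∧ x ∈ S) := by
      refine ⟨fun S => if x ∈ S then insert y S else S, fun S v => ?_⟩
      dsimp only
      split_ifs with hxS
      · simp only [mem_insert]; tauto
      · tauto
    have hsep : Sep G D (E A) (E A') := by
      refine ⟨?_, ?_⟩
      · ext u
        have hu := congrArg (fun S => u ∈ S) hs.1
        simp only [mem_union, mem_erase, eq_iff_iff] at hu
        rw [mem_union, hE, hE]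
        by_cases huy : u = y
        · subst huy
          simp only [true_and]
          constructor
          · intro _; exact hyD
          · intro _
            rcases mem_union.1 hxD with hxA | hxA
            · exact Or.inl (Or.inr hxA)
            · exact Or.inr (Or.inr hxA)
        · simp only [huy, false_and, or_false, ne_eq, not_false_eq_true, true_and] at hu ⊢
          exact hu
      · intro a ha b hb hab
        obtain ⟨ha1, ha2⟩ := mem_sdiff.1 ha
        obtain ⟨hb1, hb2⟩ := mem_sdiff.1 hb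
        rw [hE] at ha1 ha2 hb1 hb2
        push Not at ha2 hb2
        by_cases hay : a = y
        · have hxA : x ∈ A := by
            rcases ha1 with ha1 | ha1
            · exact absurd (hay ▸ ha1) hyA
            · exact ha1.2
          have hxA' : x ∉ A' := ha2.2 hay
          have hby : b ≠ y := fun hby => hab.ne (hay.trans hby.symm)
          have hbA' : b ∈ A' := hb1.resolve_right (fun hb3 => hby hb3.1)
          refine hs.2 x (mem_sdiff.2 ⟨hxA, hxA'⟩) b (mem_sdiff.2 ⟨hbA', hb2.1⟩)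
            ⟨fun hxb => hxA' (hxb ▸ hbA'), Or.inr (Or.inl ⟨rfl, hay ▸ hab⟩)⟩
        · have haA : a ∈ A := ha1.resolve_right (fun ha3 => hay ha3.1)
          by_cases hby : b = y
          · have hxA' : x ∈ A' := by
              rcases hb1 with hb1 | hb1
              · exact absurd (hby ▸ hb1) hyA'
              · exact hb1.2
            have hxA : x ∉ A := hb2.2 hby
            refine hs.2 a (mem_sdiff.2 ⟨haA, ha2.1⟩) x (mem_sdiff.2 ⟨hxA', hxA⟩)
              ⟨fun hax => hxA (hax ▸ haA), Or.inr (Or.inr ⟨rfl, hby ▸ hab.symm⟩)⟩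
          · have hbA' : b ∈ A' := hb1.resolve_right (fun hb3 => hby hb3.1)
            exact hs.2 a (mem_sdiff.2 ⟨haA, ha2.1⟩) b (mem_sdiff.2 ⟨hbA', hb2.1⟩)
              ⟨hab.ne, Or.inl hab⟩
    have hZ' : Z ⊆ E A := fun z hz => (hE A z).2 (Or.inl (hZ hz))
    have hj' : ∃ j, B j ⊆ E A' \ E A := by
      refine ⟨j, fun u hu => ?_⟩
      rw [mem_sdiff, hE, hE]
      by_cases huy : u = y
      · have hxB := hxi j (huy ▸ hu)
        have hx2 := mem_sdiff.1 (hj (mem_erase.2 ⟨hxy', hxB⟩))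
        refine ⟨Or.inr ⟨huy, hx2.1⟩, ?_⟩
        rintro (hu3 | hu3)
        · exact hyA (huy ▸ hu3)
        · exact hx2.2 hu3.2
      · have hu2 := mem_sdiff.1 (hj (mem_erase.2 ⟨huy, hu⟩))
        refine ⟨Or.inl hu2.1, ?_⟩
        rintro (hu3 | hu3)
        · exact hu2.2 hu3
        · exact huy hu3.1
    have h1 := h.sep _ _ hsep hZ' hj'
    by_cases hxW : x ∈ A ∩ A'
    · have hint : E A ∩ E A' = insert y (A ∩ A') := by
        ext u
        rw [mem_inter, hE, hE, mem_insert, mem_inter]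
        obtain ⟨hx1, hx2⟩ := mem_inter.1 hxW
        constructor
        · rintro ⟨hu1 | hu1, hu2 | hu2⟩
          · exact Or.inr ⟨hu1, hu2⟩
          · exact Or.inl hu2.1
          · exact Or.inl hu1.1
          · exact Or.inl hu1.1
        · rintro (hu | hu)
          · exact ⟨Or.inr ⟨hu, hx1⟩, Or.inr ⟨hu, hx2⟩⟩
          · exact ⟨Or.inl hu.1, Or.inl hu.2⟩
      have hc : (insert y (A ∩ A')).card = (A ∩ A').card + 1 :=
        card_insert_of_notMem (fun hx => hyA (mem_inter.1 hx).1)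
      rw [hint, hc] at h1
      by_contra hlt
      have h2 := hT _ _ hsep hZ' hj' (by rw [hint, hc]; omega)
      rw [hint] at h2
      exact hyZ (h2 ▸ mem_insert_self _ _)
    · have hint : E A ∩ E A' = A ∩ A' := by
        ext u
        rw [mem_inter, hE, hE, mem_inter]
        constructor
        · rintro ⟨hu1 | hu1, hu2 | hu2⟩
          · exact ⟨hu1, hu2⟩
          · exact absurd (hu2.1 ▸ hu1) hyA
          · exact absurd (hu1.1 ▸ hu2) hyA'
          · exact absurd (mem_inter.2 ⟨hu1.2, hu2.2⟩) hxW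
        · rintro ⟨hu1, hu2⟩
          exact ⟨Or.inl hu1, Or.inl hu2⟩
      rw [hint] at h1
      exact h1

/-- lifting of the conclusion -/
theorem Rt.lift {G : SimpleGraph V} {D Z : Finset V} {x y : V} (hxy : G.Adj x y)
    (hyD : y ∈ D) (h : Rt (contr G x y) (D.erase y) Z) : Rt G D Z := by
  classical
  obtain ⟨T, hT1, hT2⟩ := h
  have hyT : ∀ z ∈ Z, y ∉ T z := by
    intro z hz hy
    exact (mem_erase.1 ((hT1 z hz).1 hy)).1 rfl
  have hmem : ∀ z v, v ∈ (if x ∈ T z then insert y (T z) else T z) ↔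
      v ∈ T z ∨ (v = y ∧ x ∈ T z) := by
    intro z v
    split_ifs with hx
    · simp only [mem_insert]; tauto
    · tauto
  refine ⟨fun z => if x ∈ T z then insert y (T z) else T z, fun z hz => ⟨?_, ?_, ?_⟩,
    fun z hz z' hz' hne => ⟨?_, ?_⟩⟩
  · intro v hv
    rcases (hmem z v).1 hv with hv | ⟨rfl, _⟩
    · exact (mem_erase.1 ((hT1 z hz).1 hv)).2
    · exact hyD
  · dsimp only
    split_ifs with hx
    · exact conn_insert_of_contr hxy hx (hT1 z hz).2.1
    · refine conn_mono_on (hT1 z hz).2.1 ?_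
      intro a ha b hb hab
      obtain ⟨_, h5 | ⟨h5, _⟩ | ⟨h5, _⟩⟩ := hab
      · exact h5
      · exact absurd (h5 ▸ ha) hx
      · exact absurd (h5 ▸ hb) hx
  · exact (hmem z z).2 (Or.inl (hT1 z hz).2.2)
  · rw [disjoint_left]
    intro v hv hv'
    have hd := disjoint_left.1 (hT2 z hz z' hz' hne).1
    rcases (hmem z v).1 hv with hv | ⟨rfl, hx⟩ <;> rcases (hmem z' v).1 hv' with hv' | ⟨h5, hx'⟩
    · exact hd hv hv'
    · rw [h5] at hv; exact hyT z hz hv
    · exact hyT z' hz' hv'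
    · exact hd hx hx'
  · obtain ⟨-, a, ha, b, hb, hab⟩ := hT2 z hz z' hz' hne
    obtain ⟨_, h5 | ⟨h5, h6⟩ | ⟨h5, h6⟩⟩ := hab
    · exact ⟨a, (hmem z a).2 (Or.inl ha), b, (hmem z' b).2 (Or.inl hb), h5⟩
    · exact ⟨y, (hmem z y).2 (Or.inr ⟨rfl, h5 ▸ ha⟩), b, (hmem z' b).2 (Or.inl hb), h6⟩
    · exact ⟨a, (hmem z a).2 (Or.inl ha), y, (hmem z' y).2 (Or.inr ⟨rfl, h5 ▸ hb⟩), h6.symm⟩

/-- the terminal case -/
theorem terminal {G : SimpleGraph V} {D Z : Finset V} {p : ℕ} {B : Fin p → Finset V}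
    (hZD : Z ⊆ D) (hp : 2 * Z.card ≤ p) (h : Cl G D Z p B)
    (hD : ∀ v ∈ D, v ∉ Z → ∃ i, v ∈ B i)
    (hE : ∀ i, ∀ x ∈ B i, ∀ y ∈ B i, G.Adj x y → y ∈ Z) : Rt G D Z := by
  classical
  have ht1 : ∀ i, ¬ Disjoint (B i) Z → B i ⊆ Z := by
    intro i hi v hv
    by_contra hvZ
    obtain ⟨L, hL, hLc, hvL, z, hzL, hzZ⟩ := h.tou i hi v hv
    have hzv : z ∉ ({v} : Finset V) := by
      rw [mem_singleton]
      rintro rfl
      exact hvZ hzZ
    obtain ⟨p, hpL, hpC, q, hqL, hqC, hpq⟩ := exists_cross hLc hvL hzL (mem_singleton_self v) hzv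
    rw [mem_singleton] at hpC
    subst hpC
    exact hvZ (hE i q (hL hqL) p (hL hpL) hpq.symm)
  have ht2 : ∀ i, Disjoint (B i) Z → ∀ x ∈ B i, ∀ y ∈ B i, x = y := by
    intro i hi x hx y hy
    by_contra hne
    have hyx : y ∉ ({x} : Finset V) := by
      rw [mem_singleton]
      exact fun h => hne h.symm
    obtain ⟨p, hpL, hpC, q, hqL, hqC, hpq⟩ :=
      exists_cross (h.con i hi) hx hy (mem_singleton_self x) hyx
    exact disjoint_left.1 hi hqL (hE i p hpL q hqL hpq)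
  obtain ⟨L, hL, hLc, hLd, hLZ, hLQ⟩ := menger G D Z (D \ Z) Z.card hZD sdiff_subset (by
    intro C C' hC hZC hQC'
    by_contra hlt
    push Not at hlt
    have hgood : ∃ i, Disjoint (B i) (Z ∪ (C ∩ C')) := by
      by_contra hcon
      push Not at hcon
      have hf : ∀ i, ∃ v, v ∈ B i ∧ v ∈ Z ∪ (C ∩ C') := fun i => not_disjoint_iff.1 (hcon i)
      choose f hf1 hf2 using hf
      have hinj : Function.Injective f := by
        intro i j hij
        by_contra hne
        exact disjoint_left.1 (h.dis i j hne) (hf1 i) (hij ▸ hf1 j)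
      have hle : (univ.image f).card ≤ (Z ∪ (C ∩ C')).card := card_le_card (by
        intro v hv
        obtain ⟨k, -, rfl⟩ := mem_image.1 hv
        exact hf2 k)
      rw [card_image_of_injective _ hinj, card_univ, Fintype.card_fin] at hle
      have := card_union_le Z (C ∩ C')
      omega
    obtain ⟨i, hi⟩ := hgood
    have hi1 : Disjoint (B i) Z := disjoint_of_subset_right subset_union_left hi
    have hi2 : Disjoint (B i) (C ∩ C') := disjoint_of_subset_right subset_union_right hi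
    have := h.sep C C' hC hZC ⟨i, fun v hv => by
      have hvC' : v ∈ C' := hQC' (mem_sdiff.2 ⟨h.sub i hv, disjoint_left.1 hi1 hv⟩)
      exact mem_sdiff.2 ⟨hvC', fun hvC => disjoint_left.1 hi2 hv (mem_inter.2 ⟨hvC, hvC'⟩)⟩⟩
    omega)
  have hcov := cover L hLd hLZ
  have hk : ∀ z : V, ∃ X : Finset V, z ∈ Z → ∃ k, z ∈ L k ∧ X = L k := by
    intro z
    by_cases hz : z ∈ Z
    · obtain ⟨k, hk⟩ := hcov z hz
      exact ⟨L k, fun _ => ⟨k, hk, rfl⟩⟩
    · exact ⟨∅, fun h => absurd h hz⟩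
  choose X hX using hk
  have hq : ∀ k, ∃ q, q ∈ L k ∧ q ∈ D \ Z := by
    intro k
    obtain ⟨w, hw⟩ := card_eq_one.1 (hLQ k)
    have : w ∈ L k ∩ (D \ Z) := by
      rw [hw]
      exact mem_singleton_self _
    exact ⟨w, mem_inter.1 this⟩
  refine ⟨X, fun z hz => ?_, fun z hz z' hz' hne => ?_⟩
  · obtain ⟨k, hk, hXk⟩ := hX z hz
    rw [hXk]
    exact ⟨hL k, hLc k, hk⟩
  · obtain ⟨k, hk, hXk⟩ := hX z hz
    obtain ⟨k', hk', hXk'⟩ := hX z' hz'
    have hkk : k ≠ k' := by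
      rintro rfl
      exact hne (unique_of_card (hLZ k) hk hz hk' hz')
    rw [hXk, hXk']
    refine ⟨hLd k k' hkk, ?_⟩
    obtain ⟨q, hqL, hqD⟩ := hq k
    obtain ⟨q', hqL', hqD'⟩ := hq k'
    obtain ⟨hq1, hq2⟩ := mem_sdiff.1 hqD
    obtain ⟨hq1', hq2'⟩ := mem_sdiff.1 hqD'
    obtain ⟨i, hi⟩ := hD q hq1 hq2
    obtain ⟨i', hi'⟩ := hD q' hq1' hq2'
    have hiZ : Disjoint (B i) Z := by
      by_contra hcon
      exact hq2 (ht1 i hcon hi)
    have hiZ' : Disjoint (B i') Z := by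
      by_contra hcon
      exact hq2' (ht1 i' hcon hi')
    have hii : i ≠ i' := by
      rintro rfl
      have := ht2 i hiZ q hi q' hi'
      exact disjoint_left.1 (hLd k k' hkk) hqL (this ▸ hqL')
    obtain ⟨x, hx, y, hy, hxy⟩ := h.adj i hiZ i' hii
    rw [ht2 i hiZ x hx q hi, ht2 i' hiZ' y hy q' hi'] at hxy
    exact ⟨q, hqL, q', hqL', hxy⟩

theorem main : ∀ (n : ℕ) (G : SimpleGraph V) (D Z : Finset V) (p : ℕ) (B : Fin p → Finset V),
    D.card ≤ n → Z ⊆ D → 2 * Z.card ≤ p → Cl G D Z p B → Rt G D Z := by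
  intro n
  induction n with
  | zero =>
    intro G D Z p B hn hZD hp h
    have hD : D = ∅ := card_eq_zero.1 (Nat.le_zero.1 hn)
    subst hD
    have hZ : Z = ∅ := subset_empty.1 hZD
    subst hZ
    exact ⟨fun _ => ∅, fun z hz => absurd hz (notMem_empty z),
      fun z hz => absurd hz (notMem_empty z)⟩
  | succ n ih =>
    intro G D Z p B hn hZD hp h
    by_cases hT : NoTight G D Z B
    · by_cases hdel : ∃ v ∈ D, v ∉ Z ∧ ∀ i, v ∉ B i
      · obtain ⟨v, hv, hvZ, hvB⟩ := hdel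
        have h1 := ih G (D.erase v) Z p B (by
          rw [card_erase_of_mem hv]; omega)
          (fun z hz => mem_erase.2 ⟨fun hzv => hvZ (hzv ▸ hz), hZD hz⟩) hp
          (h.delete hT hv hvZ hvB)
        obtain ⟨T, hT1, hT2⟩ := h1
        exact ⟨T, fun z hz => ⟨(hT1 z hz).1.trans (erase_subset _ _), (hT1 z hz).2⟩, hT2⟩
      · by_cases hcon : ∃ i, ∃ x ∈ B i, ∃ y ∈ B i, G.Adj x y ∧ y ∉ Z
        · obtain ⟨i, x, hx, y, hy, hxy, hyZ⟩ := hcon
          have hyD := h.sub i hy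
          exact Rt.lift hxy hyD (ih (contr G x y) (D.erase y) Z p _ (by
            rw [card_erase_of_mem hyD]; omega)
            (fun z hz => mem_erase.2 ⟨fun hzy => hyZ (hzy ▸ hz), hZD hz⟩) hp
            (h.contract hT hxy hx hy hyZ))
        · push Not at hdel hcon
          exact terminal hZD hp h hdel hcon
    · unfold NoTight at hT
      push Not at hT
      obtain ⟨A, A', hs, hZ, ⟨j0, hj0⟩, hcard, hne⟩ := hT
      have hA'D : A' ⊆ D := by
        rw [← hs.1]
        exact subset_union_right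
      have hz : ∃ z ∈ Z, z ∉ A' := by
        by_contra hcon
        push Not at hcon
        apply hne
        refine (eq_of_subset_of_card_le ?_ hcard.le).symm
        exact fun z hz => mem_inter.2 ⟨hZ hz, hcon z hz⟩
      obtain ⟨z, hz, hzA'⟩ := hz
      have hlt : A'.card < D.card :=
        card_lt_card ⟨hA'D, fun hsub => hzA' (hsub (hZD hz))⟩
      have h1 := ih G A' (A ∩ A') p _ (by omega) inter_subset_right (by rw [hcard]; exact hp)
        (h.restrict hs hZ hj0 hcard)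
      obtain ⟨L, hL, hLc, hLd, hLZ, hLW⟩ := linkage h hs hZ hj0
      exact join hs L hL hLc hLd hLZ hLW h1

end Rooted

/-- ROW ROOT (Robertson and Seymour: rooted model). -/
theorem rooted (G : SimpleGraph V) (D : Finset V) (a : ℕ) (hD : HConn G D a)
    (hm : HasModel G D (2 * a)) (z : Fin a → V) (hz : Function.Injective z)
    (hzD : ∀ i, z i ∈ D) :
    ∃ T : Fin a → Finset V, (∀ i, T i ⊆ D) ∧ (∀ i, Conn G (T i)) ∧ (∀ i, z i ∈ T i) ∧
      (∀ i j, i ≠ j → Disjoint (T i) (T j)) ∧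
      ∀ i j, i ≠ j → ∃ x ∈ T i, ∃ y ∈ T j, G.Adj x y := by
  obtain ⟨B, hB1, hB2, hB3, hB4⟩ := hm
  have hZc : (univ.image z).card = a := by
    rw [card_image_of_injective _ hz, card_univ, Fintype.card_fin]
  have hcl : Rooted.Cl G D (univ.image z) (2 * a) B := by
    refine ⟨hB1, hB3, fun i _ => hB2 i, fun i hi v hv => ?_, fun i _ j hij => hB4 i j hij,
      fun A A' hs hZ hj => ?_⟩
    · obtain ⟨w, hw, hwZ⟩ := not_disjoint_iff.1 hi
      exact ⟨B i, Subset.refl _, hB2 i, hv, w, hw, hwZ⟩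
    · obtain ⟨j, hj⟩ := hj
      rw [hZc]
      by_cases hAA : (A \ A').Nonempty
      · obtain ⟨v, hv⟩ := Rooted.conn_nonempty (hB2 j)
        exact hD A A' hs hAA ⟨v, hj hv⟩
      · rw [not_nonempty_iff_eq_empty, sdiff_eq_empty_iff_subset] at hAA
        rw [inter_eq_left.2 hAA, ← hZc]
        exact card_le_card hZ
  obtain ⟨T, hT1, hT2⟩ := Rooted.main D.card G D (univ.image z) (2 * a) B le_rfl (by
    intro v hv
    obtain ⟨i, -, rfl⟩ := mem_image.1 hv
    exact hzD i) (by rw [hZc]) hcl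
  have hmem : ∀ i, z i ∈ univ.image z := fun i => mem_image_of_mem z (mem_univ i)
  exact ⟨fun i => T (z i), fun i => (hT1 _ (hmem i)).1, fun i => (hT1 _ (hmem i)).2.1,
    fun i => (hT1 _ (hmem i)).2.2,
    fun i j hij => (hT2 _ (hmem i) _ (hmem j) (fun h => hij (hz h))).1,
    fun i j hij => (hT2 _ (hmem i) _ (hmem j) (fun h => hij (hz h))).2⟩

end Vale.Agent.P060
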