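import Mathlib
import Vale.Agent.P060.Lin.LinDefs
import Vale.Agent.P060.Menger
import Vale.Agent.P060.Lin.GN
import Vale.Agent.P060.Lin.Flow
import Vale.Agent.P060.Lin.Rooted
import Vale.Agent.P060.Lin.LinkH

namespace Vale.Agent.P060

open Finset

variable {V : Type} [Fintype V] [DecidableEq V]

set_option linter.unusedSectionVars false

namespace WovenAux

/-- Inside a connected graph a shortest path is properly coloured by the parity of the distance. -/
theorem dist_inj_on_path {W : Type} {H : SimpleGraph W} {a b : W} (hH : H.Connected)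
    (p : H.Walk a b) (hp : p.length = H.dist a b) {u v : W} (hu : u ∈ p.support)
    (hv : v ∈ p.support) (h : H.dist a u = H.dist a v) : u = v := by
  classical
  have key : ∀ w ∈ p.support, ∃ i, p.getVert i = w ∧ H.dist a w = i := by
    intro w hw
    obtain ⟨i, hi, hil⟩ := SimpleGraph.Walk.mem_support_iff_exists_getVert.1 hw
    refine ⟨i, hi, ?_⟩
    have h1 : H.dist a w ≤ i := by
      have := SimpleGraph.dist_le ((p.take i).copy rfl hi)
      rw [SimpleGraph.Walk.length_copy, SimpleGraph.Walk.take_length] at this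
      omega
    have h2 : H.dist w b ≤ p.length - i := by
      have := SimpleGraph.dist_le ((p.drop i).copy hi rfl)
      rw [SimpleGraph.Walk.length_copy, SimpleGraph.Walk.drop_length] at this
      omega
    have h3 := hH.dist_triangle (u := a) (v := w) (w := b)
    omega
  obtain ⟨i, hi, hdi⟩ := key u hu
  obtain ⟨j, hj, hdj⟩ := key v hv
  have : i = j := by omega
  subst this
  rw [← hi, ← hj]

/-- A connected set contains a 2-colourable connected set through two given vertices. -/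
theorem bip_path {G : SimpleGraph V} {L : Finset V} (hL : Conn G L) {a b : V} (ha : a ∈ L)
    (hb : b ∈ L) : ∃ L' ⊆ L, Conn G L' ∧ a ∈ L' ∧ b ∈ L' ∧ Col G L' 2 := by
  classical
  unfold Conn at hL
  have ha' : a ∈ (L : Set V) := by simpa using ha
  have hb' : b ∈ (L : Set V) := by simpa using hb
  obtain ⟨q, hq⟩ := hL.exists_walk_length_eq_dist ⟨a, ha'⟩ ⟨b, hb'⟩
  let f : G.induce (L : Set V) →g G := (SimpleGraph.Embedding.induce (L : Set V)).toHom
  let q' : G.Walk a b := q.map f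
  have hq' : q'.support = q.support.map f := SimpleGraph.Walk.support_map f q
  have hmem : ∀ w ∈ q'.support, ∃ h : w ∈ (L : Set V), (⟨w, h⟩ : (L : Set V)) ∈ q.support := by
    intro w hw
    rw [hq'] at hw
    obtain ⟨z, hz, rfl⟩ := List.mem_map.1 hw
    exact ⟨z.2, hz⟩
  refine ⟨q'.support.toFinset, ?_, MengerAux.conn_support _, ?_, ?_, ?_⟩
  · intro w hw
    obtain ⟨h, _⟩ := hmem w (List.mem_toFinset.1 hw)
    simpa using h
  · rw [List.mem_toFinset]; exact q'.start_mem_support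
  · rw [List.mem_toFinset]; exact q'.end_mem_support
  · refine ⟨fun v => if h : v ∈ (L : Set V) then
      (G.induce (L : Set V)).dist ⟨a, ha'⟩ ⟨v, h⟩ % 2 else 0, ?_, ?_⟩
    · intro v _
      dsimp only
      split_ifs
      · exact Nat.mod_lt _ (by norm_num)
      · norm_num
    · intro u hu v hv huv
      obtain ⟨hu1, hu2⟩ := hmem u (List.mem_toFinset.1 hu)
      obtain ⟨hv1, hv2⟩ := hmem v (List.mem_toFinset.1 hv)
      simp only [hu1, hv1, dif_pos]
      have hadj : (G.induce (L : Set V)).Adj ⟨u, hu1⟩ ⟨v, hv1⟩ := huv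
      have h1 : (G.induce (L : Set V)).dist ⟨u, hu1⟩ ⟨v, hv1⟩ = 1 :=
        SimpleGraph.dist_eq_one_iff_adj.2 hadj
      have h2 := hL.dist_triangle (u := ⟨a, ha'⟩) (v := ⟨u, hu1⟩) (w := ⟨v, hv1⟩)
      have h3 := hL.dist_triangle (u := ⟨a, ha'⟩) (v := ⟨v, hv1⟩) (w := ⟨u, hu1⟩)
      have h4 : (G.induce (L : Set V)).dist ⟨v, hv1⟩ ⟨u, hu1⟩ = 1 :=
        SimpleGraph.dist_eq_one_iff_adj.2 hadj.symm
      have h5 : (G.induce (L : Set V)).dist ⟨a, ha'⟩ ⟨u, hu1⟩ ≠
          (G.induce (L : Set V)).dist ⟨a, ha'⟩ ⟨v, hv1⟩ := by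
        intro h
        have := dist_inj_on_path hL q hq hu2 hv2 h
        have h6 : u = v := congrArg Subtype.val this
        exact G.ne_of_adj huv h6
      omega

theorem col_biUnion {G : SimpleGraph V} {ι : Type} [DecidableEq ι] (J : Finset ι)
    (L : ι → Finset V) (h : ∀ i ∈ J, Col G (L i) 2) : Col G (J.biUnion L) (2 * J.card) := by
  induction J using Finset.induction_on with
  | empty => exact ⟨fun _ => 0, by simp, by simp⟩
  | insert a J ha ih =>
    rw [Finset.biUnion_insert, Finset.card_insert_of_notMem ha]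
    have h1 := ih (fun i hi => h i (Finset.mem_insert_of_mem hi))
    have h2 := h a (Finset.mem_insert_self a J)
    exact (h2.union h1).mono subset_rfl (by omega)

/-- Splitting a set of large chromatic number. -/
theorem split {G : SimpleGraph V} (U : Finset V) (c1 c2 : ℕ) (h : ¬ Col G U (c1 + 1 + c2)) :
    ∃ U1 ⊆ U, ¬ Col G U1 c1 ∧ ¬ Col G (U \ U1) c2 := by
  classical
  have hU : ¬ Col G U c1 := fun h' => h (h'.mono subset_rfl (by omega))
  obtain ⟨U1, hU1, hmin⟩ := Finset.exists_min_image (U.powerset.filter (fun W => ¬ Col G W c1))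
    Finset.card ⟨U, by simp [hU]⟩
  simp only [Finset.mem_filter, Finset.mem_powerset] at hU1 hmin
  refine ⟨U1, hU1.1, hU1.2, ?_⟩
  intro h2
  have hne : U1.Nonempty := by
    rw [Finset.nonempty_iff_ne_empty]
    rintro rfl
    exact hU1.2 ⟨fun _ => 0, by simp, by simp⟩
  obtain ⟨v, hv⟩ := hne
  have h3 : Col G (U1.erase v) c1 := by
    by_contra h3
    have := hmin (U1.erase v) ⟨(Finset.erase_subset _ _).trans hU1.1, h3⟩
    rw [Finset.card_erase_of_mem hv] at this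
    have := Finset.card_pos.2 ⟨v, hv⟩
    omega
  have h4 : Col G ({v} : Finset V) 1 := by
    have := Col.card (G := G) ({v} : Finset V)
    simpa using this
  apply h
  refine ((h3.union h4).union h2).mono ?_ le_rfl
  intro w hw
  by_cases hw1 : w ∈ U1
  · by_cases hwv : w = v
    · subst hwv; simp
    · simp [hw1, hwv]
  · simp [hw, hw1]

end WovenAux


namespace WovenAux

/-- Index a perfect family by its start vertices. -/
theorem index {k : ℕ} (Q : Fin k → Finset V) (A : Finset V) (hA : A.card = k)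
    (hd : ∀ i j, i ≠ j → Disjoint (Q i) (Q j)) (hQA : ∀ i, (Q i ∩ A).card = 1) :
    ∃ P : V → Finset V, (∀ w ∈ A, ∃ i, P w = Q i ∧ w ∈ Q i) ∧
      ∀ w ∈ A, ∀ w' ∈ A, w ≠ w' → Disjoint (P w) (P w') := by
  classical
  have hcov : ∀ w ∈ A, ∃ i, w ∈ Q i := by
    have h1 : (univ.biUnion (fun i => Q i ∩ A)).card = k := by
      rw [Finset.card_biUnion]
      · simp [hQA]
      · intro i _ j _ hij
        exact Finset.disjoint_of_subset_left Finset.inter_subset_left
          (Finset.disjoint_of_subset_right Finset.inter_subset_left (hd i j hij))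
    have h2 : univ.biUnion (fun i => Q i ∩ A) = A := by
      apply Finset.eq_of_subset_of_card_le
      · intro x hx
        simp only [Finset.mem_biUnion, Finset.mem_univ, true_and, Finset.mem_inter] at hx
        obtain ⟨i, _, h⟩ := hx
        exact h
      · omega
    intro w hw
    rw [← h2] at hw
    simp only [Finset.mem_biUnion, Finset.mem_univ, true_and, Finset.mem_inter] at hw
    obtain ⟨i, h, _⟩ := hw
    exact ⟨i, h⟩
  choose e he using hcov
  refine ⟨fun w => if h : w ∈ A then Q (e w h) else ∅, ?_, ?_⟩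
  · intro w hw
    exact ⟨e w hw, by simp [hw], he w hw⟩
  · intro w hw w' hw' hne
    simp only [hw, hw', dif_pos]
    apply hd
    intro h
    have h1 := he w hw
    have h2 := he w' hw'
    rw [← h] at h2
    obtain ⟨x, hx⟩ := Finset.card_eq_one.1 (hQA (e w hw))
    have h3 : w ∈ Q (e w hw) ∩ A := Finset.mem_inter.2 ⟨h1, hw⟩
    have h4 : w' ∈ Q (e w hw) ∩ A := Finset.mem_inter.2 ⟨h2, hw'⟩
    rw [hx, Finset.mem_singleton] at h3 h4
    exact hne (h3.trans h4.symm)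

/-- The final assembly. -/
theorem assemble {G : SimpleGraph V} {ι : Type} [DecidableEq ι] (S Z Y D : Finset V)
    (R J : Finset ι) (f g l : ι → V) (P : V → Finset V) (yy : V → V) (M B : ι → Finset V)
    (hZS : Z ⊆ S) (hYS : Y ⊆ S) (hDS : D ⊆ S)
    (hZY : Disjoint Z Y) (hZD : Disjoint Z D) (hDY : Disjoint D Y)
    (hf : ∀ j, f j ∈ Z) (hgl : ∀ j, j ∉ R → g j = l j) (hl : ∀ j, l j ∈ Z)
    (hRf : ∀ j ∈ R, f j = l j) (hRJ : R ⊆ J)
    (hJ : ∀ j, j ∉ J → f j = l j)
    (hPS : ∀ j, P (f j) ⊆ S ∧ P (g j) ⊆ S)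
    (hPc : ∀ j, Conn G (P (f j)) ∧ Conn G (P (g j)))
    (hPm : ∀ j, f j ∈ P (f j) ∧ g j ∈ P (g j))
    (hPD : ∀ j, (∀ x ∈ P (f j), x ∈ D → x = f j) ∧ ∀ x ∈ P (g j), x ∈ D → x = g j)
    (hPY : ∀ j, (∀ x ∈ P (f j), x ∈ Y → x = yy (f j)) ∧ ∀ x ∈ P (g j), x ∈ Y → x = yy (g j))
    (hyP : ∀ j, yy (f j) ∈ P (f j) ∧ yy (g j) ∈ P (g j))
    (hPd : ∀ i j, i ≠ j → Disjoint (P (f i)) (P (f j)) ∧ Disjoint (P (f i)) (P (g j)) ∧
      Disjoint (P (g i)) (P (g j)))
    (hMY : ∀ j ∈ J, M j ⊆ Y) (hMc : ∀ j ∈ J, Conn G (M j))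
    (hMm : ∀ j ∈ J, yy (f j) ∈ M j ∧ yy (g j) ∈ M j)
    (hMd : ∀ i ∈ J, ∀ j ∈ J, i ≠ j → Disjoint (M i) (M j))
    (hBD : ∀ j ∈ R, B j ⊆ D) (hBc : ∀ j ∈ R, Conn G (B j))
    (hBm : ∀ j ∈ R, g j ∈ B j)
    (hBd : ∀ i ∈ R, ∀ j ∈ R, i ≠ j → Disjoint (B i) (B j))
    (hBa : ∀ i ∈ R, ∀ j ∈ R, i ≠ j → ∃ x ∈ B i, ∃ y ∈ B j, G.Adj x y) :
    ∃ T : ι → Finset V, (∀ j, T j ⊆ S) ∧ (∀ j, Conn G (T j)) ∧ (∀ j, f j ∈ T j) ∧
      (∀ j, l j ∈ T j) ∧ (∀ i j, i ≠ j → Disjoint (T i) (T j)) ∧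
      ∀ i ∈ R, ∀ j ∈ R, i ≠ j → ∃ x ∈ T i, ∃ y ∈ T j, G.Adj x y := by
  classical
  let T : ι → Finset V := fun j =>
    if j ∈ J then (P (f j) ∪ M j ∪ P (g j)) ∪ (if j ∈ R then B j else ∅) else {f j}
  have hmem : ∀ j x, x ∈ T j → (j ∈ J ∧ (x ∈ P (f j) ∨ x ∈ P (g j) ∨ x ∈ M j ∨ (j ∈ R ∧ x ∈ B j)))
      ∨ (j ∉ J ∧ x = f j) := by
    intro j x hx
    by_cases hj : j ∈ J
    · left
      refine ⟨hj, ?_⟩
      by_cases hR : j ∈ R
      · simp only [T, hj, hR, if_true, Finset.mem_union] at hx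
        tauto
      · simp only [T, hj, hR, if_true, if_false, Finset.mem_union] at hx
        have : x ∉ (∅ : Finset V) := Finset.notMem_empty x
        tauto
    · right
      simp only [T, hj, if_false, Finset.mem_singleton] at hx
      exact ⟨hj, hx⟩
  have hZY' : ∀ x ∈ Z, x ∉ Y := fun x h1 h2 => Finset.disjoint_left.1 hZY h1 h2
  have hZD' : ∀ x ∈ Z, x ∉ D := fun x h1 h2 => Finset.disjoint_left.1 hZD h1 h2
  have hDY' : ∀ x ∈ D, x ∉ Y := fun x h1 h2 => Finset.disjoint_left.1 hDY h1 h2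
  have claim1 : ∀ j x, x ∈ T j → x ∈ Y → j ∈ J ∧ x ∈ M j := by
    intro j x hx hY
    rcases hmem j x hx with ⟨hj, h | h | h | h⟩ | ⟨hj, h⟩
    · rw [(hPY j).1 x h hY]; exact ⟨hj, (hMm j hj).1⟩
    · rw [(hPY j).2 x h hY]; exact ⟨hj, (hMm j hj).2⟩
    · exact ⟨hj, h⟩
    · exact absurd hY (hDY' x (hBD j h.1 h.2))
    · subst h; exact absurd hY (hZY' _ (hf j))
  have claim2 : ∀ j x, x ∈ T j → x ∈ D → j ∈ R ∧ x ∈ B j := by
    intro j x hx hxD
    rcases hmem j x hx with ⟨hj, h | h | h | h⟩ | ⟨hj, h⟩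
    · have h1 := (hPD j).1 x h hxD
      subst h1
      exact absurd hxD (hZD' _ (hf j))
    · have h1 := (hPD j).2 x h hxD
      subst h1
      by_cases hR : j ∈ R
      · exact ⟨hR, hBm j hR⟩
      · rw [hgl j hR] at hxD
        exact absurd hxD (hZD' _ (hl j))
    · exact absurd (hMY j hj h) (hDY' x hxD)
    · exact h
    · subst h; exact absurd hxD (hZD' _ (hf j))
  have claim3 : ∀ j x, x ∈ T j → x ∉ Y → x ∉ D → x ∈ P (f j) ∨ x ∈ P (g j) := by
    intro j x hx hY hxD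
    rcases hmem j x hx with ⟨hj, h | h | h | h⟩ | ⟨hj, h⟩
    · exact Or.inl h
    · exact Or.inr h
    · exact absurd (hMY j hj h) hY
    · exact absurd (hBD j h.1 h.2) hxD
    · subst h; exact Or.inl (hPm j).1
  have hfT : ∀ j, f j ∈ T j := by
    intro j
    by_cases hj : j ∈ J
    · simp only [T, hj, if_true, Finset.mem_union]
      exact Or.inl (Or.inl (Or.inl (hPm j).1))
    · simp [T, hj]
  refine ⟨T, ?_, ?_, hfT, ?_, ?_, ?_⟩
  · intro j x hx
    rcases hmem j x hx with ⟨hj, h | h | h | h⟩ | ⟨hj, h⟩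
    · exact (hPS j).1 h
    · exact (hPS j).2 h
    · exact hYS (hMY j hj h)
    · exact hDS (hBD j h.1 h.2)
    · subst h; exact hZS (hf j)
  · intro j
    by_cases hj : j ∈ J
    · have h1 : Conn G (P (f j) ∪ M j) :=
        MengerAux.conn_union (hPc j).1 (hMc j hj) (hyP j).1 (hMm j hj).1
      have h2 : Conn G (P (f j) ∪ M j ∪ P (g j)) :=
        MengerAux.conn_union h1 (hPc j).2 (v := yy (g j))
          (Finset.mem_union_right _ (hMm j hj).2) (hyP j).2
      by_cases hR : j ∈ R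
      · simp only [T, hj, hR, if_true]
        exact MengerAux.conn_union h2 (hBc j hR) (v := g j)
          (Finset.mem_union_right _ (hPm j).2) (hBm j hR)
      · simp only [T, hj, hR, if_true, if_false, Finset.union_empty]
        exact h2
    · simp only [T, hj, if_false]
      exact MengerAux.conn_singleton G (f j)
  · intro j
    by_cases hR : j ∈ R
    · rw [← hRf j hR]; exact hfT j
    · by_cases hj : j ∈ J
      · simp only [T, hj, if_true, Finset.mem_union]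
        have := (hPm j).2
        rw [hgl j hR] at this ⊢
        exact Or.inl (Or.inr this)
      · rw [← hJ j hj]; exact hfT j
  · intro i j hij
    rw [Finset.disjoint_left]
    intro x hi hj
    by_cases hY : x ∈ Y
    · obtain ⟨h1, h2⟩ := claim1 i x hi hY
      obtain ⟨h3, h4⟩ := claim1 j x hj hY
      exact Finset.disjoint_left.1 (hMd i h1 j h3 hij) h2 h4
    · by_cases hxD : x ∈ D
      · obtain ⟨h1, h2⟩ := claim2 i x hi hxD
        obtain ⟨h3, h4⟩ := claim2 j x hj hxD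
        exact Finset.disjoint_left.1 (hBd i h1 j h3 hij) h2 h4
      · rcases claim3 i x hi hY hxD with h1 | h1 <;> rcases claim3 j x hj hY hxD with h2 | h2
        · exact Finset.disjoint_left.1 (hPd i j hij).1 h1 h2
        · exact Finset.disjoint_left.1 (hPd i j hij).2.1 h1 h2
        · exact Finset.disjoint_left.1 (hPd j i hij.symm).2.1 h2 h1
        · exact Finset.disjoint_left.1 (hPd i j hij).2.2 h1 h2
  · intro i hi j hj hij
    obtain ⟨x, hx, y, hy, hxy⟩ := hBa i hi j hj hij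
    refine ⟨x, ?_, y, ?_, hxy⟩
    · simp only [T, hRJ hi, hi, if_true, Finset.mem_union]
      exact Or.inr hx
    · simp only [T, hRJ hj, hj, if_true, Finset.mem_union]
      exact Or.inr hy

end WovenAux

/-- ROW WOVEN. -/
theorem woven (G : SimpleGraph V) (S : Finset V) {ι : Type} [Fintype ι] [DecidableEq ι]
    (R : Finset ι) (f l : ι → V) (κ K' : ℕ) (hS : HConn G S κ)
    (hκ : 1000 * (Fintype.card ι + 1) ≤ κ)
    (hc : ¬ Col G S (K' + 10 ^ 6 * (Fintype.card ι + 1)))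
    (hD : ∀ D ⊆ S, ¬ Col G D K' → HasModel G D (2 * R.card))
    (hf : ∀ j, f j ∈ S) (hl : ∀ j, l j ∈ S)
    (hfl : ∀ i j, i ≠ j → f i ≠ f j ∧ f i ≠ l j ∧ l i ≠ l j) (hR : ∀ j ∈ R, f j = l j) :
    ∃ T : ι → Finset V, (∀ j, T j ⊆ S) ∧ (∀ j, Conn G (T j)) ∧ (∀ j, f j ∈ T j) ∧
      (∀ j, l j ∈ T j) ∧ (∀ i j, i ≠ j → Disjoint (T i) (T j)) ∧
      ∀ i ∈ R, ∀ j ∈ R, i ≠ j → ∃ x ∈ T i, ∃ y ∈ T j, G.Adj x y := by
  classical
  obtain ⟨n, hn⟩ : ∃ n, n = Fintype.card ι := ⟨_, rfl⟩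
  rw [← hn] at hκ hc
  have hRn : R.card ≤ n := hn ▸ Finset.card_le_univ R
  -- terminals
  obtain ⟨Z, hZ⟩ : ∃ Z : Finset V, Z = univ.image f ∪ univ.image l := ⟨_, rfl⟩
  have hfZ : ∀ j, f j ∈ Z := fun j => by rw [hZ]; simp
  have hlZ : ∀ j, l j ∈ Z := fun j => by rw [hZ]; simp
  have hZS : Z ⊆ S := by
    intro x hx
    rw [hZ] at hx
    simp only [Finset.mem_union, Finset.mem_image, Finset.mem_univ, true_and] at hx
    rcases hx with ⟨j, rfl⟩ | ⟨j, rfl⟩
    · exact hf j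
    · exact hl j
  have hZn : Z.card ≤ 2 * n := by
    rw [hZ]
    refine (Finset.card_union_le _ _).trans ?_
    have h1 : (univ.image f).card ≤ n := hn ▸ Finset.card_image_le
    have h2 : (univ.image l).card ≤ n := hn ▸ Finset.card_image_le
    omega
  -- split
  have hc1 : ¬ Col G (S \ Z) (20000 * (n + 1) + 1 + (K' + 100000 * (n + 1))) := by
    intro h
    apply hc
    refine (h.union (Col.card Z)).mono ?_ (by omega)
    intro x hx
    by_cases hxZ : x ∈ Z <;> simp [hx, hxZ]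
  obtain ⟨U1, hU1, hU1c, hU2c⟩ := WovenAux.split (S \ Z) _ _ hc1
  -- hub
  obtain ⟨Y, hYU, hYH, hYc⟩ := gn G U1 (20000 * (n + 1)) (100 * (n + 1)) (by omega) (by omega) hU1c
  have hYcard : 20000 * (n + 1) - 20 * (100 * (n + 1)) < Y.card := by
    by_contra h
    exact hYc ((Col.card Y).mono subset_rfl (not_lt.1 h))
  have hYSZ : Y ⊆ S \ Z := hYU.trans hU1
  have hYS : Y ⊆ S := hYSZ.trans Finset.sdiff_subset
  have hZY : Disjoint Z Y :=
    Finset.disjoint_right.2 fun x hx => (Finset.mem_sdiff.1 (hYSZ hx)).2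
  -- first linkage
  have hmen : ∃ L : Fin Z.card → Finset V, (∀ i, L i ⊆ S) ∧ (∀ i, Conn G (L i)) ∧
      (∀ i j, i ≠ j → Disjoint (L i) (L j)) ∧ (∀ i, (L i ∩ Z).card = 1) ∧
      ∀ i, (L i ∩ Y).card = 1 := by
    apply menger G S Z Y Z.card hZS hYS
    intro C D hsep hZC hYD
    by_cases h1 : (C \ D).Nonempty
    · by_cases h2 : (D \ C).Nonempty
      · have := hS C D hsep h1 h2
        omega
      · rw [Finset.not_nonempty_iff_eq_empty, Finset.sdiff_eq_empty_iff_subset] at h2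
        have : Y ⊆ C ∩ D := Finset.subset_inter (hYD.trans h2) hYD
        have := Finset.card_le_card this
        omega
    · rw [Finset.not_nonempty_iff_eq_empty, Finset.sdiff_eq_empty_iff_subset] at h1
      have : Z ⊆ C ∩ D := Finset.subset_inter hZC (hZC.trans h1)
      exact Finset.card_le_card this
  obtain ⟨L0, hL0S, hL0c, hL0d, hL0Z, hL0Y⟩ := hmen
  have hshort : ∀ i, ∃ L' ⊆ L0 i, Conn G L' ∧ (L' ∩ Z).card = 1 ∧ (L' ∩ Y).card = 1 ∧
      Col G L' 2 := by
    intro i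
    obtain ⟨a, ha⟩ := Finset.card_eq_one.1 (hL0Z i)
    obtain ⟨b, hb⟩ := Finset.card_eq_one.1 (hL0Y i)
    have ha' : a ∈ L0 i ∩ Z := by rw [ha]; simp
    have hb' : b ∈ L0 i ∩ Y := by rw [hb]; simp
    obtain ⟨L', hL', hc', haL, hbL, hcol⟩ := WovenAux.bip_path (hL0c i)
      (Finset.mem_inter.1 ha').1 (Finset.mem_inter.1 hb').1
    refine ⟨L', hL', hc', ?_, ?_, hcol⟩
    · rw [Finset.card_eq_one]
      refine ⟨a, ?_⟩
      apply Finset.Subset.antisymm
      · rw [← ha]; exact Finset.inter_subset_inter_right hL'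
      · simpa using ⟨haL, (Finset.mem_inter.1 ha').2⟩
    · rw [Finset.card_eq_one]
      refine ⟨b, ?_⟩
      apply Finset.Subset.antisymm
      · rw [← hb]; exact Finset.inter_subset_inter_right hL'
      · simpa using ⟨hbL, (Finset.mem_inter.1 hb').2⟩
  choose L1 hL1L hL1c hL1Z hL1Y hL1col using hshort
  obtain ⟨P0, hP0⟩ : ∃ P0 : Finset V, P0 = univ.biUnion L1 := ⟨_, rfl⟩
  have hP0col : Col G P0 (2 * Z.card) := by
    rw [hP0]
    have := WovenAux.col_biUnion (G := G) univ L1 (fun i _ => hL1col i)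
    simpa using this
  -- the second part
  have hc3 : ¬ Col G (((S \ Z) \ U1) \ P0) (K' + 200 * (n + 1)) := by
    intro h
    apply hU2c
    refine (h.union hP0col).mono ?_ (by omega)
    intro x hx
    by_cases hxZ : x ∈ P0
    · exact Finset.mem_union_right _ hxZ
    · exact Finset.mem_union_left _ (Finset.mem_sdiff.2 ⟨hx, hxZ⟩)
  obtain ⟨D, hDU, hDH, hDc⟩ := gn G _ (K' + 200 * (n + 1)) (n + 1) (by omega) (by omega) hc3
  have hDcard : n < D.card := by
    by_contra h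
    exact hDc ((Col.card D).mono subset_rfl (by omega))
  have hDS : D ⊆ S := fun x hx => by
    have := hDU hx
    simp only [Finset.mem_sdiff] at this
    exact this.1.1.1
  have hZD : Disjoint Z D := Finset.disjoint_right.2 fun x hx => by
    have := hDU hx
    simp only [Finset.mem_sdiff] at this
    exact this.1.1.2
  have hDY : Disjoint D Y := Finset.disjoint_left.2 fun x hx hxY => by
    have := hDU hx
    simp only [Finset.mem_sdiff] at this
    exact this.1.2 (hYU hxY)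
  have hDP : Disjoint D P0 := Finset.disjoint_left.2 fun x hx => by
    have := hDU hx
    simp only [Finset.mem_sdiff] at this
    exact this.2
  have hDm : HasModel G D (2 * R.card) :=
    hD D hDS (fun h => hDc (h.mono subset_rfl (by omega)))
  -- flow
  have hL1S : ∀ i, L1 i ⊆ S \ D := by
    intro i x hx
    rw [Finset.mem_sdiff]
    refine ⟨hL0S i (hL1L i hx), fun hxD => ?_⟩
    apply Finset.disjoint_left.1 hDP hxD
    rw [hP0]
    exact Finset.mem_biUnion.2 ⟨i, Finset.mem_univ _, hx⟩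
  have hL1d : ∀ i j, i ≠ j → Disjoint (L1 i) (L1 j) := by
    intro i j hij
    exact Finset.disjoint_of_subset_left (hL1L i)
      (Finset.disjoint_of_subset_right (hL1L j) (hL0d i j hij))
  obtain ⟨D', hD'D, hD'c, Q, hQS, hQc, hQd, hQA, hQY⟩ := flow G S Z Y D κ R.card hS hZS hYS hDS
    hZD.symm hDY ⟨L1, hL1S, hL1c, hL1d, hL1Z, hL1Y⟩ (by omega) (by omega) (by omega)
  have hZD' : Disjoint Z D' := Finset.disjoint_of_subset_right hD'D hZD
  have hAc : (Z ∪ D').card = Z.card + R.card := by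
    rw [Finset.card_union_of_disjoint hZD', hD'c]
  obtain ⟨P, hP, hPd⟩ := WovenAux.index Q (Z ∪ D') hAc hQd hQA
  have hPc : ∀ w ∈ Z ∪ D', Conn G (P w) := fun w hw => by
    obtain ⟨i, hi, _⟩ := hP w hw
    rw [hi]; exact hQc i
  have hPm : ∀ w ∈ Z ∪ D', w ∈ P w := fun w hw => by
    obtain ⟨i, hi, h⟩ := hP w hw
    rw [hi]; exact h
  have hPS : ∀ w ∈ Z ∪ D', P w ⊆ S \ D ∪ D' := fun w hw => by
    obtain ⟨i, hi, _⟩ := hP w hw
    rw [hi]; exact hQS i
  have hPA : ∀ w ∈ Z ∪ D', ∀ x ∈ P w, x ∈ Z ∪ D' → x = w := fun w hw x hx hxA => by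
    obtain ⟨i, hi, h⟩ := hP w hw
    rw [hi] at hx
    obtain ⟨a, ha⟩ := Finset.card_eq_one.1 (hQA i)
    have h1 : x ∈ Q i ∩ (Z ∪ D') := Finset.mem_inter.2 ⟨hx, hxA⟩
    have h2 : w ∈ Q i ∩ (Z ∪ D') := Finset.mem_inter.2 ⟨h, hw⟩
    rw [ha, Finset.mem_singleton] at h1 h2
    exact h1.trans h2.symm
  have hyy : ∃ yy : V → V, ∀ w ∈ Z ∪ D', P w ∩ Y = {yy w} := by
    have : ∀ w, ∃ y, w ∈ Z ∪ D' → P w ∩ Y = {y} := by
      intro w
      by_cases hw : w ∈ Z ∪ D'
      · obtain ⟨i, hi, _⟩ := hP w hw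
        obtain ⟨y, hy⟩ := Finset.card_eq_one.1 (hQY i)
        exact ⟨y, fun _ => by rw [hi]; exact hy⟩
      · exact ⟨w, fun h => absurd h hw⟩
    choose yy hyy using this
    exact ⟨yy, hyy⟩
  obtain ⟨yy, hyy⟩ := hyy
  have hyyP : ∀ w ∈ Z ∪ D', yy w ∈ P w := fun w hw => by
    have : yy w ∈ P w ∩ Y := by rw [hyy w hw]; simp
    exact (Finset.mem_inter.1 this).1
  have hyyY : ∀ w ∈ Z ∪ D', yy w ∈ Y := fun w hw => by
    have : yy w ∈ P w ∩ Y := by rw [hyy w hw]; simp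
    exact (Finset.mem_inter.1 this).2
  have hPY : ∀ w ∈ Z ∪ D', ∀ x ∈ P w, x ∈ Y → x = yy w := fun w hw x hx hxY => by
    have : x ∈ P w ∩ Y := Finset.mem_inter.2 ⟨hx, hxY⟩
    rw [hyy w hw] at this
    exact Finset.mem_singleton.1 this
  -- roots in D
  obtain ⟨e⟩ : Nonempty (R ≃ D') := ⟨Finset.equivOfCardEq hD'c.symm⟩
  obtain ⟨g, hgR, hgl⟩ : ∃ g : ι → V, (∀ j (h : j ∈ R), g j = (e ⟨j, h⟩ : V)) ∧
      ∀ j, j ∉ R → g j = l j :=
    ⟨fun j => if h : j ∈ R then (e ⟨j, h⟩ : V) else l j, fun j h => by simp [h],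
      fun j h => by simp [h]⟩
  have hgD' : ∀ j ∈ R, g j ∈ D' := fun j h => by rw [hgR j h]; exact (e ⟨j, h⟩).2
  have hfA : ∀ j, f j ∈ Z ∪ D' := fun j => Finset.mem_union_left _ (hfZ j)
  have hgA : ∀ j, g j ∈ Z ∪ D' := fun j => by
    by_cases h : j ∈ R
    · exact Finset.mem_union_right _ (hgD' j h)
    · rw [hgl j h]; exact Finset.mem_union_left _ (hlZ j)
  have hZD'' : ∀ x ∈ Z, ∀ y ∈ D', x ≠ y := fun x hx y hy hxy =>
    Finset.disjoint_left.1 hZD' hx (hxy ▸ hy)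
  have hfg : ∀ i j, i ≠ j → f i ≠ g j := by
    intro i j hij
    by_cases h : j ∈ R
    · exact hZD'' _ (hfZ i) _ (hgD' j h)
    · rw [hgl j h]; exact (hfl i j hij).2.1
  have hgg : ∀ i j, i ≠ j → g i ≠ g j := by
    intro i j hij
    by_cases hi : i ∈ R <;> by_cases hj : j ∈ R
    · rw [hgR i hi, hgR j hj]
      intro h
      have := e.injective (Subtype.ext h)
      exact hij (congrArg Subtype.val this)
    · rw [hgl j hj]; exact (hZD'' _ (hlZ j) _ (hgD' i hi)).symm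
    · rw [hgl i hi]; exact hZD'' _ (hlZ i) _ (hgD' j hj)
    · rw [hgl i hi, hgl j hj]; exact (hfl i j hij).2.2
  obtain ⟨B', hB'D, hB'c, hB'm, hB'd, hB'a⟩ := rooted G D R.card
    (fun A B h1 h2 h3 => le_trans (by omega) (hDH A B h1 h2 h3)) hDm
    (fun i => (e (R.equivFin.symm i) : V))
    (fun i j h => R.equivFin.symm.injective (e.injective (Subtype.ext h)))
    (fun i => hD'D (e (R.equivFin.symm i)).2)
  obtain ⟨B, hB⟩ : ∃ B : ι → Finset V, ∀ j (h : j ∈ R), B j = B' (R.equivFin ⟨j, h⟩) :=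
    ⟨fun j => if h : j ∈ R then B' (R.equivFin ⟨j, h⟩) else ∅, fun j h => by simp [h]⟩
  -- link in Y
  obtain ⟨J, hJ⟩ : ∃ J : Finset ι, J = univ.filter (fun j => j ∈ R ∨ f j ≠ l j) := ⟨_, rfl⟩
  have hJm : ∀ j, j ∈ J ↔ (j ∈ R ∨ f j ≠ l j) := fun j => by rw [hJ]; simp
  have hJn : J.card ≤ n := hn ▸ Finset.card_le_univ J
  have hJfg : ∀ j ∈ J, f j ≠ g j := by
    intro j hj
    by_cases h : j ∈ R
    · exact hZD'' _ (hfZ j) _ (hgD' j h)
    · rw [hgl j h]
      exact ((hJm j).1 hj).resolve_left h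
  have hyyinj : ∀ w ∈ Z ∪ D', ∀ w' ∈ Z ∪ D', w ≠ w' → yy w ≠ yy w' := by
    intro w hw w' hw' hne h
    have h1 := hyyP w hw
    have h2 := hyyP w' hw'
    rw [h] at h1
    exact Finset.disjoint_left.1 (hPd w hw w' hw' hne) h1 h2
  obtain ⟨M', hM'Y, hM'c, hM's, hM't, hM'd⟩ := link_hconn G Y (100 * (n + 1)) J.card hYH
    (by omega) (by omega) (fun i => yy (f (J.equivFin.symm i))) (fun i => yy (g (J.equivFin.symm i)))
    (by
      intro i j h
      by_contra hij
      have hij' : ((J.equivFin.symm i : J) : ι) ≠ (J.equivFin.symm j : J) := fun h' =>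
        hij (J.equivFin.symm.injective (Subtype.ext h'))
      exact hyyinj _ (hfA _) _ (hfA _) (hfl _ _ hij').1 h)
    (by
      intro i j h
      by_contra hij
      have hij' : ((J.equivFin.symm i : J) : ι) ≠ (J.equivFin.symm j : J) := fun h' =>
        hij (J.equivFin.symm.injective (Subtype.ext h'))
      exact hyyinj _ (hgA _) _ (hgA _) (hgg _ _ hij') h)
    (by
      intro i j h
      by_cases hij : ((J.equivFin.symm i : J) : ι) = (J.equivFin.symm j : J)
      · rw [hij] at h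
        exact hyyinj _ (hfA _) _ (hgA _) (hJfg _ (J.equivFin.symm j).2) h
      · exact hyyinj _ (hfA _) _ (hgA _) (hfg _ _ hij) h)
    (fun i => hyyY _ (hfA _)) (fun i => hyyY _ (hgA _))
  obtain ⟨M, hM⟩ : ∃ M : ι → Finset V, ∀ j (h : j ∈ J), M j = M' (J.equivFin ⟨j, h⟩) :=
    ⟨fun j => if h : j ∈ J then M' (J.equivFin ⟨j, h⟩) else ∅, fun j h => by simp [h]⟩
  refine WovenAux.assemble S Z Y D R J f g l P yy M B hZS hYS hDS hZY hZD hDY hfZ hgl hlZ hR
    (fun j h => (hJm j).2 (Or.inl h)) ?_ ?_ (fun j => ⟨hPc _ (hfA j), hPc _ (hgA j)⟩)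
    (fun j => ⟨hPm _ (hfA j), hPm _ (hgA j)⟩) ?_
    (fun j => ⟨hPY _ (hfA j), hPY _ (hgA j)⟩) (fun j => ⟨hyyP _ (hfA j), hyyP _ (hgA j)⟩) ?_
    ?_ ?_ ?_ ?_ ?_ ?_ ?_ ?_ ?_
  · intro j hj
    rw [hJm] at hj
    push Not at hj
    exact hj.2
  · intro j
    have h1 : S \ D ∪ D' ⊆ S := Finset.union_subset Finset.sdiff_subset (hD'D.trans hDS)
    exact ⟨(hPS _ (hfA j)).trans h1, (hPS _ (hgA j)).trans h1⟩
  · have key : ∀ w ∈ Z ∪ D', ∀ x ∈ P w, x ∈ D → x = w := by
      intro w hw x hx hxD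
      have h1 := hPS w hw hx
      rw [Finset.mem_union, Finset.mem_sdiff] at h1
      rcases h1 with h1 | h1
      · exact absurd hxD h1.2
      · exact hPA w hw x hx (Finset.mem_union_right _ h1)
    exact fun j => ⟨key _ (hfA j), key _ (hgA j)⟩
  · intro i j hij
    exact ⟨hPd _ (hfA i) _ (hfA j) (hfl i j hij).1, hPd _ (hfA i) _ (hgA j) (hfg i j hij),
      hPd _ (hgA i) _ (hgA j) (hgg i j hij)⟩
  · intro j hj; rw [hM j hj]; exact hM'Y _
  · intro j hj; rw [hM j hj]; exact hM'c _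
  · intro j hj
    rw [hM j hj]
    have h1 := hM's (J.equivFin ⟨j, hj⟩)
    have h2 := hM't (J.equivFin ⟨j, hj⟩)
    simp only [Equiv.symm_apply_apply] at h1 h2
    exact ⟨h1, h2⟩
  · intro i hi j hj hij
    rw [hM i hi, hM j hj]
    apply hM'd
    intro h
    exact hij (congrArg Subtype.val (J.equivFin.injective h))
  · intro j hj; rw [hB j hj]; exact hB'D _
  · intro j hj; rw [hB j hj]; exact hB'c _
  · intro j hj
    rw [hB j hj, hgR j hj]
    have h1 := hB'm (R.equivFin ⟨j, hj⟩)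
    simp only [Equiv.symm_apply_apply] at h1
    exact h1
  · intro i hi j hj hij
    rw [hB i hi, hB j hj]
    apply hB'd
    intro h
    exact hij (congrArg Subtype.val (R.equivFin.injective h))
  · intro i hi j hj hij
    rw [hB i hi, hB j hj]
    apply hB'a
    intro h
    exact hij (congrArg Subtype.val (R.equivFin.injective h))

end Vale.Agent.P060
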