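import Mathlib
import Vale.Agent.P060.Lin.LinDefs
import Vale.Agent.P060.Menger
import Vale.Agent.P060.Lin.Ext
import Vale.Agent.P060.Lin.WovenDef
import Vale.Agent.P060.Lin.Reroute
import Vale.Agent.P060.Lin.Woven

namespace Vale.Agent.P060

open Finset

variable {V : Type} [Fintype V] [DecidableEq V]

/-- `Woven` from ROW WOVEN. -/
theorem woven_def_of (G : SimpleGraph V) (S : Finset V) (a p κ K' : ℕ) (hS : HConn G S κ)
    (hκ : 1000 * (a + p + 1) ≤ κ) (hc : ¬ Col G S (K' + 10 ^ 6 * (a + p + 1)))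
    (hD : ∀ D ⊆ S, ¬ Col G D K' → HasModel G D (2 * a)) : Woven G S a p := by
  classical
  intro R q s t hq hRi hsi hti hst hRs hRt hR hs ht
  let rts : Finset (Fin a ⊕ Fin q) := univ.image Sum.inl
  have hcard : rts.card = a := by
    rw [Finset.card_image_of_injective _ Sum.inl_injective]
    simp
  have hι : Fintype.card (Fin a ⊕ Fin q) ≤ a + p := by
    simp only [Fintype.card_sum, Fintype.card_fin]
    omega
  have hκ' : 1000 * (Fintype.card (Fin a ⊕ Fin q) + 1) ≤ κ :=
    (Nat.mul_le_mul_left 1000 (Nat.add_le_add_right hι 1)).trans hκ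
  have hc' : ¬ Col G S (K' + 10 ^ 6 * (Fintype.card (Fin a ⊕ Fin q) + 1)) := by
    intro h
    apply hc
    refine Col.mono h (Finset.Subset.refl _) ?_
    apply Nat.add_le_add_left
    apply Nat.mul_le_mul_left
    exact Nat.add_le_add_right hι 1
  have hD' : ∀ D ⊆ S, ¬ Col G D K' → HasModel G D (2 * rts.card) := by
    rw [hcard]
    exact hD
  obtain ⟨T, hTS, hTc, hTf, hTl, hTd, hTa⟩ := woven G S rts (Sum.elim R s) (Sum.elim R t) κ K' hS
    hκ' hc' hD'
    (by rintro (i | j); exacts [hR i, hs j])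
    (by rintro (i | j); exacts [hR i, ht j])
    (by
      rintro (i | j) (i' | j') hne
      · have h1 : i ≠ i' := fun h => hne (by rw [h])
        have h2 : R i ≠ R i' := fun h => h1 (hRi h)
        exact ⟨h2, h2, h2⟩
      · exact ⟨hRs i j', hRt i j', hRt i j'⟩
      · exact ⟨(hRs i' j).symm, (hRs i' j).symm, (hRt i' j).symm⟩
      · have h1 : j ≠ j' := fun h => hne (by rw [h])
        exact ⟨fun h => h1 (hsi h), hst j j' h1, fun h => h1 (hti h)⟩)
    (by
      rintro (i | j) hj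
      · rfl
      · obtain ⟨i, _, hi⟩ := Finset.mem_image.1 hj
        cases hi)
  refine ⟨fun i => T (Sum.inl i), fun j => T (Sum.inr j), fun i => hTS _, fun i => hTc _,
    fun i => hTf (Sum.inl i), fun j => hTS _, fun j => hTc _, fun j => hTf (Sum.inr j),
    fun j => hTl (Sum.inr j), ?_, ?_, ?_, ?_⟩
  · intro i j hij
    exact hTd _ _ (fun h => hij (Sum.inl_injective h))
  · intro i j hij
    exact hTa _ (Finset.mem_image.2 ⟨i, Finset.mem_univ _, rfl⟩) _
      (Finset.mem_image.2 ⟨j, Finset.mem_univ _, rfl⟩) (fun h => hij (Sum.inl_injective h))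
  · intro i j hij
    exact hTd _ _ (fun h => hij (Sum.inr_injective h))
  · intro i j
    exact hTd _ _ (fun h => by cases h)

/-- ROW ATTACH: attach all pieces to the hub. -/
theorem attach (G : SimpleGraph V) {π : Type} [Fintype π] [DecidableEq π] (n κ K' : ℕ)
    (hn : 1 ≤ n) (S S0 : Finset V) (W : π → Finset V) (hS : HConn G S κ)
    (hWS : ∀ a, W a ⊆ S) (h0S : S0 ⊆ S) (hWd : ∀ a b, a ≠ b → Disjoint (W a) (W b))
    (hW0 : ∀ a, Disjoint (W a) S0) (h0c : κ ≤ S0.card) (hW : ∀ a, HConn G (W a) κ)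
    (hκ : 1000 * (Fintype.card π * n + 1) ≤ κ)
    (hWc : ∀ a, ¬ Col G (W a) (K' + 10 ^ 6 * (Fintype.card π * n + 1)))
    (hD : ∀ a, ∀ D ⊆ W a, ¬ Col G D K' → HasModel G D (2 * n)) :
    ∃ B : π × Fin n → Finset V, (∀ j, B j ⊆ S) ∧ (∀ j, Conn G (B j)) ∧
      (∀ i j, i ≠ j → Disjoint (B i) (B j)) ∧ (∀ j, ∃ y, B j ∩ S0 = {y}) ∧
      ∀ a i i', i ≠ i' → ∃ x ∈ B (a, i), ∃ y ∈ B (a, i'), G.Adj x y := by
  classical
  rcases isEmpty_or_nonempty π with hπ | hπ
  · refine ⟨fun _ => ∅, fun j => (hπ.false j.1).elim, fun j => (hπ.false j.1).elim,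
      fun i => (hπ.false i.1).elim, fun j => (hπ.false j.1).elim, fun a => (hπ.false a).elim⟩
  have hπ1 : 1 ≤ Fintype.card π := Fintype.card_pos
  have hnN : n ≤ Fintype.card π * n := Nat.le_mul_of_pos_left n hπ1
  have hcard : ∀ a, n ≤ (W a).card := by
    intro a
    by_contra hlt
    push Not at hlt
    exact hWc a (Col.mono (Col.card (W a)) (Finset.Subset.refl _) (by omega))
  have hx : ∀ a, ∃ x : Fin n → V, Function.Injective x ∧ ∀ i, x i ∈ W a := by
    intro a
    obtain ⟨X, hXW, hXc⟩ := Finset.exists_subset_card_eq (hcard a)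
    let e : Fin n ≃ X := (finCongr hXc.symm).trans X.equivFin.symm
    exact ⟨fun i => (e i : V), fun i j hij => e.injective (Subtype.ext hij),
      fun i => hXW (e i).2⟩
  choose x hxi hxW using hx
  let y : π × Fin n → V := fun e => x e.1 e.2
  have hyinj : Function.Injective y := by
    rintro ⟨a, i⟩ ⟨b, j⟩ hab
    have h1 : x a i = x b j := hab
    have h2 : a = b := by
      by_contra hne
      exact Finset.disjoint_left.1 (hWd a b hne) (hxW a i) (h1 ▸ hxW b j)
    subst h2
    rw [hxi a h1]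
  let X : Finset V := univ.image y
  have hXc : X.card = Fintype.card π * n := by
    rw [Finset.card_image_of_injective _ hyinj]
    simp [Finset.card_univ, Fintype.card_prod]
  have hyX : ∀ e, y e ∈ X := fun e => Finset.mem_image.2 ⟨e, Finset.mem_univ _, rfl⟩
  have hXS : X ⊆ S := by
    intro v hv
    obtain ⟨e, _, rfl⟩ := Finset.mem_image.1 hv
    exact hWS e.1 (hxW e.1 e.2)
  have hfam : MengerAux.Fam G S X S0 X.card := by
    apply menger G S X S0 X.card hXS h0S
    intro C D hCD hXC h0D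
    by_cases h1 : (C \ D).Nonempty
    · by_cases h2 : (D \ C).Nonempty
      · have h3 := hS C D hCD h1 h2
        rw [hXc]
        omega
      · rw [Finset.not_nonempty_iff_eq_empty, Finset.sdiff_eq_empty_iff_subset] at h2
        rw [Finset.inter_eq_right.2 h2]
        have h3 := Finset.card_le_card h0D
        rw [hXc]
        omega
    · rw [Finset.not_nonempty_iff_eq_empty, Finset.sdiff_eq_empty_iff_subset] at h1
      rw [Finset.inter_eq_left.2 h1]
      exact Finset.card_le_card hXC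
  obtain ⟨L, hLS, hLc, hLX, hL0, hLd⟩ := Lin.fam_index hfam
  have hz : ∀ e, ∃ z, L (y e) ∩ S0 = {z} := fun e => Finset.card_eq_one.1 (hL0 _ (hyX e))
  choose z hz using hz
  have hzm : ∀ e, z e ∈ L (y e) ∧ z e ∈ S0 := fun e => by
    have h1 : z e ∈ L (y e) ∩ S0 := by rw [hz e]; simp
    exact Finset.mem_inter.1 h1
  have hyL : ∀ e, y e ∈ L (y e) := fun e => by
    have h1 : y e ∈ L (y e) ∩ X := by rw [hLX _ (hyX e)]; simp
    exact (Finset.mem_inter.1 h1).1
  obtain ⟨E, hES, hEc, hEz, hEd, hEa⟩ := reroute G n S W S0 hWS hWd hW0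
    (fun e => L (y e)) y z (fun e => hLS _ (hyX e))
    (fun e => ⟨hLc _ (hyX e), hyL e, hxW e.1 e.2, (hzm e).1, (hzm e).2, fun v hv hv0 => by
      have h1 : v ∈ L (y e) ∩ S0 := Finset.mem_inter.2 ⟨hv, hv0⟩
      rw [hz e] at h1
      exact Finset.mem_singleton.1 h1⟩)
    (fun e e' hne => hLd _ (hyX e) _ (hyX e') (fun h => hne (hyinj h)))
    (fun k => woven_def_of G (W k) n (Fintype.card π * n - n) κ K' (hW k) (by omega)
      (fun h => hWc k (Col.mono h (Finset.Subset.refl _) (by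
        have h1 : n + (Fintype.card π * n - n) + 1 = Fintype.card π * n + 1 := by omega
        rw [h1]))) (hD k))
  refine ⟨fun j => E j.1 j.2, fun j => hES _ _, fun j => hEc _ _,
    fun i j hij => hEd _ _ _ _ hij, ?_, fun a i i' h => hEa a i i' h⟩
  intro j
  refine ⟨z (j.1, j.2), ?_⟩
  ext v
  rw [Finset.mem_inter, Finset.mem_singleton]
  constructor
  · rintro ⟨h1, h2⟩
    exact (hEz j.1 j.2).2 v h1 h2
  · rintro rfl
    exact ⟨(hEz j.1 j.2).1, (hzm (j.1, j.2)).2⟩

end Vale.Agent.P060
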