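import Mathlib
import Vale.Agent.P060.Defs

/-!
# P060, linear Hadwiger: colourability of a vertex set, as a property of finsets
-/

namespace Vale.Agent.P060

open Finset

set_option linter.unusedSectionVars false

variable {V : Type} [Fintype V] [DecidableEq V]

/-- `G[S]` is `k`-colourable. -/
def ColOn (G : SimpleGraph V) (S : Finset V) (k : ℕ) : Prop :=
  ∃ f : V → ℕ, (∀ a ∈ S, f a < k) ∧ ∀ a ∈ S, ∀ b ∈ S, G.Adj a b → f a ≠ f b

theorem ColOn.mono {G : SimpleGraph V} {S T : Finset V} {k l : ℕ} (h : ColOn G T k) (hS : S ⊆ T)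
    (hk : k ≤ l) : ColOn G S l := by
  obtain ⟨f, h1, h2⟩ := h
  exact ⟨f, fun a ha => lt_of_lt_of_le (h1 a (hS ha)) hk,
    fun a ha b hb hab => h2 a (hS ha) b (hS hb) hab⟩

theorem ColOn.empty (G : SimpleGraph V) (k : ℕ) : ColOn G ∅ k :=
  ⟨fun _ => 0, by simp, by simp⟩

theorem ColOn.union {G : SimpleGraph V} {S T : Finset V} {a b : ℕ} (hS : ColOn G S a)
    (hT : ColOn G T b) : ColOn G (S ∪ T) (a + b) := by
  obtain ⟨f, f1, f2⟩ := hS
  obtain ⟨g, g1, g2⟩ := hT
  have hTT : ∀ x ∈ S ∪ T, x ∉ S → x ∈ T := fun x hx hxS => by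
    rcases mem_union.1 hx with h | h
    · exact absurd h hxS
    · exact h
  refine ⟨fun v => if v ∈ S then f v else a + g v, ?_, ?_⟩
  · intro x hx
    beta_reduce
    by_cases hxS : x ∈ S
    · rw [if_pos hxS]
      have := f1 x hxS
      omega
    · rw [if_neg hxS]
      have := g1 x (hTT x hx hxS)
      omega
  · intro x hx y hy hxy
    beta_reduce
    by_cases hxS : x ∈ S <;> by_cases hyS : y ∈ S
    · rw [if_pos hxS, if_pos hyS]
      exact f2 x hxS y hyS hxy
    · rw [if_pos hxS, if_neg hyS]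
      have := f1 x hxS
      omega
    · rw [if_neg hxS, if_pos hyS]
      have := f1 y hyS
      omega
    · rw [if_neg hxS, if_neg hyS]
      have := g2 x (hTT x hx hxS) y (hTT y hy hyS) hxy
      omega

theorem ColOn.of_indep {G : SimpleGraph V} {S : Finset V} (h : Indep G S) : ColOn G S 1 :=
  ⟨fun _ => 0, fun _ _ => Nat.one_pos, fun a ha b hb hab => absurd hab (h a ha b hb)⟩

theorem ColOn.card (G : SimpleGraph V) (S : Finset V) : ColOn G S S.card := by
  induction S using Finset.induction_on with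
  | empty => exact ColOn.empty G _
  | insert a S ha ih =>
    have h1 : ColOn G {a} 1 := ColOn.of_indep (by
      intro x hx y hy
      rw [mem_singleton.1 hx, mem_singleton.1 hy]
      exact G.loopless.irrefl a)
    have h2 := h1.union ih
    rw [card_insert_of_notMem ha, add_comm S.card 1, insert_eq]
    exact h2

/-- The union of a family of sets. -/
theorem ColOn.biUnion {G : SimpleGraph V} {ι : Type*} [DecidableEq ι] (I : Finset ι)
    (A : ι → Finset V) (k : ℕ) (h : ∀ i ∈ I, ColOn G (A i) k) :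
    ColOn G (I.biUnion A) (I.card * k) := by
  induction I using Finset.induction_on with
  | empty => exact ColOn.empty G _
  | insert i I hi ih =>
    rw [card_insert_of_notMem hi, biUnion_insert, Nat.add_mul, one_mul, add_comm]
    exact (h i (mem_insert_self _ _)).union (ih (fun j hj => h j (mem_insert_of_mem hj)))

theorem colOn_iff {G : SimpleGraph V} {S : Finset V} {k : ℕ} :
    ColOn G S k ↔ (G.induce (S : Set V)).Colorable k := by
  constructor
  · rintro ⟨f, f1, f2⟩
    refine ⟨SimpleGraph.Coloring.mk (fun v => (⟨f v.1, f1 v.1 (mem_coe.1 v.2)⟩ : Fin k)) ?_⟩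
    intro a b hab hEq
    exact f2 a.1 (mem_coe.1 a.2) b.1 (mem_coe.1 b.2) hab (congrArg Fin.val hEq)
  · rintro ⟨c⟩
    refine ⟨fun v => if h : v ∈ S then (c ⟨v, mem_coe.2 h⟩).1 else 0, ?_, ?_⟩
    · intro a ha
      beta_reduce
      rw [dif_pos ha]
      exact (c _).2
    · intro a ha b hb hab
      beta_reduce
      rw [dif_pos ha, dif_pos hb]
      intro he
      have hab' : (G.induce (S : Set V)).Adj ⟨a, mem_coe.2 ha⟩ ⟨b, mem_coe.2 hb⟩ := hab
      exact c.valid hab' (Fin.ext he)

theorem colOn_univ {G : SimpleGraph V} {k : ℕ} : ColOn G univ k ↔ G.Colorable k := by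
  constructor
  · rintro ⟨f, f1, f2⟩
    refine ⟨SimpleGraph.Coloring.mk (fun v => (⟨f v, f1 v (mem_univ v)⟩ : Fin k)) ?_⟩
    intro a b hab hEq
    exact f2 a (mem_univ a) b (mem_univ b) hab (congrArg Fin.val hEq)
  · rintro ⟨c⟩
    refine ⟨fun v => (c v).1, fun a _ => (c a).2, ?_⟩
    intro a _ b _ hab he
    exact c.valid hab (Fin.ext he)

end Vale.Agent.P060
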