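import Mathlib

/-!
P060, linear Hadwiger, row KR: random concentrators and the Kalton and Roberts disjointification.
-/

namespace Vale.Agent.P060.Lin

open Finset

/-- `C(n,s) s^s ≤ (3n)^s` -/
theorem choose_mul_pow_le (n s : ℕ) : ((n.choose s : ℕ) : ℝ) * (s : ℝ) ^ s ≤ (3 * n : ℝ) ^ s := by
  have h1 : ((n.choose s : ℕ) : ℝ) ≤ (n : ℝ) ^ s / (s.factorial : ℝ) := Nat.choose_le_pow_div s n
  have h2 : (s : ℝ) ^ s / (s.factorial : ℝ) ≤ Real.exp s :=
    Real.pow_div_factorial_le_exp (s : ℝ) (Nat.cast_nonneg s) s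
  have h3 : Real.exp s ≤ 3 ^ s := by
    have : Real.exp s = Real.exp 1 ^ s := by rw [← Real.exp_nat_mul]; simp
    rw [this]
    exact pow_le_pow_left₀ (Real.exp_pos 1).le (Real.exp_one_lt_d9.le.trans (by norm_num)) s
  have hf : (0 : ℝ) < s.factorial := by exact_mod_cast Nat.factorial_pos s
  have hs : (0 : ℝ) ≤ (s : ℝ) ^ s := by positivity
  have hn : (0 : ℝ) ≤ (n : ℝ) ^ s := by positivity
  calc ((n.choose s : ℕ) : ℝ) * (s : ℝ) ^ s ≤ (n : ℝ) ^ s / (s.factorial : ℝ) * (s : ℝ) ^ s :=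
        mul_le_mul_of_nonneg_right h1 hs
    _ = (n : ℝ) ^ s * ((s : ℝ) ^ s / (s.factorial : ℝ)) := by ring
    _ ≤ (n : ℝ) ^ s * 3 ^ s := mul_le_mul_of_nonneg_left (h2.trans h3) hn
    _ = (3 * n : ℝ) ^ s := by rw [mul_pow]; ring

/-- the term of the union bound -/
theorem term_le (q M s : ℕ) (hq : 1 ≤ q) (hM : 1 ≤ M) (hs : 36 * q ^ 2 * s ≤ q * M) :
    (((q * M).choose s : ℕ) : ℝ) * ((M.choose s : ℕ) : ℝ) * ((s : ℝ) ^ 3 / (M : ℝ) ^ 3) ^ s ≤
      (1 / 4) ^ s := by
  rcases Nat.eq_zero_or_pos s with h0 | hpos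
  · subst h0; simp
  have hs' : (0 : ℝ) < s := by exact_mod_cast hpos
  have hM' : (0 : ℝ) < M := by exact_mod_cast hM
  have hq' : (0 : ℝ) < q := by exact_mod_cast hq
  have e1 := choose_mul_pow_le (q * M) s
  have e2 := choose_mul_pow_le M s
  have hss : (0 : ℝ) < (s : ℝ) ^ s := by positivity
  have h36 : 36 * (q : ℝ) * s ≤ M := by
    have h : ((36 * q ^ 2 * s : ℕ) : ℝ) ≤ ((q * M : ℕ) : ℝ) := by exact_mod_cast hs
    push_cast at h
    have h' : (q : ℝ) * (36 * q * s) ≤ q * M := by nlinarith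
    exact le_of_mul_le_mul_left h' hq'
  have key : (((q * M).choose s : ℕ) : ℝ) * ((M.choose s : ℕ) : ℝ) * ((s : ℝ) ^ 3 / (M : ℝ) ^ 3) ^ s
      = ((((q * M).choose s : ℕ) : ℝ) * (s : ℝ) ^ s) * (((M.choose s : ℕ) : ℝ) * (s : ℝ) ^ s) *
        ((s : ℝ) / (M : ℝ) ^ 3) ^ s := by
    have : ((s : ℝ) ^ 3 / (M : ℝ) ^ 3) ^ s = (s : ℝ) ^ s * (s : ℝ) ^ s * ((s : ℝ) / (M : ℝ) ^ 3) ^ s := by
      rw [← mul_pow, ← mul_pow]; congr 1; ring
    rw [this]; ring
  rw [key]
  calc ((((q * M).choose s : ℕ) : ℝ) * (s : ℝ) ^ s) * (((M.choose s : ℕ) : ℝ) * (s : ℝ) ^ s) *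
        ((s : ℝ) / (M : ℝ) ^ 3) ^ s
      ≤ (3 * ((q * M : ℕ) : ℝ)) ^ s * (3 * (M : ℝ)) ^ s * ((s : ℝ) / (M : ℝ) ^ 3) ^ s := by
        apply mul_le_mul_of_nonneg_right _ (by positivity)
        exact mul_le_mul e1 e2 (by positivity) (by positivity)
    _ = (9 * (q : ℝ) * (s : ℝ) / (M : ℝ)) ^ s := by
        rw [← mul_pow, ← mul_pow]; congr 1; push_cast; field_simp; ring
    _ ≤ ((1 : ℝ) / 4) ^ s := by
        apply pow_le_pow_left₀ (by positivity)
        rw [div_le_div_iff₀ hM' (by norm_num)]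
        linarith

/-- the number of maps sending `S` into `T` -/
theorem card_into {N M : ℕ} (S : Finset (Fin N)) (T : Finset (Fin M)) :
    ((univ : Finset (Fin N → Fin 3 → Fin M)).filter (fun Γ => ∀ i ∈ S, ∀ k, Γ i k ∈ T)).card =
      (T.card ^ 3) ^ S.card * (M ^ 3) ^ (N - S.card) := by
  classical
  have h : (univ : Finset (Fin N → Fin 3 → Fin M)).filter (fun Γ => ∀ i ∈ S, ∀ k, Γ i k ∈ T) =
      Fintype.piFinset (fun i : Fin N =>
        if i ∈ S then Fintype.piFinset (fun _ : Fin 3 => T) else univ) := by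
    ext Γ
    simp only [mem_filter, mem_univ, true_and, Fintype.mem_piFinset]
    constructor
    · intro h i
      by_cases hi : i ∈ S
      · rw [if_pos hi, Fintype.mem_piFinset]; exact h i hi
      · rw [if_neg hi]; exact mem_univ _
    · intro h i hi
      have := h i
      rw [if_pos hi, Fintype.mem_piFinset] at this
      exact this
  rw [h, Fintype.card_piFinset]
  have h2 : ∀ i : Fin N, (if i ∈ S then Fintype.piFinset (fun _ : Fin 3 => T) else univ).card =
      if i ∈ S then T.card ^ 3 else M ^ 3 := by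
    intro i
    by_cases hi : i ∈ S
    · rw [if_pos hi, if_pos hi, Fintype.card_piFinset]; simp
    · rw [if_neg hi, if_neg hi]; simp
  rw [Finset.prod_congr rfl (fun i _ => h2 i), Finset.prod_ite]
  simp only [Finset.prod_const]
  congr 2
  · congr 1; ext i; simp
  · have : (univ.filter (fun i => i ∉ S)) = univ \ S := by ext i; simp
    rw [this, Finset.card_sdiff_of_subset (subset_univ _)]
    simp

/-- **Concentrators.** -/
theorem conc (q M : ℕ) (hq : 1 ≤ q) (hM : 1 ≤ M) :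
    ∃ Γ : Fin (q * M) → Fin 3 → Fin M, ∀ S : Finset (Fin (q * M)),
      36 * q ^ 2 * S.card ≤ q * M → S.card ≤ (S.biUnion fun i => univ.image (Γ i)).card := by
  classical
  by_contra hcon
  push Not at hcon
  set N := q * M with hN
  have hM' : (0 : ℝ) < M := by exact_mod_cast hM
  have hNM : ∀ s, 36 * q ^ 2 * s ≤ N → s ≤ M := by
    intro s hs
    have h1 : q * s ≤ q * M := by
      calc q * s ≤ 36 * q ^ 2 * s := by
            have : q ≤ 36 * q ^ 2 := by nlinarith
            exact Nat.mul_le_mul_right _ this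
        _ ≤ q * M := hs
    exact Nat.le_of_mul_le_mul_left h1 hq
  -- every `Γ` lies in one of the sets of the union
  let I : Finset ℕ := (Finset.Icc 1 N).filter (fun s => 36 * q ^ 2 * s ≤ N)
  have hcover : (univ : Finset (Fin N → Fin 3 → Fin M)) ⊆
      I.biUnion (fun s => (Finset.powersetCard s (univ : Finset (Fin N))).biUnion (fun S =>
        (Finset.powersetCard s (univ : Finset (Fin M))).biUnion (fun T =>
          (univ : Finset (Fin N → Fin 3 → Fin M)).filter (fun Γ => ∀ i ∈ S, ∀ k, Γ i k ∈ T)))) := by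
    intro Γ _
    obtain ⟨S, hS1, hS2⟩ := hcon Γ
    have hpos : 1 ≤ S.card := by omega
    have hSN : S.card ≤ N := by simpa using Finset.card_le_univ S
    obtain ⟨T, hT1, hT2⟩ := Finset.exists_superset_card_eq (s := S.biUnion fun i => univ.image (Γ i))
      (n := S.card) hS2.le (by simpa using hNM _ hS1)
    simp only [mem_biUnion, Finset.mem_powersetCard, mem_filter, mem_univ, true_and, subset_univ, I,
      Finset.mem_Icc]
    refine ⟨S.card, ⟨⟨hpos, hSN⟩, hS1⟩, S, rfl, T, hT2, ?_⟩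
    intro i hi k
    apply hT1
    rw [mem_biUnion]
    exact ⟨i, hi, mem_image_of_mem _ (mem_univ _)⟩
  have hcard := Finset.card_le_card hcover
  have hsum : ((univ : Finset (Fin N → Fin 3 → Fin M)).card : ℝ) ≤
      ∑ s ∈ I, (((N).choose s : ℕ) : ℝ) * ((M.choose s : ℕ) : ℝ) *
        (((s : ℝ) ^ 3) ^ s * ((M : ℝ) ^ 3) ^ (N - s)) := by
    have h1 : (univ : Finset (Fin N → Fin 3 → Fin M)).card ≤
        ∑ s ∈ I, ∑ S ∈ Finset.powersetCard s (univ : Finset (Fin N)),
          ∑ T ∈ Finset.powersetCard s (univ : Finset (Fin M)), (s ^ 3) ^ s * (M ^ 3) ^ (N - s) := by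
      refine hcard.trans (Finset.card_biUnion_le.trans (Finset.sum_le_sum fun s _ => ?_))
      refine Finset.card_biUnion_le.trans (Finset.sum_le_sum fun S hS => ?_)
      refine Finset.card_biUnion_le.trans (Finset.sum_le_sum fun T hT => ?_)
      rw [card_into, (Finset.mem_powersetCard.mp hS).2, (Finset.mem_powersetCard.mp hT).2]
    have h2 : ((univ : Finset (Fin N → Fin 3 → Fin M)).card : ℝ) ≤
        ((∑ s ∈ I, ∑ S ∈ Finset.powersetCard s (univ : Finset (Fin N)),
          ∑ T ∈ Finset.powersetCard s (univ : Finset (Fin M)), (s ^ 3) ^ s * (M ^ 3) ^ (N - s) : ℕ) : ℝ) := by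
      exact_mod_cast h1
    refine h2.trans (le_of_eq ?_)
    simp only [Finset.sum_const, Finset.card_powersetCard, Finset.card_univ, Fintype.card_fin,
      smul_eq_mul]
    push_cast
    refine Finset.sum_congr rfl fun s _ => by ring
  have htot : ((univ : Finset (Fin N → Fin 3 → Fin M)).card : ℝ) = ((M : ℝ) ^ 3) ^ N := by
    simp [Finset.card_univ]
  rw [htot] at hsum
  have hbound : ∀ s ∈ I, (((N).choose s : ℕ) : ℝ) * ((M.choose s : ℕ) : ℝ) *
        (((s : ℝ) ^ 3) ^ s * ((M : ℝ) ^ 3) ^ (N - s)) ≤ ((M : ℝ) ^ 3) ^ N * (1 / 4) ^ s := by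
    intro s hs
    simp only [I, mem_filter, Finset.mem_Icc] at hs
    have ht := term_le q M s hq hM hs.2
    have hpow : ((M : ℝ) ^ 3) ^ N = ((M : ℝ) ^ 3) ^ s * ((M : ℝ) ^ 3) ^ (N - s) := by
      rw [← pow_add]; congr 1; omega
    have hms : (0 : ℝ) < ((M : ℝ) ^ 3) ^ s := by positivity
    have e : (((N).choose s : ℕ) : ℝ) * ((M.choose s : ℕ) : ℝ) *
        (((s : ℝ) ^ 3) ^ s * ((M : ℝ) ^ 3) ^ (N - s)) =
        ((((N).choose s : ℕ) : ℝ) * ((M.choose s : ℕ) : ℝ) * ((s : ℝ) ^ 3 / (M : ℝ) ^ 3) ^ s) *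
          (((M : ℝ) ^ 3) ^ s * ((M : ℝ) ^ 3) ^ (N - s)) := by
      rw [div_pow]; field_simp
    rw [e, ← hpow, mul_comm (((M : ℝ) ^ 3) ^ N)]
    exact mul_le_mul_of_nonneg_right ht (by positivity)
  have h3 : ((M : ℝ) ^ 3) ^ N ≤ ((M : ℝ) ^ 3) ^ N * ∑ s ∈ I, (1 / 4 : ℝ) ^ s := by
    rw [Finset.mul_sum]
    exact hsum.trans (Finset.sum_le_sum hbound)
  have hgeo : ∑ s ∈ I, (1 / 4 : ℝ) ^ s < 1 := by
    have h4 : ∑ s ∈ I, (1 / 4 : ℝ) ^ s ≤ ∑ s ∈ Finset.Icc 1 N, (1 / 4 : ℝ) ^ s :=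
      Finset.sum_le_sum_of_subset_of_nonneg (Finset.filter_subset _ _) (fun _ _ _ => by positivity)
    have h5 : ∀ n : ℕ, ∑ s ∈ Finset.Icc 1 n, (1 / 4 : ℝ) ^ s ≤ 1 / 3 - (1 / 3) * (1 / 4) ^ n := by
      intro n
      induction n with
      | zero => simp
      | succ n ih =>
        rw [Finset.sum_Icc_succ_top (by omega)]
        have : (1 / 4 : ℝ) ^ (n + 1) = (1 / 4) ^ n * (1 / 4) := pow_succ _ _
        rw [this]
        linarith
    have h6 : (0 : ℝ) < (1 / 4) ^ N := by positivity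
    linarith [h5 N]
  have hp : (0 : ℝ) < ((M : ℝ) ^ 3) ^ N := by positivity
  nlinarith

/-- **Kalton and Roberts disjointification.** If every point lies in at most `N / (36 q²)` of the
`N = q M` sets `A i`, and whenever `A i` is a union of three sets one of them is `P`,
then there are `q` disjoint `P` sets. -/
theorem kr_sets {V : Type*} [Fintype V] [DecidableEq V] (q M : ℕ) (hq : 1 ≤ q) (hM : 1 ≤ M)
    (A : Fin (q * M) → Finset V)
    (hA : ∀ v, 36 * q ^ 2 * (univ.filter (fun i => v ∈ A i)).card ≤ q * M)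
    (P : Finset V → Prop)
    (hP : ∀ i (B : Fin 3 → Finset V), (∀ k, B k ⊆ A i) → A i = univ.biUnion B → ∃ k, P (B k)) :
    ∃ W : Fin q → Finset V, (∀ a, P (W a)) ∧ ∀ a b, a ≠ b → Disjoint (W a) (W b) := by
  classical
  obtain ⟨Γ, hΓ⟩ := conc q M hq hM
  have hall : ∀ v, ∃ φ : {i // v ∈ A i} → Fin M, Function.Injective φ ∧
      ∀ x, φ x ∈ univ.image (Γ x.1) := by
    intro v
    rw [← Finset.all_card_le_biUnion_card_iff_exists_injective
      (fun x : {i // v ∈ A i} => univ.image (Γ x.1))]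
    intro s
    have h1 : (s.map (Function.Embedding.subtype _)).card ≤
        (univ.filter (fun i => v ∈ A i)).card := by
      apply Finset.card_le_card
      intro i hi
      simp only [mem_map, Function.Embedding.coe_subtype, Subtype.exists, exists_and_right,
        exists_eq_right] at hi
      obtain ⟨h, -⟩ := hi
      simp [h]
    have h2 := hΓ (s.map (Function.Embedding.subtype _))
      ((Nat.mul_le_mul_left _ h1).trans (hA v))
    rw [Finset.card_map] at h2
    refine h2.trans (Finset.card_le_card ?_)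
    intro j hj
    rw [mem_biUnion] at hj ⊢
    obtain ⟨i, hi, hj⟩ := hj
    rw [mem_map] at hi
    obtain ⟨x, hx, rfl⟩ := hi
    exact ⟨x, hx, hj⟩
  choose φ hφ1 hφ2 using hall
  -- the pieces
  let B : Fin (q * M) → Fin 3 → Finset V := fun i k =>
    univ.filter (fun v => ∃ h : v ∈ A i, φ v ⟨i, h⟩ = Γ i k)
  have hB : ∀ i, ∃ k, P (B i k) := by
    intro i
    refine hP i (B i) ?_ ?_
    · intro k v hv
      simp only [B, mem_filter, mem_univ, true_and] at hv
      exact hv.1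
    · ext v
      simp only [B, mem_biUnion, mem_univ, true_and, mem_filter]
      constructor
      · intro h
        have := hφ2 v ⟨i, h⟩
        rw [mem_image] at this
        obtain ⟨k, -, hk⟩ := this
        exact ⟨k, h, hk.symm⟩
      · rintro ⟨k, h, -⟩; exact h
  choose κ hκ using hB
  obtain ⟨j, -, hj⟩ := Finset.exists_le_card_fiber_of_mul_le_card_of_maps_to
    (s := (univ : Finset (Fin (q * M)))) (t := (univ : Finset (Fin M)))
    (f := fun i => Γ i (κ i)) (n := q) (fun _ _ => mem_univ _)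
    (by simpa using (Finset.univ_nonempty_iff.mpr ⟨⟨0, hM⟩⟩))
    (by simp [mul_comm])
  obtain ⟨R, hR1, hR2⟩ := Finset.exists_subset_card_eq hj
  let e := R.equivFin
  rw [hR2] at e
  refine ⟨fun a => B (e.symm a).1 (κ (e.symm a).1), fun a => hκ _, ?_⟩
  intro a b hab
  rw [Finset.disjoint_left]
  intro v hv1 hv2
  simp only [B, mem_filter, mem_univ, true_and] at hv1 hv2
  obtain ⟨h1, e1⟩ := hv1
  obtain ⟨h2, e2⟩ := hv2
  have m1 := hR1 (e.symm a).2
  have m2 := hR1 (e.symm b).2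
  simp only [mem_filter, mem_univ, true_and] at m1 m2
  rw [m1] at e1
  rw [m2] at e2
  have h3 := hφ1 v (e1.trans e2.symm)
  have h4 : (e.symm a).1 = (e.symm b).1 := by simpa using h3
  apply hab
  have h5 : e.symm a = e.symm b := Subtype.ext h4
  simpa using h5

end Vale.Agent.P060.Lin
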