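import Mathlib
import Vale.Agent.P060.Lin.LinDefs
import Vale.Agent.P060.Lin.LinkH
import Vale.Agent.P060.Combine

/-!
P060, linear bound, row FINISH: chain the attached pieces through the hub.
-/

namespace Vale.Agent.P060

open Finset

variable {V : Type} [Fintype V] [DecidableEq V]

namespace Finish

omit [Fintype V] in
theorem conn_union_mem {G : SimpleGraph V} {S T : Finset V} (hS : Conn G S) (hT : Conn G T)
    {x : V} (hxS : x ∈ S) (hxT : x ∈ T) : Conn G (S ∪ T) := by
  have h := Combine.conn_biUnion (G := G) ({true, false} : Finset Bool)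
    (fun b => if b then S else T) x ⟨true, by simp⟩ (by simp [hxS, hxT]) (by simp [hS, hT])
  have e : ({true, false} : Finset Bool).biUnion (fun b => if b then S else T) = S ∪ T := by
    ext v
    simp
  rwa [e] at h

omit [Fintype V] in
/-- A chain of connected sets, consecutive ones meeting, has a connected union. -/
theorem conn_chain {G : SimpleGraph V} (n : ℕ) (F : Fin (n + 1) → Finset V)
    (hF : ∀ k, Conn G (F k))
    (h : ∀ k (hk : k < n), ∃ x, x ∈ F ⟨k, by omega⟩ ∧ x ∈ F ⟨k + 1, by omega⟩) :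
    Conn G (univ.biUnion F) := by
  have key : ∀ j, j ≤ n → Conn G ((univ.filter (fun k : Fin (n + 1) => k.val ≤ j)).biUnion F) := by
    intro j
    induction j with
    | zero =>
      intro _
      have e : (univ.filter (fun k : Fin (n + 1) => k.val ≤ 0)) = {0} := by
        ext k
        rw [mem_filter, mem_singleton, Fin.ext_iff, Fin.val_zero]
        constructor
        · rintro ⟨-, h⟩
          omega
        · intro h
          exact ⟨mem_univ _, by omega⟩
      rw [e, singleton_biUnion]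
      exact hF 0
    | succ j ih =>
      intro hj
      have e : (univ.filter (fun k : Fin (n + 1) => k.val ≤ j + 1)) =
          insert ⟨j + 1, by omega⟩ (univ.filter (fun k : Fin (n + 1) => k.val ≤ j)) := by
        ext k
        simp only [mem_filter, mem_univ, true_and, mem_insert, Fin.ext_iff]
        omega
      rw [e, biUnion_insert]
      obtain ⟨x, hx1, hx2⟩ := h j (by omega)
      exact conn_union_mem (hF _) (ih (by omega)) hx2
        (mem_biUnion.2 ⟨⟨j, by omega⟩, by simp, hx1⟩)
  have e : (univ.filter (fun k : Fin (n + 1) => k.val ≤ n)) = univ := by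
    ext k
    simp only [mem_filter, mem_univ, true_and, iff_true]
    omega
  have := key n le_rfl
  rwa [e] at this

end Finish

open Finish in
/-- ROW FINISH, with the linkage of the hub as a hypothesis. -/
theorem finish_of (G : SimpleGraph V) (r m : ℕ) (hr : 1 ≤ r) (S S0 : Finset V) (h0S : S0 ⊆ S)
    (hlink : ∀ (s t : Fin (2 * (r * r * m)) → V), Function.Injective s → Function.Injective t →
      (∀ i j, s i ≠ t j) → (∀ i, s i ∈ S0) → (∀ i, t i ∈ S0) →
      ∃ L : Fin (2 * (r * r * m)) → Finset V, (∀ i, L i ⊆ S0) ∧ (∀ i, Conn G (L i)) ∧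
        (∀ i, s i ∈ L i) ∧ (∀ i, t i ∈ L i) ∧ ∀ i j, i ≠ j → Disjoint (L i) (L j))
    (B : (Fin r × Fin r) × Fin (4 * m) → Finset V) (hBS : ∀ j, B j ⊆ S) (hB : ∀ j, Conn G (B j))
    (hd : ∀ i j, i ≠ j → Disjoint (B i) (B j)) (h0B : ∀ j, ∃ y, B j ∩ S0 = {y})
    (hadj : ∀ a i i', i ≠ i' → ∃ x ∈ B (a, i), ∃ y ∈ B (a, i'), G.Adj x y) :
    HasModel G S (r * m) := by
  classical
  choose y hy using h0B
  have hyB : ∀ j, y j ∈ B j := fun j => (mem_inter.1 (by rw [hy j]; simp : y j ∈ B j ∩ S0)).1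
  have hyS : ∀ j, y j ∈ S0 := fun j => (mem_inter.1 (by rw [hy j]; simp : y j ∈ B j ∩ S0)).2
  have hyu : ∀ j v, v ∈ B j → v ∈ S0 → v = y j := by
    intro j v h1 h2
    have : v ∈ B j ∩ S0 := mem_inter.2 ⟨h1, h2⟩
    rw [hy j] at this
    exact mem_singleton.1 this
  have yinj : Function.Injective y := by
    intro i j hij
    by_contra hne
    exact (disjoint_left.1 (hd i j hne)) (hyB i) (hij ▸ hyB j)
  -- equivalences
  obtain ⟨n, hn⟩ : ∃ n, 2 * r = n + 1 := ⟨2 * r - 1, by omega⟩
  let e : Bool × Fin m × Bool ≃ Fin (4 * m) := Fintype.equivFinOfCardEq (by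
    simp only [Fintype.card_prod, Fintype.card_bool, Fintype.card_fin]; ring)
  let en : Bool × Fin r ≃ Fin (n + 1) := Fintype.equivFinOfCardEq (by
    simp only [Fintype.card_prod, Fintype.card_bool, Fintype.card_fin]; omega)
  let g : (Fin r × Fin m) × Fin (n + 1) ≃ Fin (2 * (r * r * m)) := Fintype.equivFinOfCardEq (by
    simp only [Fintype.card_prod, Fintype.card_fin, ← hn]; ring)
  -- slots
  let slot : Fin r × Fin m → Bool × Fin r → Bool → (Fin r × Fin r) × Fin (4 * m) :=
    fun l o d => (if o.1 then (o.2, l.1) else (l.1, o.2), e (o.1, l.2, d))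
  have slot_inj : ∀ l o d l' o' d', slot l o d = slot l' o' d' → l = l' ∧ o = o' ∧ d = d' := by
    rintro ⟨c, i⟩ ⟨ρ, x⟩ d ⟨c', i'⟩ ⟨ρ', x'⟩ d' h
    simp only [slot, Prod.mk.injEq, EmbeddingLike.apply_eq_iff_eq] at h
    obtain ⟨h1, h2, h3, h4⟩ := h
    subst h2 h3 h4
    cases ρ
    · simp only [Bool.false_eq_true, if_false, Prod.mk.injEq] at h1
      obtain ⟨rfl, rfl⟩ := h1
      exact ⟨rfl, rfl, rfl⟩
    · simp only [if_true, Prod.mk.injEq] at h1
      obtain ⟨rfl, rfl⟩ := h1
      exact ⟨rfl, rfl, rfl⟩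
  let σ : Equiv.Perm (Fin (n + 1)) := finRotate (n + 1)
  -- ends of the links
  let s : (Fin r × Fin m) × Fin (n + 1) → V := fun x => y (slot x.1 (en.symm x.2) true)
  let t : (Fin r × Fin m) × Fin (n + 1) → V := fun x => y (slot x.1 (en.symm (σ x.2)) false)
  have s_inj : Function.Injective s := by
    intro x x' h
    obtain ⟨h1, h2, -⟩ := slot_inj _ _ _ _ _ _ (yinj h)
    exact Prod.ext h1 (en.symm.injective h2)
  have t_inj : Function.Injective t := by
    intro x x' h
    obtain ⟨h1, h2, -⟩ := slot_inj _ _ _ _ _ _ (yinj h)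
    exact Prod.ext h1 (σ.injective (en.symm.injective h2))
  have st_ne : ∀ x x', s x ≠ t x' := by
    intro x x' h
    obtain ⟨-, -, h3⟩ := slot_inj _ _ _ _ _ _ (yinj h)
    exact absurd h3 (by simp)
  obtain ⟨L0, hL1, hL2, hL3, hL4, hL5⟩ := hlink (s ∘ g.symm) (t ∘ g.symm)
    (s_inj.comp g.symm.injective) (t_inj.comp g.symm.injective) (fun i j => st_ne _ _)
    (fun i => hyS _) (fun i => hyS _)
  let L : (Fin r × Fin m) × Fin (n + 1) → Finset V := fun x => L0 (g x)
  have L_S : ∀ x, L x ⊆ S0 := fun x => hL1 _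
  have L_c : ∀ x, Conn G (L x) := fun x => hL2 _
  have L_s : ∀ x, s x ∈ L x := fun x => by
    have := hL3 (g x)
    simpa [L] using this
  have L_t : ∀ x, t x ∈ L x := fun x => by
    have := hL4 (g x)
    simpa [L] using this
  have L_d : ∀ x x', x ≠ x' → Disjoint (L x) (L x') := fun x x' h =>
    hL5 _ _ (fun h' => h (g.injective h'))
  have L_eq : ∀ x x' v, v ∈ L x → v ∈ L x' → x = x' := by
    intro x x' v h1 h2
    by_contra hne
    exact disjoint_left.1 (L_d x x' hne) h1 h2
  -- a link meets only the attached sets of its own label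
  have LB : ∀ l k l' o d v, v ∈ L (l, k) → v ∈ B (slot l' o d) → l = l' := by
    intro l k l' o d v h1 h2
    have h3 : v = y (slot l' o d) := hyu _ _ h2 (L_S _ h1)
    cases d
    · have h4 : v = t (l', σ.symm (en o)) := by
        rw [h3]
        simp only [t, Equiv.apply_symm_apply, Equiv.symm_apply_apply]
      have h5 := L_t (l', σ.symm (en o))
      rw [← h4] at h5
      exact congrArg Prod.fst (L_eq _ _ _ h1 h5)
    · have h4 : v = s (l', en o) := by
        rw [h3]
        simp only [s, Equiv.symm_apply_apply]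
      have h5 := L_s (l', en o)
      rw [← h4] at h5
      exact congrArg Prod.fst (L_eq _ _ _ h1 h5)
  -- branch sets
  let F : Fin r × Fin m → Fin (n + 1) → Finset V := fun l k =>
    (B (slot l (en.symm k) false) ∪ B (slot l (en.symm k) true)) ∪ L (l, k)
  let D : Fin r × Fin m → Finset V := fun l => univ.biUnion (F l)
  have F_conn : ∀ l k, Conn G (F l k) := by
    intro l k
    have hne : e ((en.symm k).1, l.2, false) ≠ e ((en.symm k).1, l.2, true) := by
      intro h
      have := e.injective h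
      simp at this
    obtain ⟨x, hx, z, hz, hxz⟩ := hadj
      (if (en.symm k).1 then ((en.symm k).2, l.1) else (l.1, (en.symm k).2)) _ _ hne
    refine conn_union_mem (Combine.conn_union (hB _) (hB _) hx hz hxz) (L_c _)
      (x := s (l, k)) ?_ (L_s _)
    exact mem_union_right _ (hyB _)
  have D_conn : ∀ l, Conn G (D l) := by
    intro l
    refine conn_chain n (F l) (F_conn l) ?_
    intro k hk
    refine ⟨t (l, ⟨k, by omega⟩), mem_union_right _ (L_t _), ?_⟩
    refine mem_union_left _ (mem_union_left _ ?_)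
    have hσ : σ ⟨k, by omega⟩ = ⟨k + 1, by omega⟩ := finRotate_of_lt hk
    have : t (l, ⟨k, by omega⟩) = y (slot l (en.symm ⟨k + 1, by omega⟩) false) := by
      simp only [t, hσ]
    rw [this]
    exact hyB _
  have B_D : ∀ l o d, B (slot l o d) ⊆ D l := by
    intro l o d v hv
    refine mem_biUnion.2 ⟨en o, mem_univ _, mem_union_left _ ?_⟩
    cases d
    · refine mem_union_left _ ?_
      simpa using hv
    · refine mem_union_right _ ?_
      simpa using hv
  have D_mem : ∀ l v, v ∈ D l → (∃ o d, v ∈ B (slot l o d)) ∨ ∃ k, v ∈ L (l, k) := by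
    intro l v hv
    obtain ⟨k, -, hk⟩ := mem_biUnion.1 hv
    rcases mem_union.1 hk with hk | hk
    · rcases mem_union.1 hk with hk | hk
      · exact Or.inl ⟨_, _, hk⟩
      · exact Or.inl ⟨_, _, hk⟩
    · exact Or.inr ⟨_, hk⟩
  have D_disj : ∀ l l', l ≠ l' → Disjoint (D l) (D l') := by
    intro l l' hll
    rw [disjoint_left]
    intro v h1 h2
    rcases D_mem l v h1 with ⟨o, d, h1⟩ | ⟨k, h1⟩ <;>
      rcases D_mem l' v h2 with ⟨o', d', h2⟩ | ⟨k', h2⟩
    · by_cases hs : slot l o d = slot l' o' d'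
      · exact hll (slot_inj _ _ _ _ _ _ hs).1
      · exact disjoint_left.1 (hd _ _ hs) h1 h2
    · exact hll (LB _ _ _ _ _ _ h2 h1).symm
    · exact hll (LB _ _ _ _ _ _ h1 h2)
    · exact hll (congrArg Prod.fst (L_eq _ _ _ h1 h2))
  have D_adj : ∀ l l', l ≠ l' → ∃ x ∈ D l, ∃ z ∈ D l', G.Adj x z := by
    intro l l' _
    have hne : e (false, l.2, false) ≠ e (true, l'.2, false) := by
      intro h
      have := e.injective h
      simp at this
    obtain ⟨x, hx, z, hz, hxz⟩ := hadj (l.1, l'.1) _ _ hne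
    refine ⟨x, B_D l (false, l'.1) false ?_, z, B_D l' (true, l.1) false ?_, hxz⟩
    · simpa [slot] using hx
    · simpa [slot] using hz
  have D_S : ∀ l, D l ⊆ S := by
    intro l v hv
    rcases D_mem l v hv with ⟨o, d, h1⟩ | ⟨k, h1⟩
    · exact hBS _ h1
    · exact h0S (L_S _ h1)
  refine ⟨fun i => D (finProdFinEquiv.symm i), fun i => D_S _, fun i => D_conn _, ?_, ?_⟩
  · intro i j hij
    exact D_disj _ _ (fun h => hij (finProdFinEquiv.symm.injective h))
  · intro i j hij
    exact D_adj _ _ (fun h => hij (finProdFinEquiv.symm.injective h))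

/-- ROW FINISH: link the attached pieces through the hub into a big model, inside `S`. -/
theorem finish (G : SimpleGraph V) (r m κ : ℕ) (hr : 2 ≤ r) (hm : 1 ≤ m) (S S0 : Finset V)
    (h0S : S0 ⊆ S) (h0 : HConn G S0 κ) (h0c : κ < S0.card) (hκ : 100 * (m * r ^ 2 + 1) ≤ κ)
    (B : (Fin r × Fin r) × Fin (4 * m) → Finset V) (hBS : ∀ j, B j ⊆ S) (hB : ∀ j, Conn G (B j))
    (hd : ∀ i j, i ≠ j → Disjoint (B i) (B j)) (h0B : ∀ j, ∃ y, B j ∩ S0 = {y})
    (hadj : ∀ a i i', i ≠ i' → ∃ x ∈ B (a, i), ∃ y ∈ B (a, i'), G.Adj x y) :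
    HasModel G S (r * m) := by
  refine finish_of G r m (by omega) S S0 h0S ?_ B hBS hB hd h0B hadj
  intro s t hs ht hst hsS htS
  refine link_hconn' G S0 κ _ h0 ?_ h0c s t hs ht hst hsS htS
  have h1 : m * r ^ 2 = r * r * m := by ring
  have h2 : 1 ≤ r * r * m := Nat.mul_pos (Nat.mul_pos (by omega) (by omega)) hm
  rw [h1] at hκ
  omega

end Vale.Agent.P060
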