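import Mathlib
import Vale.Agent.P060.Defs
import Vale.Agent.P060.Menger

/-!
P060: the jump lemma (a path is rerouted so that it visits every piece at most once).
-/

namespace Vale.Agent.P060

open Finset

set_option linter.unusedSectionVars false

variable {V : Type} [Fintype V] [DecidableEq V]

namespace Asm

theorem exists_last_split {p : V → Prop} : ∀ (Q : List V), (∃ x ∈ Q, p x) →
    ∃ (A : List V) (w : V) (B : List V), Q = A ++ w :: B ∧ p w ∧ ∀ b ∈ B, ¬ p b := by
  intro Q
  induction Q with
  | nil => rintro ⟨x, hx, _⟩; simp at hx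
  | cons q Q ih =>
    rintro ⟨x, hx, hpx⟩
    by_cases h : ∃ x ∈ Q, p x
    · obtain ⟨A, w, B, h1, h2, h3⟩ := ih h
      exact ⟨q :: A, w, B, by rw [h1]; rfl, h2, h3⟩
    · have hxq : x = q := by
        rcases List.mem_cons.1 hx with h1 | h1
        · exact h1
        · exact absurd ⟨x, h1, hpx⟩ h
      subst hxq
      refine ⟨[], x, Q, rfl, hpx, ?_⟩
      intro b hb hpb
      exact h ⟨b, hb, hpb⟩

variable {κ : Type} [DecidableEq κ]

/-- The jump lemma. -/
theorem jump (G : SimpleGraph V) (c : V → Option κ) (z : V) : ∀ (n : ℕ) (q : V) (Q : List V),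
    Q.length ≤ n → List.IsChain G.Adj (q :: Q) → (q :: Q).getLast? = some z →
    ∃ (J : Finset κ) (s t : κ → V) (O : Finset V),
      (∀ j ∈ J, s j ∈ q :: Q ∧ t j ∈ q :: Q ∧ c (s j) = some j ∧ c (t j) = some j) ∧
      (∀ o ∈ O, o ∈ q :: Q ∧ c o = none) ∧
      (∀ L : κ → Finset V, (∀ j ∈ J, Conn G (L j) ∧ s j ∈ L j ∧ t j ∈ L j) →
        Conn G (O ∪ J.biUnion L) ∧ q ∈ O ∪ J.biUnion L) ∧
      (c z = none → z ∈ O) := by
  intro n
  induction n with
  | zero =>
    intro q Q hQ hch hz
    have hQ0 : Q = [] := List.length_eq_zero_iff.1 (Nat.le_zero.1 hQ)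
    subst hQ0
    have hzq : q = z := by simpa using hz
    subst hzq
    rcases hc : c q with _ | j
    · refine ⟨∅, fun _ => q, fun _ => q, {q}, by simp, by simp [hc], ?_, by simp⟩
      intro L _
      simp only [Finset.biUnion_empty, Finset.union_empty]
      exact ⟨MengerAux.conn_singleton G q, by simp⟩
    · refine ⟨{j}, fun _ => q, fun _ => q, ∅, by simp [hc], by simp, ?_, by simp⟩
      intro L hL
      have h1 := hL j (by simp)
      simp only [Finset.singleton_biUnion, Finset.empty_union]
      exact ⟨h1.1, h1.2.1⟩
  | succ n ih =>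
    intro q Q hQ hch hz
    rcases hc : c q with _ | j
    · -- the first vertex is outside the pieces
      cases Q with
      | nil =>
        have hzq : q = z := by simpa using hz
        subst hzq
        refine ⟨∅, fun _ => q, fun _ => q, {q}, by simp, by simp [hc], ?_, by simp⟩
        intro L _
        simp only [Finset.biUnion_empty, Finset.union_empty]
        exact ⟨MengerAux.conn_singleton G q, by simp⟩
      | cons q' Q' =>
        have hadj : G.Adj q q' := by
          rw [List.isChain_cons_cons] at hch
          exact hch.1
        have hch' : List.IsChain G.Adj (q' :: Q') := by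
          rw [List.isChain_cons_cons] at hch
          exact hch.2
        obtain ⟨J, s, t, O, h1, h2, h3, h4⟩ := ih q' Q' (by
          simp only [List.length_cons] at hQ; omega) hch' (by
          rw [List.getLast?_cons_cons] at hz; exact hz)
        refine ⟨J, s, t, insert q O, ?_, ?_, ?_, fun h => Finset.mem_insert_of_mem (h4 h)⟩
        · intro j hj
          obtain ⟨a1, a2, a3, a4⟩ := h1 j hj
          exact ⟨List.mem_cons_of_mem _ a1, List.mem_cons_of_mem _ a2, a3, a4⟩
        · intro o ho
          rcases Finset.mem_insert.1 ho with rfl | ho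
          · exact ⟨List.mem_cons_self, hc⟩
          · exact ⟨List.mem_cons_of_mem _ (h2 o ho).1, (h2 o ho).2⟩
        · intro L hL
          obtain ⟨b1, b2⟩ := h3 L hL
          have h5 : insert q O ∪ J.biUnion L = {q} ∪ (O ∪ J.biUnion L) := by
            rw [Finset.insert_eq, Finset.union_assoc]
          rw [h5]
          exact ⟨MengerAux.conn_union_adj (MengerAux.conn_singleton G q) b1
            (Finset.mem_singleton_self q) b2 hadj, by simp⟩
    · -- the first vertex is in the piece `j`
      obtain ⟨A, w, B, hsplit, hw, hB⟩ := exists_last_split (p := fun v => c v = some j) (q :: Q)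
        ⟨q, List.mem_cons_self, hc⟩
      have hwmem : w ∈ q :: Q := by rw [hsplit]; simp
      cases B with
      | nil =>
        have hzw : z = w := by
          rw [hsplit] at hz
          simp at hz
          exact hz.symm
        refine ⟨{j}, fun _ => q, fun _ => w, ∅, ?_, by simp, ?_, ?_⟩
        · intro i hi
          rw [Finset.mem_singleton] at hi
          subst hi
          exact ⟨List.mem_cons_self, hwmem, hc, hw⟩
        · intro L hL
          have h1 := hL j (by simp)
          simp only [Finset.singleton_biUnion, Finset.empty_union]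
          exact ⟨h1.1, h1.2.1⟩
        · intro h
          rw [hzw, hw] at h
          cases h
      | cons b B =>
        have hch2 : List.IsChain G.Adj (w :: b :: B) := by
          rw [hsplit] at hch
          exact (List.isChain_append.1 hch).2.1
        rw [List.isChain_cons_cons] at hch2
        have hlen : B.length ≤ n := by
          have := congrArg List.length hsplit
          simp only [List.length_cons, List.length_append] at this
          omega
        obtain ⟨J, s, t, O, h1, h2, h3, h4⟩ := ih b B hlen hch2.2 (by
          rw [hsplit] at hz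
          simpa using hz)
        have hsub : ∀ v, v ∈ b :: B → v ∈ q :: Q := by
          intro v hv
          rw [hsplit]
          exact List.mem_append_right _ (List.mem_cons_of_mem _ hv)
        have hjJ : j ∉ J := by
          intro hj
          exact hB _ (h1 j hj).1 (h1 j hj).2.2.1
        refine ⟨insert j J, Function.update s j q, Function.update t j w, O, ?_, ?_, ?_, h4⟩
        · intro i hi
          by_cases hij : i = j
          · subst hij
            simp only [Function.update_self]
            exact ⟨List.mem_cons_self, hwmem, hc, hw⟩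
          · simp only [Function.update_of_ne hij]
            have hiJ : i ∈ J := by
              rcases Finset.mem_insert.1 hi with h | h
              · exact absurd h hij
              · exact h
            obtain ⟨a1, a2, a3, a4⟩ := h1 i hiJ
            exact ⟨hsub _ a1, hsub _ a2, a3, a4⟩
        · intro o ho
          exact ⟨hsub _ (h2 o ho).1, (h2 o ho).2⟩
        · intro L hL
          have hLj := hL j (Finset.mem_insert_self _ _)
          simp only [Function.update_self] at hLj
          have hrest := h3 L (by
            intro i hi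
            have hij : i ≠ j := by
              rintro rfl
              exact hjJ hi
            have := hL i (Finset.mem_insert_of_mem hi)
            simp only [Function.update_of_ne hij] at this
            exact this)
          have h5 : O ∪ (insert j J).biUnion L = L j ∪ (O ∪ J.biUnion L) := by
            rw [Finset.biUnion_insert]
            ext v
            simp only [Finset.mem_union]
            tauto
          rw [h5]
          exact ⟨MengerAux.conn_union_adj hLj.1 hrest.1 hLj.2.2 hrest.2 hch2.1,
            Finset.mem_union_left _ hLj.2.1⟩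

theorem exists_walk (G : SimpleGraph V) (Z : Finset V) {a b : ((Z : Set V) : Type)}
    (p : (G.induce (Z : Set V)).Walk a b) : ∃ P : G.Walk a.1 b.1, ∀ v ∈ P.support, v ∈ Z := by
  induction p with
  | nil =>
    rename_i u
    refine ⟨SimpleGraph.Walk.nil, ?_⟩
    intro v hv
    rw [SimpleGraph.Walk.support_nil, List.mem_singleton] at hv
    rw [hv]
    exact u.2
  | cons h _ ih =>
    rename_i u v w _
    obtain ⟨P, hP⟩ := ih
    have hadj : G.Adj u.1 v.1 := h
    refine ⟨SimpleGraph.Walk.cons hadj P, ?_⟩
    intro v' hv'
    rw [SimpleGraph.Walk.support_cons, List.mem_cons] at hv'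
    rcases hv' with rfl | hv'
    · exact u.2
    · exact hP _ hv'

/-- The exit lemma: a path from a vertex of the piece `k` to a vertex outside all pieces. -/
theorem exit (G : SimpleGraph V) (c : V → Option κ) (Z : Finset V) (hZ : Conn G Z) (x z : V)
    (hx : x ∈ Z) (hz : z ∈ Z) (k : κ) (hxk : c x = some k) (hzn : c z = none) :
    ∃ (y : V) (J : Finset κ) (s t : κ → V) (O : Finset V),
      y ∈ Z ∧ c y = some k ∧ k ∉ J ∧ z ∈ O ∧
      (∀ j ∈ J, s j ∈ Z ∧ t j ∈ Z ∧ c (s j) = some j ∧ c (t j) = some j) ∧
      (∀ o ∈ O, o ∈ Z ∧ c o = none) ∧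
      (∀ (B : Finset V) (L : κ → Finset V), Conn G B → y ∈ B →
        (∀ j ∈ J, Conn G (L j) ∧ s j ∈ L j ∧ t j ∈ L j) →
        Conn G (B ∪ (O ∪ J.biUnion L))) := by
  -- a walk inside `Z`
  obtain ⟨p⟩ : (G.induce (Z : Set V)).Reachable ⟨x, hx⟩ ⟨z, hz⟩ :=
    hZ.preconnected _ _
  obtain ⟨P, hP⟩ := exists_walk G Z p
  change G.Walk x z at P
  have hchain : List.IsChain G.Adj P.support := P.isChain_adj_support
  have hlast : P.support.getLast? = some z := by
    rw [List.getLast?_eq_some_getLast P.support_ne_nil, SimpleGraph.Walk.getLast_support]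
  obtain ⟨A, y, B, hsplit, hy, hB⟩ := exists_last_split (p := fun v => c v = some k) P.support
    ⟨x, P.start_mem_support, hxk⟩
  have hyZ : y ∈ Z := hP y (by rw [hsplit]; simp)
  cases B with
  | nil =>
    exfalso
    rw [hsplit] at hlast
    have : y = z := by simpa using hlast
    rw [← this, hy] at hzn
    cases hzn
  | cons b B =>
    have hch2 : List.IsChain G.Adj (y :: b :: B) := by
      rw [hsplit] at hchain
      exact (List.isChain_append.1 hchain).2.1
    rw [List.isChain_cons_cons] at hch2
    obtain ⟨J, s, t, O, h1, h2, h3, h4⟩ := jump G c z B.length b B le_rfl hch2.2 (by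
      rw [hsplit] at hlast
      simpa using hlast)
    have hsub : ∀ v, v ∈ b :: B → v ∈ Z := by
      intro v hv
      apply hP
      rw [hsplit]
      exact List.mem_append_right _ (List.mem_cons_of_mem _ hv)
    refine ⟨y, J, s, t, O, hyZ, hy, ?_, h4 hzn, ?_, ?_, ?_⟩
    · intro hk
      exact hB _ (h1 k hk).1 (h1 k hk).2.2.1
    · intro j hj
      obtain ⟨a1, a2, a3, a4⟩ := h1 j hj
      exact ⟨hsub _ a1, hsub _ a2, a3, a4⟩
    · intro o ho
      exact ⟨hsub _ (h2 o ho).1, (h2 o ho).2⟩
    · intro B' L hB' hyB' hL
      obtain ⟨c1, c2⟩ := h3 L hL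
      exact MengerAux.conn_union_adj hB' c1 hyB' c2 hch2.1

end Asm

end Vale.Agent.P060
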