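import Mathlib

/-!
P060, linear Hadwiger, row KR1: multiplicative weights.
-/

namespace Vale.Agent.P060.Lin

open Finset

variable {V : Type*} [Fintype V] [DecidableEq V]

/-- potential argument -/
theorem mw_potential (F : Finset V → Prop) (Q : ℕ)
    (h : ∀ w : V → ℝ, (∀ v, 0 ≤ w v) → ∃ W, F W ∧ (Q : ℝ) * ∑ v ∈ W, w v ≤ ∑ v, w v) (N : ℕ) :
    ∃ A : Fin N → Finset V, (∀ i, F (A i)) ∧
      (∑ v, (2 : ℝ) ^ (univ.filter (fun i => v ∈ A i)).card) * (Q : ℝ) ^ N ≤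
        (Fintype.card V : ℝ) * ((Q : ℝ) + 1) ^ N := by
  classical
  induction N with
  | zero =>
    refine ⟨fun i => i.elim0, fun i => i.elim0, ?_⟩
    simp
  | succ N ih =>
    obtain ⟨A, hA1, hA2⟩ := ih
    set w : V → ℝ := fun v => (2 : ℝ) ^ (univ.filter (fun i => v ∈ A i)).card with hw
    obtain ⟨W, hW1, hW2⟩ := h w (fun v => by positivity)
    refine ⟨Fin.snoc A W, ?_, ?_⟩
    · intro i
      refine Fin.lastCases ?_ (fun j => ?_) i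
      · simpa using hW1
      · simpa using hA1 j
    · have hc : ∀ v, (2 : ℝ) ^ (univ.filter (fun i => v ∈ (Fin.snoc A W : Fin (N + 1) → Finset V) i)).card
          = w v + if v ∈ W then w v else 0 := by
        intro v
        have h1 : (univ.filter (fun i => v ∈ (Fin.snoc A W : Fin (N + 1) → Finset V) i)).card =
            (univ.filter (fun i => v ∈ A i)).card + if v ∈ W then 1 else 0 := by
          rw [Finset.card_filter, Finset.card_filter, Fin.sum_univ_castSucc]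
          simp
        rw [h1]
        by_cases hv : v ∈ W
        · simp only [hv, if_true, pow_succ, hw]; ring
        · simp [hv, hw]
      rw [Finset.sum_congr rfl (fun v _ => hc v), Finset.sum_add_distrib]
      have h2 : ∑ v, (if v ∈ W then w v else 0) = ∑ v ∈ W, w v := by
        rw [Finset.sum_ite_mem, Finset.univ_inter]
      rw [h2, pow_succ, pow_succ]
      have hQN : (0 : ℝ) ≤ (Q : ℝ) ^ N := by positivity
      have h3 : (∑ v, w v + ∑ v ∈ W, w v) * ((Q : ℝ) ^ N * Q) ≤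
          (∑ v, w v) * (Q : ℝ) ^ N * ((Q : ℝ) + 1) := by
        have : (Q : ℝ) ^ N * ((Q : ℝ) * ∑ v ∈ W, w v) ≤ (Q : ℝ) ^ N * ∑ v, w v :=
          mul_le_mul_of_nonneg_left hW2 hQN
        nlinarith
      calc (∑ v, w v + ∑ v ∈ W, w v) * ((Q : ℝ) ^ N * Q)
          ≤ (∑ v, w v) * (Q : ℝ) ^ N * ((Q : ℝ) + 1) := h3
        _ ≤ ((Fintype.card V : ℝ) * ((Q : ℝ) + 1) ^ N) * ((Q : ℝ) + 1) :=
            mul_le_mul_of_nonneg_right hA2 (by positivity)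
        _ = _ := by ring

/-- **KR1.** -/
theorem mw (F : Finset V → Prop) (q : ℕ) (hq : 1 ≤ q)
    (h : ∀ w : V → ℝ, (∀ v, 0 ≤ w v) →
      ∃ W, F W ∧ ((72 * q ^ 2 : ℕ) : ℝ) * ∑ v ∈ W, w v ≤ ∑ v, w v) :
    ∃ M, 1 ≤ M ∧ ∃ A : Fin (q * M) → Finset V, (∀ i, F (A i)) ∧
      ∀ v, 36 * q ^ 2 * (univ.filter (fun i => v ∈ A i)).card ≤ q * M := by
  classical
  obtain ⟨Q, hQ⟩ : ∃ Q : ℕ, Q = 72 * q ^ 2 := ⟨_, rfl⟩
  rw [← hQ] at h
  have hQ1 : 1 ≤ Q := by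
    have : 1 ≤ q ^ 2 := Nat.one_le_pow _ _ hq
    omega
  have hQr : (0 : ℝ) < Q := by exact_mod_cast hQ1
  obtain ⟨j, hj⟩ : ∃ j : ℕ, (Fintype.card V : ℝ) < (4 / 3 : ℝ) ^ j :=
    pow_unbounded_of_one_lt _ (by norm_num)
  refine ⟨72 * q * (j + 1), ?_, ?_⟩
  · have : 0 < 72 * q * (j + 1) := by positivity
    exact this
  obtain ⟨A, hA1, hA2⟩ := mw_potential F Q h (q * (72 * q * (j + 1)))
  refine ⟨A, hA1, ?_⟩
  intro v
  have hN : q * (72 * q * (j + 1)) = Q * (j + 1) := by rw [hQ]; ring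
  by_contra hcon
  push Not at hcon
  set c := (univ.filter (fun i => v ∈ A i)).card with hc
  have hc2 : 2 * (j + 1) + 1 ≤ c := by
    by_contra hlt
    have h1 : c ≤ 2 * (j + 1) := by omega
    have h2 : 36 * q ^ 2 * c ≤ 36 * q ^ 2 * (2 * (j + 1)) := Nat.mul_le_mul_left _ h1
    have h3 : 36 * q ^ 2 * (2 * (j + 1)) = q * (72 * q * (j + 1)) := by ring
    omega
  have h1 : (2 : ℝ) ^ c ≤ ∑ v, (2 : ℝ) ^ (univ.filter (fun i => v ∈ A i)).card :=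
    Finset.single_le_sum (f := fun v => (2 : ℝ) ^ (univ.filter (fun i => v ∈ A i)).card)
      (fun _ _ => by positivity) (mem_univ v)
  have h2 : (2 : ℝ) ^ (2 * (j + 1) + 1) ≤ (2 : ℝ) ^ c := pow_le_pow_right₀ (by norm_num) hc2
  have h3 : ((Q : ℝ) + 1) ^ Q ≤ 3 * (Q : ℝ) ^ Q := by
    have e1 : ((Q : ℝ) + 1) ^ Q = (1 + 1 / (Q : ℝ)) ^ Q * (Q : ℝ) ^ Q := by
      rw [← mul_pow]; congr 1; field_simp
    have e2 : (1 + 1 / (Q : ℝ)) ^ Q ≤ 3 := by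
      have e3 : 1 + 1 / (Q : ℝ) ≤ Real.exp (1 / (Q : ℝ)) := by
        have := Real.add_one_le_exp (1 / (Q : ℝ)); linarith
      have e4 : (1 + 1 / (Q : ℝ)) ^ Q ≤ Real.exp (1 / (Q : ℝ)) ^ Q :=
        pow_le_pow_left₀ (by positivity) e3 _
      have e5 : Real.exp (1 / (Q : ℝ)) ^ Q = Real.exp 1 := by
        rw [← Real.exp_nat_mul]; congr 1; field_simp
      rw [e5] at e4
      exact e4.trans (Real.exp_one_lt_d9.le.trans (by norm_num))
    rw [e1]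
    exact mul_le_mul_of_nonneg_right e2 (by positivity)
  have h4 : ((Q : ℝ) + 1) ^ (Q * (j + 1)) ≤ 3 ^ (j + 1) * (Q : ℝ) ^ (Q * (j + 1)) := by
    rw [pow_mul, pow_mul, ← mul_pow]
    exact pow_le_pow_left₀ (by positivity) h3 _
  have hp1 : (Q : ℝ) ^ (q * (72 * q * (j + 1))) = (Q : ℝ) ^ (Q * (j + 1)) := by rw [hN]
  have hp2 : ((Q : ℝ) + 1) ^ (q * (72 * q * (j + 1))) = ((Q : ℝ) + 1) ^ (Q * (j + 1)) := by rw [hN]
  rw [hp1, hp2] at hA2
  have hQN : (0 : ℝ) < (Q : ℝ) ^ (Q * (j + 1)) := by positivity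
  have h5 : (2 : ℝ) ^ (2 * (j + 1) + 1) * (Q : ℝ) ^ (Q * (j + 1)) ≤
      (Fintype.card V : ℝ) * (3 ^ (j + 1) * (Q : ℝ) ^ (Q * (j + 1))) := by
    calc (2 : ℝ) ^ (2 * (j + 1) + 1) * (Q : ℝ) ^ (Q * (j + 1))
        ≤ (∑ v, (2 : ℝ) ^ (univ.filter (fun i => v ∈ A i)).card) * (Q : ℝ) ^ (Q * (j + 1)) :=
          mul_le_mul_of_nonneg_right (h2.trans h1) hQN.le
      _ ≤ _ := hA2
      _ ≤ _ := mul_le_mul_of_nonneg_left h4 (by positivity)
  have h6 : (2 : ℝ) ^ (2 * (j + 1) + 1) ≤ (Fintype.card V : ℝ) * 3 ^ (j + 1) := by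
    have := le_of_mul_le_mul_right (by rw [mul_assoc]; exact h5 :
      (2 : ℝ) ^ (2 * (j + 1) + 1) * (Q : ℝ) ^ (Q * (j + 1)) ≤
        ((Fintype.card V : ℝ) * 3 ^ (j + 1)) * (Q : ℝ) ^ (Q * (j + 1))) hQN
    exact this
  have h7 : (2 : ℝ) ^ (2 * (j + 1) + 1) = 2 * (4 / 3) ^ (j + 1) * 3 ^ (j + 1) := by
    rw [pow_succ, pow_mul, mul_assoc, ← mul_pow]; norm_num; ring
  rw [h7] at h6
  have h8 : 2 * (4 / 3 : ℝ) ^ (j + 1) ≤ Fintype.card V := le_of_mul_le_mul_right h6 (by positivity)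
  have h9 : (4 / 3 : ℝ) ^ j ≤ (4 / 3 : ℝ) ^ (j + 1) := pow_le_pow_right₀ (by norm_num) (Nat.le_succ j)
  have h10 : (0 : ℝ) < (4 / 3 : ℝ) ^ j := by positivity
  linarith

end Vale.Agent.P060.Lin
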