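import Mathlib
import Vale.Agent.P060.Lin.LinDefs

namespace Vale.Agent.P060

open Finset

namespace RSa

section abs

variable {W : Type} {H : SimpleGraph W}

/-- `x` can be reached from `r` avoiding `v` -/
def Av (H : SimpleGraph W) (v r x : W) : Prop :=
  Relation.ReflTransGen (fun a b => H.Adj a b ∧ b ≠ v) r x

def NonCut (H : SimpleGraph W) (v : W) : Prop := ∃ r, r ≠ v ∧ ∀ x, x ≠ v → Av H v r x

/-- induced path (raw form) -/
def IP (H : SimpleGraph W) (p : ℕ → W) (s : ℕ) : Prop :=
  (∀ i ≤ s, ∀ j ≤ s, (H.Adj (p i) (p j) ↔ (i + 1 = j ∨ j + 1 = i))) ∧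
    ∀ i ≤ s, ∀ j ≤ s, p i = p j → i = j

structure Geo (H : SimpleGraph W) where
  r : W
  d : W → ℕ
  pr : W → W
  d0 : ∀ x, d x = 0 ↔ x = r
  dadj : ∀ x y, H.Adj x y → d y ≤ d x + 1
  hpr : ∀ x, x ≠ r → H.Adj (pr x) x ∧ d (pr x) + 1 = d x

theorem exists_geo (hH : H.Connected) (r : W) : ∃ g : Geo H, g.r = r := by
  classical
  have h1 : ∀ x y, H.Adj x y → H.dist r y ≤ H.dist r x + 1 := by
    intro x y h
    have h2 := hH.dist_triangle (u := r) (v := x) (w := y)
    rw [SimpleGraph.dist_eq_one_iff_adj.2 h] at h2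
    exact h2
  have h2 : ∀ x, ∃ y, x ≠ r → H.Adj y x ∧ H.dist r y + 1 = H.dist r x := by
    intro x
    by_cases hx : x = r
    · exact ⟨x, fun h => absurd hx h⟩
    obtain ⟨p, hp⟩ := hH.exists_walk_length_eq_dist x r
    cases p with
    | nil => exact absurd rfl hx
    | @cons _ y _ h p' =>
      refine ⟨y, fun _ => ⟨h.symm, ?_⟩⟩
      have h3 := SimpleGraph.dist_le p'
      have h4 := h1 y x h.symm
      rw [SimpleGraph.Walk.length_cons, SimpleGraph.dist_comm] at hp
      rw [SimpleGraph.dist_comm] at h3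
      omega
  choose pr hpr using h2
  refine ⟨⟨r, fun x => H.dist r x, pr, fun x => ?_, h1, hpr⟩, rfl⟩
  rw [hH.dist_eq_zero_iff]
  exact eq_comm

variable (g : Geo H)

theorem d_iter (x : W) : ∀ k, k ≤ g.d x → g.d (g.pr^[k] x) = g.d x - k := by
  intro k
  induction k with
  | zero => intro _; rfl
  | succ k ih =>
    intro hk
    have h1 := ih (by omega)
    rw [Function.iterate_succ_apply']
    have h2 : g.pr^[k] x ≠ g.r := by
      intro h
      rw [← g.d0] at h
      omega
    have h3 := (g.hpr _ h2).2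
    omega

theorem adj_iter (x : W) (k : ℕ) (hk : k < g.d x) : H.Adj (g.pr^[k + 1] x) (g.pr^[k] x) := by
  have h1 := d_iter g x k hk.le
  have h2 : g.pr^[k] x ≠ g.r := by
    intro h
    rw [← g.d0] at h
    omega
  rw [Function.iterate_succ_apply']
  exact (g.hpr _ h2).1

theorem av_of_le (q : W) : ∀ (n : ℕ) (x : W), g.d x = n → x ≠ q → g.d x ≤ g.d q →
    Av H q g.r x := by
  intro n
  induction n with
  | zero =>
    intro x hx _ _
    rw [g.d0] at hx
    rw [hx]
    exact Relation.ReflTransGen.refl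
  | succ n ih =>
    intro x hx hxq hle
    have h2 : x ≠ g.r := by
      intro h
      rw [← g.d0] at h
      omega
    have h3 := g.hpr _ h2
    have h4 : g.pr x ≠ q := by
      intro h
      rw [h] at h3
      omega
    exact Relation.ReflTransGen.tail (ih (g.pr x) (by omega) h4 (by omega)) ⟨h3.1, hxq⟩

theorem not_av_self (q r : W) (h : q ≠ r) : ¬ Av H q r q := by
  intro h1
  rcases Relation.ReflTransGen.cases_tail h1 with h2 | ⟨c, _, h3⟩
  · exact h h2
  · exact h3.2 rfl

theorem av_or (q q' : W) (hne : q ≠ q') (hd : g.d q = g.d q') :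
    ∀ (n : ℕ) (x : W), g.d x = n → Av H q g.r x ∨ Av H q' g.r x := by
  intro n
  induction n with
  | zero =>
    intro x hx
    rw [g.d0] at hx
    rw [hx]
    exact Or.inl Relation.ReflTransGen.refl
  | succ n ih =>
    intro x hx
    rcases le_or_gt (g.d x) (g.d q) with h | h
    · by_cases hxq : x = q
      · right
        exact av_of_le g q' _ x rfl (by rw [hxq]; exact hne) (by omega)
      · left
        exact av_of_le g q _ x rfl hxq h
    · have h2 : x ≠ g.r := by
        intro h
        rw [← g.d0] at h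
        omega
      have h3 := g.hpr _ h2
      have h4 : x ≠ q := by rintro rfl; omega
      have h5 : x ≠ q' := by rintro rfl; omega
      rcases ih (g.pr x) (by omega) with h6 | h6
      · exact Or.inl (Relation.ReflTransGen.tail h6 ⟨h3.1, h4⟩)
      · exact Or.inr (Relation.ReflTransGen.tail h6 ⟨h3.1, h5⟩)

theorem edge_only (q q' : W) (hne : q ≠ q') (hd : g.d q = g.d q') (x y : W) (hxy : H.Adj x y)
    (hx : ¬ Av H q g.r x) (hy : ¬ Av H q' g.r y) : x = q ∧ y = q' := by
  have hx' := (av_or g q q' hne hd _ x rfl).resolve_left hx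
  have hy' := (av_or g q q' hne hd _ y rfl).resolve_right hy
  constructor
  · by_contra h
    exact hx (Relation.ReflTransGen.tail hy' ⟨hxy.symm, h⟩)
  · by_contra h
    exact hy (Relation.ReflTransGen.tail hx' ⟨hxy, h⟩)

theorem exists_top [Finite W] (q : W) (hq : q ≠ g.r) :
    ∃ a, ¬ Av H q g.r a ∧ g.d q ≤ g.d a ∧ a ≠ g.r ∧ NonCut H a := by
  classical
  obtain ⟨_⟩ := nonempty_fintype W
  obtain ⟨a, ha, hmax⟩ := Finset.exists_max_image
    (Finset.univ.filter (fun x => ¬ Av H q g.r x)) g.d
    ⟨q, by rw [Finset.mem_filter]; exact ⟨Finset.mem_univ _, not_av_self q g.r hq⟩⟩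
  rw [Finset.mem_filter] at ha
  have hmax' : ∀ x, ¬ Av H q g.r x → g.d x ≤ g.d a := by
    intro x hx
    exact hmax x (by rw [Finset.mem_filter]; exact ⟨Finset.mem_univ _, hx⟩)
  have har : a ≠ g.r := by
    rintro rfl
    exact ha.2 Relation.ReflTransGen.refl
  refine ⟨a, ha.2, hmax' q (not_av_self q g.r hq), har, g.r, har.symm, ?_⟩
  intro x hx
  by_contra hcon
  have h1 : g.d a < g.d x := by
    by_contra hle
    exact hcon (av_of_le g a _ x rfl hx (not_lt.1 hle))
  have h2 : ∀ y, Av H q g.r y → Av H a g.r y := by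
    intro y hy
    induction hy with
    | refl => exact Relation.ReflTransGen.refl
    | @tail b c hb hbc ih =>
      refine Relation.ReflTransGen.tail ih ⟨hbc.1, ?_⟩
      rintro rfl
      exact ha.2 (Relation.ReflTransGen.tail hb hbc)
  have h3 := hmax' x (fun h => hcon (h2 x h))
  omega

theorem leg (q : W) (a : W) (ha : ¬ Av H q g.r a) : ∀ k, k ≤ g.d a - g.d q →
    ¬ Av H q g.r (g.pr^[k] a) := by
  intro k
  induction k with
  | zero => intro _; exact ha
  | succ k ih =>
    intro hk h
    have h1 := d_iter g a k (by omega)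
    have h2 := adj_iter g a k (by omega)
    refine ih (by omega) (Relation.ReflTransGen.tail h ⟨h2, ?_⟩)
    intro h3
    rw [h3] at h1
    omega

theorem leg_end (q : W) (a : W) (ha : ¬ Av H q g.r a) (hda : g.d q ≤ g.d a) :
    g.pr^[g.d a - g.d q] a = q := by
  by_contra h
  have h1 := leg g q a ha _ le_rfl
  have h2 := d_iter g a (g.d a - g.d q) (by omega)
  exact h1 (av_of_le g q _ _ rfl h (by omega))

theorem geo_even (hpar : ∀ (p : ℕ → W) (s : ℕ), IP H p s → NonCut H (p 0) → NonCut H (p s) →
    p 0 ≠ p s → Even s) (hr : NonCut H g.r) (a : W) (har : a ≠ g.r) (ha : NonCut H a) :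
    Even (g.d a) := by
  have hd : ∀ i ≤ g.d a, g.d (g.pr^[g.d a - i] a) = i := by
    intro i hi
    have := d_iter g a (g.d a - i) (by omega)
    omega
  have h0 : g.pr^[g.d a - 0] a = g.r := by
    rw [← g.d0]
    exact hd 0 (Nat.zero_le _)
  have he : g.pr^[g.d a - g.d a] a = a := by
    rw [Nat.sub_self]; rfl
  refine hpar (fun i => g.pr^[g.d a - i] a) (g.d a) ⟨?_, ?_⟩ ?_ ?_ ?_
  · intro i hi j hj
    constructor
    · intro h
      have h1 := g.dadj _ _ h
      have h2 := g.dadj _ _ h.symm
      rw [hd i hi, hd j hj] at h1 h2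
      have h3 : i ≠ j := by
        rintro rfl
        exact H.loopless.irrefl _ h
      omega
    · rintro (h | h)
      · have h1 := adj_iter g a (g.d a - j) (by omega)
        rw [show g.d a - j + 1 = g.d a - i by omega] at h1
        exact h1
      · have h1 := adj_iter g a (g.d a - i) (by omega)
        rw [show g.d a - i + 1 = g.d a - j by omega] at h1
        exact h1.symm
  · intro i hi j hj h
    simp only at h
    have h1 := hd i hi
    have h2 := hd j hj
    rw [h] at h1
    omega
  · show NonCut H (g.pr^[g.d a - 0] a)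
    rw [h0]; exact hr
  · show NonCut H (g.pr^[g.d a - g.d a] a)
    rw [he]; exact ha
  · show g.pr^[g.d a - 0] a ≠ g.pr^[g.d a - g.d a] a
    rw [h0, he]; exact har.symm

theorem bip_of_even [Finite W] (hH : H.Connected)
    (hpar : ∀ (p : ℕ → W) (s : ℕ), IP H p s → NonCut H (p 0) → NonCut H (p s) →
      p 0 ≠ p s → Even s) :
    ∃ f : W → ℕ, (∀ v, f v < 2) ∧ ∀ x y, H.Adj x y → f x ≠ f y := by
  classical
  obtain ⟨_⟩ := nonempty_fintype W
  obtain ⟨b0⟩ := hH.nonempty
  by_cases hsub : ∀ x y : W, x = y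
  · exact ⟨fun _ => 0, fun _ => Nat.zero_lt_two, fun x y h => absurd (hsub x y) h.ne⟩
  push Not at hsub
  obtain ⟨x1, x2, hx12⟩ := hsub
  obtain ⟨g0, hg0⟩ := exists_geo hH b0
  obtain ⟨a0, -, hmax⟩ := Finset.exists_max_image Finset.univ g0.d ⟨b0, Finset.mem_univ _⟩
  have ha0 : a0 ≠ g0.r := by
    intro h
    rw [← g0.d0] at h
    have h1 := hmax x1 (Finset.mem_univ _)
    have h2 := hmax x2 (Finset.mem_univ _)
    have h3 : x1 = g0.r := (g0.d0 _).1 (by omega)
    have h4 : x2 = g0.r := (g0.d0 _).1 (by omega)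
    exact hx12 (h3.trans h4.symm)
  have hnc0 : NonCut H a0 :=
    ⟨g0.r, ha0.symm, fun x hx => av_of_le g0 a0 _ x rfl hx (hmax x (Finset.mem_univ _))⟩
  obtain ⟨g, hg⟩ := exists_geo hH a0
  have hr : NonCut H g.r := by rw [hg]; exact hnc0
  refine ⟨fun v => g.d v % 2, fun v => Nat.mod_lt _ Nat.zero_lt_two, ?_⟩
  intro q q' hqq hf
  simp only at hf
  have e1 := g.dadj _ _ hqq
  have e2 := g.dadj _ _ hqq.symm
  have hd : g.d q = g.d q' := by omega
  have hne : q ≠ q' := hqq.ne
  have hqr : q ≠ g.r := by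
    intro h
    have h1 := (g.d0 q).2 h
    have h2 := (g.d0 q').1 (by omega)
    exact hne (h.trans h2.symm)
  have hqr' : q' ≠ g.r := by
    intro h
    have h1 := (g.d0 q').2 h
    have h2 := (g.d0 q).1 (by omega)
    exact hne (h2.trans h.symm)
  obtain ⟨a, ha1, ha2, ha3, ha4⟩ := exists_top g q hqr
  obtain ⟨a', ha1', ha2', ha3', ha4'⟩ := exists_top g q' hqr'
  have hev := geo_even g hpar hr a ha3 ha4
  have hev' := geo_even g hpar hr a' ha3' ha4'
  set m := g.d a - g.d q with hm
  set m' := g.d a' - g.d q' with hm'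
  have hleg := leg g q a ha1
  have hleg' := leg g q' a' ha1'
  have hend : g.pr^[m] a = q := leg_end g q a ha1 ha2
  have hend' : g.pr^[m'] a' = q' := leg_end g q' a' ha1' ha2'
  have hD : ∀ k ≤ m, g.d (g.pr^[k] a) = g.d a - k := fun k hk => d_iter g a k (by omega)
  have hD' : ∀ k ≤ m', g.d (g.pr^[k] a') = g.d a' - k := fun k hk => d_iter g a' k (by omega)
  set p : ℕ → W := fun k => if k ≤ m then g.pr^[k] a else g.pr^[m + 1 + m' - k] a' with hp
  have hp1 : ∀ k, k ≤ m → p k = g.pr^[k] a := fun k hk => by rw [hp]; simp [hk]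
  have hp2 : ∀ k, m < k → p k = g.pr^[m + 1 + m' - k] a' := fun k hk => by
    rw [hp]; simp [not_le.2 hk]
  have hcross : ∀ i j, i ≤ m → m < j → j ≤ m + 1 + m' → H.Adj (p i) (p j) → i = m ∧ j = m + 1 := by
    intro i j hi hj hjs h
    rw [hp1 i hi, hp2 j hj] at h
    obtain ⟨h1, h2⟩ := edge_only g q q' hne hd _ _ h (hleg i hi) (hleg' _ (by omega))
    have h3 := hD i hi
    have h4 := hD' (m + 1 + m' - j) (by omega)
    rw [h1] at h3
    rw [h2] at h4
    omega
  have hadjm : H.Adj (p m) (p (m + 1)) := by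
    rw [hp1 m le_rfl, hp2 (m + 1) (by omega), show m + 1 + m' - (m + 1) = m' by omega, hend, hend']
    exact hqq
  have hIP : IP H p (m + 1 + m') := by
    constructor
    · intro i hi j hj
      rcases le_or_gt i m with him | him <;> rcases le_or_gt j m with hjm | hjm
      · rw [hp1 i him, hp1 j hjm]
        constructor
        · intro h
          have h1 := g.dadj _ _ h
          have h2 := g.dadj _ _ h.symm
          rw [hD i him, hD j hjm] at h1 h2
          have h3 : i ≠ j := by
            rintro rfl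
            exact H.loopless.irrefl _ h
          omega
        · rintro (h | h)
          · subst h
            exact (adj_iter g a i (by omega)).symm
          · subst h
            exact adj_iter g a j (by omega)
      · constructor
        · intro h
          obtain ⟨h1, h2⟩ := hcross i j him hjm hj h
          omega
        · intro h
          have h1 : i = m := by omega
          have h2 : j = m + 1 := by omega
          rw [h1, h2]
          exact hadjm
      · constructor
        · intro h
          obtain ⟨h1, h2⟩ := hcross j i hjm him hi h.symm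
          omega
        · intro h
          have h1 : j = m := by omega
          have h2 : i = m + 1 := by omega
          rw [h1, h2]
          exact hadjm.symm
      · rw [hp2 i him, hp2 j hjm]
        constructor
        · intro h
          have h1 := g.dadj _ _ h
          have h2 := g.dadj _ _ h.symm
          rw [hD' _ (by omega), hD' _ (by omega)] at h1 h2
          have h3 : i ≠ j := by
            rintro rfl
            exact H.loopless.irrefl _ h
          omega
        · rintro (h | h)
          · have h1 := adj_iter g a' (m + 1 + m' - j) (by omega)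
            rw [show m + 1 + m' - j + 1 = m + 1 + m' - i by omega] at h1
            exact h1
          · have h1 := adj_iter g a' (m + 1 + m' - i) (by omega)
            rw [show m + 1 + m' - i + 1 = m + 1 + m' - j by omega] at h1
            exact h1.symm
    · intro i hi j hj h
      have hx : ∀ i j, i ≤ m → m < j → j ≤ m + 1 + m' → p i ≠ p j := by
        intro i j hi hj hjs h
        rw [hp1 i hi, hp2 j hj] at h
        have h1 := hleg i hi
        have h2 := hleg' (m + 1 + m' - j) (by omega)
        rw [← h] at h2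
        rcases av_or g q q' hne hd _ (g.pr^[i] a) rfl with h3 | h3
        · exact h1 h3
        · exact h2 h3
      rcases le_or_gt i m with him | him <;> rcases le_or_gt j m with hjm | hjm
      · rw [hp1 i him, hp1 j hjm] at h
        have h1 := hD i him
        have h2 := hD j hjm
        rw [h] at h1
        omega
      · exact absurd h (hx i j him hjm hj)
      · exact absurd h.symm (hx j i hjm him hi)
      · rw [hp2 i him, hp2 j hjm] at h
        have h1 := hD' (m + 1 + m' - i) (by omega)
        have h2 := hD' (m + 1 + m' - j) (by omega)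
        rw [h] at h1
        omega
  have hp0 : p 0 = a := hp1 0 (Nat.zero_le _)
  have hps : p (m + 1 + m') = a' := by
    rw [hp2 _ (by omega), Nat.sub_self]; rfl
  have hfin := hpar p (m + 1 + m') hIP (by rw [hp0]; exact ha4) (by rw [hps]; exact ha4') (by
    intro h
    have := hIP.2 0 (Nat.zero_le _) _ le_rfl h
    omega)
  obtain ⟨y1, hy1⟩ := hev
  obtain ⟨y2, hy2⟩ := hev'
  obtain ⟨y3, hy3⟩ := hfin
  omega

end abs

end RSa

variable {V : Type} [Fintype V] [DecidableEq V]

theorem RSa.conn_erase (G : SimpleGraph V) (B : Finset V) (v : ((B : Set V) : Set V))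
    (h : RSa.NonCut (G.induce (B : Set V)) v) : Conn G (B.erase v) := by
  classical
  obtain ⟨r, hr, h⟩ := h
  have hr' : (r : V) ∈ ((B.erase v : Finset V) : Set V) := by
    rw [Finset.mem_coe, Finset.mem_erase]
    exact ⟨fun h => hr (Subtype.ext h), r.2⟩
  have key : ∀ x, RSa.Av (G.induce (B : Set V)) v r x →
      ∃ hx : (x : V) ∈ ((B.erase v : Finset V) : Set V),
        (G.induce ((B.erase v : Finset V) : Set V)).Reachable ⟨r, hr'⟩ ⟨x, hx⟩ := by
    intro x hx
    induction hx with
    | refl => exact ⟨hr', SimpleGraph.Reachable.refl _⟩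
    | @tail b c _ hbc ih =>
      obtain ⟨hb, hrb⟩ := ih
      have hc : (c : V) ∈ ((B.erase v : Finset V) : Set V) := by
        rw [Finset.mem_coe, Finset.mem_erase]
        exact ⟨fun h => hbc.2 (Subtype.ext h), c.2⟩
      refine ⟨hc, hrb.trans (SimpleGraph.Adj.reachable ?_)⟩
      exact hbc.1
  rw [Conn, SimpleGraph.connected_iff_exists_forall_reachable]
  refine ⟨⟨r, hr'⟩, ?_⟩
  rintro ⟨x, hx⟩
  have hx' := hx
  rw [Finset.mem_coe, Finset.mem_erase] at hx'
  obtain ⟨hx2, h2⟩ := key ⟨x, hx'.2⟩ (h ⟨x, hx'.2⟩ (fun h3 => hx'.1 (congrArg Subtype.val h3)))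
  exact h2

/-- ROW RSa (parity lemma => bipartite connected transversal). -/
theorem exists_bip (G : SimpleGraph V) (C : Finset V) (hC : Conn G C) {ι : Type} [Fintype ι]
    [DecidableEq ι] (J : Finset ι) (N : ι → Finset V) (hN : ∀ j ∈ J, (N j ∩ C).Nonempty)
    (hpar : ∀ i ∈ J, ∀ j ∈ J, i ≠ j → ∀ (p : ℕ → V) (s : ℕ), IndPath G p s →
      (∀ u ≤ s, p u ∈ C) → (∀ u ≤ s, (p u ∈ N i ↔ u = 0)) → (∀ u ≤ s, (p u ∈ N j ↔ u = s)) →
      Even s) :
    ∃ B ⊆ C, Conn G B ∧ (∀ j ∈ J, (N j ∩ B).Nonempty) ∧ Col G B 2 := by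
  classical
  obtain ⟨B, hB, hmin⟩ := Finset.exists_min_image
    (C.powerset.filter (fun B => Conn G B ∧ ∀ j ∈ J, (N j ∩ B).Nonempty)) Finset.card
    ⟨C, by rw [Finset.mem_filter, Finset.mem_powerset]; exact ⟨subset_rfl, hC, hN⟩⟩
  rw [Finset.mem_filter, Finset.mem_powerset] at hB
  obtain ⟨hBC, hBconn, hBN⟩ := hB
  refine ⟨B, hBC, hBconn, hBN, ?_⟩
  have hess : ∀ v : ((B : Set V) : Set V), RSa.NonCut (G.induce (B : Set V)) v →
      ∃ j ∈ J, ∀ x ∈ B, (x ∈ N j ↔ x = v) := by
    intro v hv
    have h1 := RSa.conn_erase G B v hv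
    by_contra hcon
    push Not at hcon
    have hvB : (v : V) ∈ B := v.2
    have h2 : ∀ j ∈ J, (N j ∩ B.erase v).Nonempty := by
      intro j hj
      obtain ⟨x, hx, h3⟩ := hcon j hj
      rcases h3 with ⟨h3, h4⟩ | ⟨h3, h4⟩
      · exact ⟨x, by rw [Finset.mem_inter, Finset.mem_erase]; exact ⟨h3, h4, hx⟩⟩
      · obtain ⟨y, hy⟩ := hBN j hj
        rw [Finset.mem_inter] at hy
        refine ⟨y, ?_⟩
        rw [Finset.mem_inter, Finset.mem_erase]
        refine ⟨hy.1, ?_, hy.2⟩
        rintro rfl
        rw [h4] at h3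
        exact h3 hy.1
    have h3 := hmin (B.erase v) (by
      rw [Finset.mem_filter, Finset.mem_powerset]
      exact ⟨(Finset.erase_subset _ _).trans hBC, h1, h2⟩)
    have h4 := Finset.card_erase_lt_of_mem hvB
    omega
  obtain ⟨f, hf1, hf2⟩ := RSa.bip_of_even (H := G.induce (B : Set V)) hBconn (by
    intro p s hIP h0 hs hne
    obtain ⟨i, hi, hi'⟩ := hess _ h0
    obtain ⟨j, hj, hj'⟩ := hess _ hs
    have hij : i ≠ j := by
      rintro rfl
      have h1 := (hi' _ (p s).2).1 ((hj' _ (p s).2).2 rfl)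
      exact hne (Subtype.ext h1.symm)
    refine hpar i hi j hj hij (fun u => (p u : V)) s ⟨?_, ?_⟩ ?_ ?_ ?_
    · intro a ha b hb
      exact hIP.1 a ha b hb
    · intro a ha b hb hab
      exact hIP.2 a ha b hb (Subtype.ext hab)
    · intro u _
      exact hBC (p u).2
    · intro u hu
      rw [hi' _ (p u).2]
      constructor
      · intro h
        exact hIP.2 u hu 0 (Nat.zero_le _) (Subtype.ext h)
      · rintro rfl
        rfl
    · intro u hu
      rw [hj' _ (p u).2]
      constructor
      · intro h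
        exact hIP.2 u hu s le_rfl (Subtype.ext h)
      · rintro rfl
        rfl)
  refine ⟨fun v => if h : v ∈ B then f ⟨v, h⟩ else 0, ?_, ?_⟩
  · intro v hv
    simp only [hv, dif_pos]
    exact hf1 _
  · intro a ha b hb hab
    simp only [ha, hb, dif_pos]
    exact hf2 _ _ hab

end Vale.Agent.P060
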