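import Mathlib
import Vale.Agent.P060.Lin.LinDefs
import Vale.Agent.P060.Lin.RSa
import Vale.Agent.P060.Menger

/-!
P060, linear bound, row RSb: Reed and Seymour (fractional chromatic number at most `2 t`).
The vertex set is split into connected sets `X` with an independent half `Y`, each chosen with
`2 z(Y) - z(X)` maximal and then `|X|` maximal; the parity of induced paths between two earlier
sets makes a minimal transversal bipartite (`exists_bip`).
-/

namespace Vale.Agent.P060

open Finset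

variable {V : Type} [Fintype V] [DecidableEq V]

namespace RSb

set_option linter.unusedSectionVars false

/-- there is an edge between `A` and `B` -/
def Touch (G : SimpleGraph V) (A B : Finset V) : Prop := ∃ a ∈ A, ∃ b ∈ B, G.Adj a b

omit [Fintype V] [DecidableEq V] in
theorem Touch.symm {G : SimpleGraph V} {A B : Finset V} (h : Touch G A B) : Touch G B A := by
  obtain ⟨a, ha, b, hb, hab⟩ := h
  exact ⟨b, hb, a, ha, hab.symm⟩

omit [Fintype V] [DecidableEq V] in
theorem Touch.mono {G : SimpleGraph V} {A B A' B' : Finset V} (h : Touch G A B) (hA : A ⊆ A')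
    (hB : B ⊆ B') : Touch G A' B' := by
  obtain ⟨a, ha, b, hb, hab⟩ := h
  exact ⟨a, hA ha, b, hB hb, hab⟩

/-- neighbours of the set `A` -/
noncomputable def nb (G : SimpleGraph V) (A : Finset V) : Finset V := by
  classical
  exact univ.filter (fun v => ∃ a ∈ A, G.Adj a v)

theorem mem_nb {G : SimpleGraph V} {A : Finset V} {v : V} : v ∈ nb G A ↔ ∃ a ∈ A, G.Adj a v := by
  classical
  unfold nb
  simp

theorem mem_nb_iff {G : SimpleGraph V} {A : Finset V} {v : V} : v ∈ nb G A ↔ Touch G A {v} := by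
  rw [mem_nb]
  constructor
  · rintro ⟨a, ha, h⟩
    exact ⟨a, ha, v, Finset.mem_singleton_self v, h⟩
  · rintro ⟨a, ha, b, hb, h⟩
    rw [Finset.mem_singleton] at hb
    exact ⟨a, ha, hb ▸ h⟩

theorem exists_comp (G : SimpleGraph V) (U : Finset V) (hU : U.Nonempty) :
    ∃ C ⊆ U, Conn G C ∧ ∀ D ⊆ U, Conn G D → (Touch G D C ∨ ∃ v ∈ D, v ∈ C) → D ⊆ C := by
  classical
  obtain ⟨v, hv⟩ := hU
  have hne : (U.powerset.filter (fun C => Conn G C)).Nonempty :=
    ⟨{v}, by
      rw [Finset.mem_filter, Finset.mem_powerset, Finset.singleton_subset_iff]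
      exact ⟨hv, MengerAux.conn_singleton G v⟩⟩
  obtain ⟨C, hC, hmax⟩ := Finset.exists_max_image _ (fun C : Finset V => C.card) hne
  rw [Finset.mem_filter, Finset.mem_powerset] at hC
  refine ⟨C, hC.1, hC.2, ?_⟩
  intro D hD hDc h
  have h1 : Conn G (D ∪ C) := by
    rcases h with ⟨a, ha, b, hb, hab⟩ | ⟨v, h1, h2⟩
    · exact MengerAux.conn_union_adj hDc hC.2 ha hb hab
    · exact MengerAux.conn_union hDc hC.2 h1 h2
  have h2 := hmax (D ∪ C) (by
    rw [Finset.mem_filter, Finset.mem_powerset]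
    exact ⟨Finset.union_subset hD hC.1, h1⟩)
  have h3 : C = D ∪ C := Finset.eq_of_subset_of_card_le Finset.subset_union_right h2
  rw [h3]
  exact Finset.subset_union_left

theorem half (G : SimpleGraph V) (B : Finset V) (z : V → ℝ) (hB : Col G B 2) :
    ∃ Y ⊆ B, Indep G Y ∧ ∑ v ∈ B, z v ≤ 2 * ∑ v ∈ Y, z v := by
  classical
  obtain ⟨f, hf1, hf2⟩ := hB
  have hs : ∑ v ∈ B, z v = ∑ v ∈ B.filter (fun v => f v = 0), z v +
      ∑ v ∈ B.filter (fun v => ¬ f v = 0), z v := (Finset.sum_filter_add_sum_filter_not _ _ _).symm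
  have h0 : Indep G (B.filter (fun v => f v = 0)) := by
    intro a ha b hb hab
    rw [Finset.mem_filter] at ha hb
    exact hf2 a ha.1 b hb.1 hab (ha.2.trans hb.2.symm)
  have h1 : Indep G (B.filter (fun v => ¬ f v = 0)) := by
    intro a ha b hb hab
    rw [Finset.mem_filter] at ha hb
    have h2 := hf1 a ha.1
    have h3 := hf1 b hb.1
    have h4 := hf2 a ha.1 b hb.1 hab
    omega
  by_cases h : ∑ v ∈ B.filter (fun v => f v = 0), z v ≤ ∑ v ∈ B.filter (fun v => ¬ f v = 0), z v
  · exact ⟨_, Finset.filter_subset _ _, h1, by linarith⟩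
  · exact ⟨_, Finset.filter_subset _ _, h0, by linarith⟩

theorem exists_opt (G : SimpleGraph V) (C : Finset V) (z : V → ℝ) (P : Finset V → Prop)
    (B Y0 : Finset V) (hB : B ⊆ C) (hBc : Conn G B) (hBP : P B) (hY : Y0 ⊆ B) (hYi : Indep G Y0)
    (hYz : ∑ v ∈ B, z v ≤ 2 * ∑ v ∈ Y0, z v) :
    ∃ X Y : Finset V, X ⊆ C ∧ Conn G X ∧ P X ∧ Y ⊆ X ∧ Indep G Y ∧
      ∑ v ∈ X, z v ≤ 2 * ∑ v ∈ Y, z v ∧
      ∀ X' Y' : Finset V, X' ⊆ C → Conn G X' → P X' → Y' ⊆ X' → Indep G Y' → X.card < X'.card →
        2 * ∑ v ∈ Y', z v - ∑ v ∈ X', z v < 2 * ∑ v ∈ Y, z v - ∑ v ∈ X, z v := by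
  classical
  have hne : ((univ : Finset (Finset V × Finset V)).filter (fun q => q.1 ⊆ C ∧ Conn G q.1 ∧
      P q.1 ∧ q.2 ⊆ q.1 ∧ Indep G q.2)).Nonempty :=
    ⟨(B, Y0), by
      rw [Finset.mem_filter]
      exact ⟨Finset.mem_univ _, hB, hBc, hBP, hY, hYi⟩⟩
  obtain ⟨q, hq, hmax⟩ := Finset.exists_max_image _
    (fun q : Finset V × Finset V => toLex (2 * ∑ v ∈ q.2, z v - ∑ v ∈ q.1, z v, q.1.card)) hne
  rw [Finset.mem_filter] at hq
  obtain ⟨-, h1, h2, h3, h4, h5⟩ := hq
  refine ⟨q.1, q.2, h1, h2, h3, h4, h5, ?_, ?_⟩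
  · have h6 := hmax (B, Y0) (by
      rw [Finset.mem_filter]
      exact ⟨Finset.mem_univ _, hB, hBc, hBP, hY, hYi⟩)
    rw [Prod.Lex.toLex_le_toLex] at h6
    rcases h6 with h6 | ⟨h6, -⟩
    · simp only at h6
      linarith
    · simp only at h6
      linarith
  · intro X' Y' g1 g2 g3 g4 g5 g6
    have h6 := hmax (X', Y') (by
      rw [Finset.mem_filter]
      exact ⟨Finset.mem_univ _, g1, g2, g3, g4, g5⟩)
    rw [Prod.Lex.toLex_le_toLex] at h6
    rcases h6 with h6 | ⟨-, h6⟩
    · exact h6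
    · simp only at h6
      omega

/-- A family of connected, pairwise disjoint and touching sets is a model. -/
theorem model_of (G : SimpleGraph V) (S : Finset V) (K : Finset (Finset V))
    (hc : ∀ A ∈ K, Conn G A) (hs : ∀ A ∈ K, A ⊆ S)
    (hd : ∀ A ∈ K, ∀ B ∈ K, A ≠ B → Disjoint A B)
    (ht : ∀ A ∈ K, ∀ B ∈ K, A ≠ B → Touch G A B) (t : ℕ) (hk : t ≤ K.card) :
    HasModel G S t := by
  classical
  have hinj : ∀ i j : Fin t, i ≠ j →
      ((K.equivFin.symm (Fin.castLE hk i)) : Finset V) ≠ (K.equivFin.symm (Fin.castLE hk j)) := by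
    intro i j hij h
    apply hij
    have h1 := K.equivFin.symm.injective (Subtype.ext h)
    exact Fin.castLE_injective hk h1
  refine ⟨fun i => ((K.equivFin.symm (Fin.castLE hk i)) : Finset V), ?_, ?_, ?_, ?_⟩
  · intro i
    exact hs _ (K.equivFin.symm (Fin.castLE hk i)).2
  · intro i
    exact hc _ (K.equivFin.symm (Fin.castLE hk i)).2
  · intro i j hij
    exact hd _ (K.equivFin.symm (Fin.castLE hk i)).2 _ (K.equivFin.symm (Fin.castLE hk j)).2
      (hinj i j hij)
  · intro i j hij
    exact ht _ (K.equivFin.symm (Fin.castLE hk i)).2 _ (K.equivFin.symm (Fin.castLE hk j)).2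
      (hinj i j hij)

/-- The state of the decomposition: `F` is the family of the sets chosen so far, `U` the set of
the remaining vertices. -/
structure St (G : SimpleGraph V) (S U : Finset V) (t : ℕ) (z : V → ℝ) (F : Finset (Finset V))
    (Y : Finset V → Finset V) (c : Finset V → ℕ) : Prop where
  US : U ⊆ S
  conn : ∀ A ∈ F, Conn G A
  sub : ∀ A ∈ F, A ⊆ S
  disjU : ∀ A ∈ F, Disjoint A U
  disj : ∀ A ∈ F, ∀ B ∈ F, A ≠ B → Disjoint A B
  cover : ∀ v ∈ S, v ∈ U ∨ ∃ A ∈ F, v ∈ A
  Ysub : ∀ A ∈ F, Y A ⊆ A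
  Yind : ∀ A ∈ F, Indep G (Y A)
  Yz : ∀ A ∈ F, ∑ v ∈ A, z v ≤ 2 * ∑ v ∈ Y A, z v
  clt : ∀ A ∈ F, c A < t
  cne : ∀ A ∈ F, ∀ B ∈ F, A ≠ B → Touch G A B → c A ≠ c B
  tch : ∀ C ⊆ U, Conn G C → ∀ A ∈ F, ∀ B ∈ F, A ≠ B → Touch G A C → Touch G B C → Touch G A B
  alt : ∀ A ∈ F, ∀ (p : ℕ → V) (s : ℕ), IndPath G p s → (∀ u ≤ s, p u ∈ U) → Touch G A {p 0} →
    (∀ u ≤ s, 1 ≤ u → ¬ Touch G A {p u}) → 0 < ∑ i ∈ range (s + 1), (-1 : ℝ) ^ i * z (p i)

theorem indPath_rev {G : SimpleGraph V} {p : ℕ → V} {s : ℕ} (h : IndPath G p s) :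
    IndPath G (fun u => p (s - u)) s := by
  refine ⟨fun i hi j hj => ?_, fun i hi j hj hij => ?_⟩
  · rw [h.1 (s - i) (by omega) (s - j) (by omega)]
    omega
  · have := h.2 (s - i) (by omega) (s - j) (by omega) hij
    omega

theorem parity {G : SimpleGraph V} {S U : Finset V} {t : ℕ} {z : V → ℝ} {F : Finset (Finset V)}
    {Y : Finset V → Finset V} {c : Finset V → ℕ} (h : St G S U t z F Y c) {A B : Finset V}
    (hA : A ∈ F) (hB : B ∈ F) (p : ℕ → V) (s : ℕ) (hp : IndPath G p s) (hpU : ∀ u ≤ s, p u ∈ U)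
    (h1 : ∀ u ≤ s, (p u ∈ nb G A ↔ u = 0)) (h2 : ∀ u ≤ s, (p u ∈ nb G B ↔ u = s)) :
    Even s := by
  by_contra hs
  rw [Nat.not_even_iff_odd] at hs
  have e1 := h.alt A hA p s hp hpU (mem_nb_iff.mp ((h1 0 (Nat.zero_le _)).mpr rfl))
    (fun u hu hu1 ht => by
      have := (h1 u hu).mp (mem_nb_iff.mpr ht)
      omega)
  have e2 := h.alt B hB (fun u => p (s - u)) s (indPath_rev hp) (fun u _ => hpU _ (by omega))
    (mem_nb_iff.mp ((h2 (s - 0) (by omega)).mpr (by omega)))
    (fun u hu hu1 ht => by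
      have := (h2 (s - u) (by omega)).mp (mem_nb_iff.mpr ht)
      omega)
  have e3 : ∑ i ∈ range (s + 1), (-1 : ℝ) ^ i * z (p (s - i)) =
      ∑ j ∈ range (s + 1), (-1 : ℝ) ^ (s - j) * z (p j) := by
    rw [← Finset.sum_range_reflect]
    refine Finset.sum_congr rfl fun j hj => ?_
    rw [Finset.mem_range] at hj
    have g1 : s + 1 - 1 - j = s - j := by omega
    have g2 : s - (s - j) = j := by omega
    rw [g1, g2]
  have e4 : ∀ j ∈ range (s + 1), (-1 : ℝ) ^ (s - j) * z (p j) = - ((-1 : ℝ) ^ j * z (p j)) := by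
    intro j hj
    rw [Finset.mem_range] at hj
    have g1 : (-1 : ℝ) ^ (s - j) = - (-1 : ℝ) ^ j := by
      rcases Nat.even_or_odd j with g | g
      · have g2 : Odd (s - j) := Nat.Odd.sub_even (by omega) hs g
        rw [g2.neg_one_pow, g.neg_one_pow]
      · have g2 : Even (s - j) := Nat.Odd.sub_odd hs g
        rw [g2.neg_one_pow, g.neg_one_pow]
        norm_num
    rw [g1]
    ring
  rw [e3, Finset.sum_congr rfl e4, Finset.sum_neg_distrib] at e2
  linarith

/-- Extension of a pair by an induced path. -/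
theorem extend {G : SimpleGraph V} {X Y : Finset V} {z : V → ℝ} (hX : Conn G X) (hYX : Y ⊆ X)
    (hY : Indep G Y) {p : ℕ → V} {s : ℕ} (hp : IndPath G p s) (hpX : ∀ u ≤ s, p u ∉ X)
    (h0 : Touch G X {p 0}) (h1 : ∀ u ≤ s, 1 ≤ u → ¬ Touch G X {p u}) :
    ∃ X' Y' : Finset V, X' = X ∪ (range (s + 1)).image p ∧ Conn G X' ∧ Y' ⊆ X' ∧ Indep G Y' ∧
      X.card < X'.card ∧
      2 * ∑ v ∈ Y', z v - ∑ v ∈ X', z v =
        2 * ∑ v ∈ Y, z v - ∑ v ∈ X, z v - ∑ i ∈ range (s + 1), (-1 : ℝ) ^ i * z (p i) := by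
  classical
  have hconn : ∀ k ≤ s, Conn G (X ∪ (range (k + 1)).image p) := by
    intro k
    induction k with
    | zero =>
      intro _
      obtain ⟨a, ha, b, hb, hab⟩ := h0
      have e : (range (0 + 1)).image p = {p 0} := by simp
      rw [e]
      exact MengerAux.conn_union_adj hX (MengerAux.conn_singleton G (p 0)) ha hb hab
    | succ k ih =>
      intro hk
      have h2 := ih (by omega)
      have e : X ∪ (range (k + 1 + 1)).image p = (X ∪ (range (k + 1)).image p) ∪ {p (k + 1)} := by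
        rw [Finset.range_add_one (n := k + 1), Finset.image_insert]
        ext v
        simp only [Finset.mem_union, Finset.mem_insert, Finset.mem_singleton]
        tauto
      rw [e]
      have h3 : G.Adj (p k) (p (k + 1)) :=
        (hp.1 k (by omega) (k + 1) hk).mpr (Or.inl rfl)
      refine MengerAux.conn_union_adj h2 (MengerAux.conn_singleton G (p (k + 1)))
        (Finset.mem_union_right _ (Finset.mem_image_of_mem p ?_)) (Finset.mem_singleton_self _) h3
      rw [Finset.mem_range]
      omega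
  have hinj : Set.InjOn p (range (s + 1) : Finset ℕ) := by
    intro i hi j hj hij
    rw [Finset.mem_coe, Finset.mem_range] at hi hj
    exact hp.2 i (by omega) j (by omega) hij
  have hdisj : Disjoint X ((range (s + 1)).image p) := by
    rw [Finset.disjoint_left]
    intro v hv hv'
    rw [Finset.mem_image] at hv'
    obtain ⟨i, hi, rfl⟩ := hv'
    rw [Finset.mem_range] at hi
    exact hpX i (by omega) hv
  have hodd : ((range (s + 1)).filter (fun i => Odd i)) ⊆ range (s + 1) :=
    Finset.filter_subset _ _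
  have hinj' : Set.InjOn p ((range (s + 1)).filter (fun i => Odd i) : Finset ℕ) :=
    hinj.mono (fun i hi => by
      rw [Finset.mem_coe] at hi ⊢
      exact hodd hi)
  have hdisj' : Disjoint Y (((range (s + 1)).filter (fun i => Odd i)).image p) :=
    Finset.disjoint_of_subset_left hYX
      (Finset.disjoint_of_subset_right (Finset.image_subset_image hodd) hdisj)
  refine ⟨X ∪ (range (s + 1)).image p, Y ∪ ((range (s + 1)).filter (fun i => Odd i)).image p,
    rfl, hconn s le_rfl, ?_, ?_, ?_, ?_⟩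
  · exact Finset.union_subset_union hYX (Finset.image_subset_image hodd)
  · have key : ∀ i ≤ s, Odd i → ∀ a ∈ Y, ¬ G.Adj a (p i) := by
      intro i hi hio a ha hai
      exact h1 i hi hio.pos ⟨a, hYX ha, p i, Finset.mem_singleton_self _, hai⟩
    intro a ha b hb hab
    rw [Finset.mem_union, Finset.mem_image] at ha hb
    rcases ha with ha | ⟨i, hi, rfl⟩ <;> rcases hb with hb | ⟨j, hj, rfl⟩
    · exact hY a ha b hb hab
    · rw [Finset.mem_filter, Finset.mem_range] at hj
      exact key j (by omega) hj.2 a ha hab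
    · rw [Finset.mem_filter, Finset.mem_range] at hi
      exact key i (by omega) hi.2 b hb hab.symm
    · rw [Finset.mem_filter, Finset.mem_range] at hi hj
      have h3 := (hp.1 i (by omega) j (by omega)).mp hab
      obtain ⟨a, ha⟩ := hi.2
      obtain ⟨b, hb⟩ := hj.2
      omega
  · rw [Finset.card_union_of_disjoint hdisj, Finset.card_image_of_injOn hinj, Finset.card_range]
    omega
  · rw [Finset.sum_union hdisj, Finset.sum_union hdisj', Finset.sum_image hinj,
      Finset.sum_image hinj']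
    have e : ∑ i ∈ range (s + 1), (-1 : ℝ) ^ i * z (p i) =
        ∑ i ∈ range (s + 1), z (p i) -
          2 * ∑ i ∈ (range (s + 1)).filter (fun i => Odd i), z (p i) := by
      rw [Finset.sum_filter, Finset.mul_sum, ← Finset.sum_sub_distrib]
      refine Finset.sum_congr rfl fun i _ => ?_
      by_cases hi : Odd i
      · rw [hi.neg_one_pow, if_pos hi]
        ring
      · rw [Nat.not_odd_iff_even] at hi
        rw [hi.neg_one_pow, if_neg (Nat.not_odd_iff_even.mpr hi)]
        ring
    rw [e]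
    ring

theorem step {G : SimpleGraph V} {S U : Finset V} {t : ℕ} {z : V → ℝ} {F : Finset (Finset V)}
    {Y : Finset V → Finset V} {c : Finset V → ℕ} (h : St G S U t z F Y c) (hU : U.Nonempty)
    (hG : ¬ HasModel G S t) :
    ∃ (U' : Finset V) (F' : Finset (Finset V)) (Y' : Finset V → Finset V) (c' : Finset V → ℕ),
      U'.card < U.card ∧ St G S U' t z F' Y' c' := by
  classical
  obtain ⟨C, hCU, hCc, hCmax⟩ := exists_comp G U hU
  set J : Finset (Finset V) := F.filter (fun A => Touch G A C) with hJ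
  have hJF : ∀ A ∈ J, A ∈ F := fun A hA => (Finset.mem_filter.mp hA).1
  have hJT : ∀ A ∈ J, Touch G A C := fun A hA => (Finset.mem_filter.mp hA).2
  have hCne : C.Nonempty := by
    obtain ⟨⟨v, hv⟩⟩ := hCc.nonempty
    exact ⟨v, hv⟩
  have hCJ : C ∉ J := by
    intro hC
    have h1 := h.disjU C (hJF C hC)
    obtain ⟨v, hv⟩ := hCne
    exact Finset.disjoint_left.mp h1 hv (hCU hv)
  -- a free colour
  have hJcard : J.card < t := by
    by_contra hlt
    push Not at hlt
    apply hG
    refine model_of G S (insert C J) ?_ ?_ ?_ ?_ t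
      (by rw [Finset.card_insert_of_notMem hCJ]; omega)
    · intro A hA
      rcases Finset.mem_insert.mp hA with rfl | hA
      · exact hCc
      · exact h.conn A (hJF A hA)
    · intro A hA
      rcases Finset.mem_insert.mp hA with rfl | hA
      · exact hCU.trans h.US
      · exact h.sub A (hJF A hA)
    · intro A hA B hB hAB
      rcases Finset.mem_insert.mp hA with rfl | hA <;> rcases Finset.mem_insert.mp hB with rfl | hB
      · exact absurd rfl hAB
      · exact (Finset.disjoint_of_subset_right hCU (h.disjU B (hJF B hB))).symm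
      · exact Finset.disjoint_of_subset_right hCU (h.disjU A (hJF A hA))
      · exact h.disj A (hJF A hA) B (hJF B hB) hAB
    · intro A hA B hB hAB
      rcases Finset.mem_insert.mp hA with rfl | hA <;> rcases Finset.mem_insert.mp hB with rfl | hB
      · exact absurd rfl hAB
      · exact (hJT B hB).symm
      · exact hJT A hA
      · exact h.tch C hCU hCc A (hJF A hA) B (hJF B hB) hAB (hJT A hA) (hJT B hB)
  obtain ⟨κ, hκt, hκ⟩ : ∃ κ ∈ range t, κ ∉ J.image c := by
    apply Finset.exists_mem_notMem_of_card_lt_card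
    rw [Finset.card_range]
    exact lt_of_le_of_lt Finset.card_image_le hJcard
  rw [Finset.mem_range] at hκt
  -- the bipartite transversal
  obtain ⟨B, hBC, hBc, hBN, hB2⟩ := exists_bip G C hCc J (fun A => nb G A)
    (by
      intro A hA
      obtain ⟨a, ha, b, hb, hab⟩ := hJT A hA
      exact ⟨b, Finset.mem_inter.mpr ⟨mem_nb.mpr ⟨a, ha, hab⟩, hb⟩⟩)
    (by
      intro A hA A' hA' _ p s hp hpC h1 h2
      exact parity h (hJF A hA) (hJF A' hA') p s hp (fun u hu => hCU (hpC u hu)) h1 h2)
  obtain ⟨Y0, hY0, hY0i, hY0z⟩ := half G B z hB2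
  obtain ⟨X, Y1, hXC, hXc, hXP, hYX, hYi, hYz, hopt⟩ := exists_opt G C z
    (fun X => ∀ A ∈ J, (nb G A ∩ X).Nonempty) B Y0 hBC hBc hBN hY0 hY0i hY0z
  have hXU : X ⊆ U := hXC.trans hCU
  have hXne : X.Nonempty := by
    obtain ⟨⟨v, hv⟩⟩ := hXc.nonempty
    exact ⟨v, hv⟩
  have hXF : X ∉ F := by
    intro hX
    have h1 := h.disjU X hX
    obtain ⟨v, hv⟩ := hXne
    exact Finset.disjoint_left.mp h1 hv (hXU hv)
  have hne : ∀ A ∈ F, A ≠ X := fun A hA hAX => hXF (hAX ▸ hA)
  have hTX : ∀ A ∈ F, Touch G A X → A ∈ J := fun A hA hT =>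
    Finset.mem_filter.mpr ⟨hA, hT.mono (Finset.Subset.refl _) hXC⟩
  have hXJ : ∀ A ∈ J, Touch G A X := by
    intro A hA
    obtain ⟨v, hv⟩ := hXP A hA
    rw [Finset.mem_inter, mem_nb] at hv
    obtain ⟨⟨a, ha, hav⟩, hvX⟩ := hv
    exact ⟨a, ha, v, hvX, hav⟩
  refine ⟨U \ X, insert X F, Function.update Y X Y1, Function.update c X κ, ?_, ?_⟩
  · refine Finset.card_lt_card ?_
    rw [Finset.ssubset_iff_of_subset Finset.sdiff_subset]
    obtain ⟨v, hv⟩ := hXne
    exact ⟨v, hXU hv, fun h1 => (Finset.mem_sdiff.mp h1).2 hv⟩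
  · refine ⟨?_, ?_, ?_, ?_, ?_, ?_, ?_, ?_, ?_, ?_, ?_, ?_, ?_⟩
    · exact Finset.sdiff_subset.trans h.US
    · intro A hA
      rcases Finset.mem_insert.mp hA with rfl | hA
      · exact hXc
      · exact h.conn A hA
    · intro A hA
      rcases Finset.mem_insert.mp hA with rfl | hA
      · exact hXU.trans h.US
      · exact h.sub A hA
    · intro A hA
      rcases Finset.mem_insert.mp hA with rfl | hA
      · exact Finset.disjoint_sdiff
      · exact Finset.disjoint_of_subset_right Finset.sdiff_subset (h.disjU A hA)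
    · intro A hA A' hA' hAA'
      rcases Finset.mem_insert.mp hA with rfl | gA <;>
        rcases Finset.mem_insert.mp hA' with rfl | gA'
      · exact absurd rfl hAA'
      · exact (Finset.disjoint_of_subset_right hXU (h.disjU A' gA')).symm
      · exact Finset.disjoint_of_subset_right hXU (h.disjU A gA)
      · exact h.disj A gA A' gA' hAA'
    · intro v hv
      rcases h.cover v hv with h1 | ⟨A, hA, hvA⟩
      · by_cases hvX : v ∈ X
        · exact Or.inr ⟨X, Finset.mem_insert_self _ _, hvX⟩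
        · exact Or.inl (Finset.mem_sdiff.mpr ⟨h1, hvX⟩)
      · exact Or.inr ⟨A, Finset.mem_insert_of_mem hA, hvA⟩
    · intro A hA
      rcases Finset.mem_insert.mp hA with rfl | hA
      · rw [Function.update_self]
        exact hYX
      · rw [Function.update_of_ne (hne A hA)]
        exact h.Ysub A hA
    · intro A hA
      rcases Finset.mem_insert.mp hA with rfl | hA
      · rw [Function.update_self]
        exact hYi
      · rw [Function.update_of_ne (hne A hA)]
        exact h.Yind A hA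
    · intro A hA
      rcases Finset.mem_insert.mp hA with rfl | hA
      · rw [Function.update_self]
        exact hYz
      · rw [Function.update_of_ne (hne A hA)]
        exact h.Yz A hA
    · intro A hA
      rcases Finset.mem_insert.mp hA with rfl | hA
      · rw [Function.update_self]
        exact hκt
      · rw [Function.update_of_ne (hne A hA)]
        exact h.clt A hA
    · intro A hA A' hA' hAA' hT
      rcases Finset.mem_insert.mp hA with rfl | gA <;>
        rcases Finset.mem_insert.mp hA' with rfl | gA'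
      · exact absurd rfl hAA'
      · rw [Function.update_self, Function.update_of_ne (hne A' gA')]
        intro h1
        exact hκ (Finset.mem_image.mpr ⟨A', hTX A' gA' hT.symm, h1.symm⟩)
      · rw [Function.update_self, Function.update_of_ne (hne A gA)]
        intro h1
        exact hκ (Finset.mem_image.mpr ⟨A, hTX A gA hT, h1⟩)
      · rw [Function.update_of_ne (hne A gA), Function.update_of_ne (hne A' gA')]
        exact h.cne A gA A' gA' hAA' hT
    · intro D hD hDc A hA A' hA' hAA' hT hT'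
      have hDU : D ⊆ U := hD.trans Finset.sdiff_subset
      have key : ∀ A ∈ F, Touch G A D → Touch G X D → Touch G A X := by
        intro A hA h1 h2
        have h3 : D ⊆ C := hCmax D hDU hDc (Or.inl (h2.symm.mono (Finset.Subset.refl _) hXC))
        exact hXJ A (Finset.mem_filter.mpr ⟨hA, h1.mono (Finset.Subset.refl _) h3⟩)
      rcases Finset.mem_insert.mp hA with rfl | gA <;>
        rcases Finset.mem_insert.mp hA' with rfl | gA'
      · exact absurd rfl hAA'
      · exact (key A' gA' hT' hT).symm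
      · exact key A gA hT hT'
      · exact h.tch D hDU hDc A gA A' gA' hAA' hT hT'
    · intro A hA p s hp hpU h0 h1
      rcases Finset.mem_insert.mp hA with rfl | hA
      · have hpX : ∀ u ≤ s, p u ∉ A := fun u hu => (Finset.mem_sdiff.mp (hpU u hu)).2
        obtain ⟨X', Y', hX', g1, g2, g3, g4, g5⟩ := extend (z := z) hXc hYX hYi hp hpX h0 h1
        have hX'U : X' ⊆ U := by
          rw [hX']
          refine Finset.union_subset hXU ?_
          intro v hv
          rw [Finset.mem_image] at hv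
          obtain ⟨i, hi, rfl⟩ := hv
          rw [Finset.mem_range] at hi
          exact (Finset.mem_sdiff.mp (hpU i (by omega))).1
        have hX'C : X' ⊆ C := by
          refine hCmax X' hX'U g1 (Or.inr ?_)
          obtain ⟨v, hv⟩ := hXne
          exact ⟨v, hX' ▸ Finset.mem_union_left _ hv, hXC hv⟩
        have hX'P : ∀ B ∈ J, (nb G B ∩ X').Nonempty := by
          intro B hB
          obtain ⟨v, hv⟩ := hXP B hB
          rw [Finset.mem_inter] at hv
          exact ⟨v, Finset.mem_inter.mpr ⟨hv.1, hX' ▸ Finset.mem_union_left _ hv.2⟩⟩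
        have g6 := hopt X' Y' hX'C g1 hX'P g2 g3 g4
        rw [g5] at g6
        linarith
      · exact h.alt A hA p s hp (fun u hu => (Finset.mem_sdiff.mp (hpU u hu)).1) h0 h1

theorem final {G : SimpleGraph V} {S : Finset V} {t : ℕ} (ht : 1 ≤ t) {z : V → ℝ}
    {F : Finset (Finset V)} {Y : Finset V → Finset V} {c : Finset V → ℕ}
    (h : St G S ∅ t z F Y c) :
    ∃ I ⊆ S, Indep G I ∧ ∑ v ∈ S, z v ≤ 2 * t * ∑ v ∈ I, z v := by
  classical
  have hdisjY : ∀ A ∈ F, ∀ B ∈ F, A ≠ B → Disjoint (Y A) (Y B) := fun A hA B hB hAB =>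
    Finset.disjoint_of_subset_left (h.Ysub A hA)
      (Finset.disjoint_of_subset_right (h.Ysub B hB) (h.disj A hA B hB hAB))
  have hS : S = F.biUnion (fun A => A) := by
    ext v
    rw [Finset.mem_biUnion]
    constructor
    · intro hv
      rcases h.cover v hv with h1 | ⟨A, hA, hvA⟩
      · exact absurd h1 (Finset.notMem_empty v)
      · exact ⟨A, hA, hvA⟩
    · rintro ⟨A, hA, hvA⟩
      exact h.sub A hA hvA
  have hSz : ∑ v ∈ S, z v ≤ 2 * ∑ A ∈ F, ∑ v ∈ Y A, z v := by
    rw [hS, Finset.sum_biUnion (fun A hA B hB hAB => h.disj A hA B hB hAB), Finset.mul_sum]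
    exact Finset.sum_le_sum fun A hA => h.Yz A hA
  have hfib : ∑ κ ∈ range t, ∑ A ∈ F.filter (fun A => c A = κ), ∑ v ∈ Y A, z v =
      ∑ A ∈ F, ∑ v ∈ Y A, z v :=
    Finset.sum_fiberwise_of_maps_to (fun A hA => Finset.mem_range.mpr (h.clt A hA)) _
  have hI : ∀ κ, ∑ v ∈ (F.filter (fun A => c A = κ)).biUnion Y, z v =
      ∑ A ∈ F.filter (fun A => c A = κ), ∑ v ∈ Y A, z v := by
    intro κ
    rw [Finset.sum_biUnion]
    intro A hA B hB hAB
    rw [Finset.mem_coe, Finset.mem_filter] at hA hB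
    exact hdisjY A hA.1 B hB.1 hAB
  by_contra hcon
  push Not at hcon
  have hall : ∀ κ ∈ range t,
      2 * (t : ℝ) * ∑ A ∈ F.filter (fun A => c A = κ), ∑ v ∈ Y A, z v < ∑ v ∈ S, z v := by
    intro κ _
    rw [← hI κ]
    refine hcon _ ?_ ?_
    · intro v hv
      rw [Finset.mem_biUnion] at hv
      obtain ⟨A, hA, hvA⟩ := hv
      rw [Finset.mem_filter] at hA
      exact h.sub A hA.1 (h.Ysub A hA.1 hvA)
    · intro a ha b hb hab
      rw [Finset.mem_biUnion] at ha hb
      obtain ⟨A, hA, haA⟩ := ha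
      obtain ⟨B, hB, hbB⟩ := hb
      rw [Finset.mem_filter] at hA hB
      by_cases hAB : A = B
      · subst hAB
        exact h.Yind A hA.1 a haA b hbB hab
      · exact h.cne A hA.1 B hB.1 hAB
          ⟨a, h.Ysub A hA.1 haA, b, h.Ysub B hB.1 hbB, hab⟩ (hA.2.trans hB.2.symm)
  have hne : (range t).Nonempty := ⟨0, Finset.mem_range.mpr (by omega)⟩
  have hsum := Finset.sum_lt_sum_of_nonempty hne hall
  rw [← Finset.mul_sum, hfib, Finset.sum_const, Finset.card_range, nsmul_eq_mul] at hsum
  have ht0 : (0 : ℝ) ≤ t := Nat.cast_nonneg t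
  nlinarith [mul_le_mul_of_nonneg_left hSz ht0]

end RSb

/-- ROW RSb (Reed and Seymour: fractional chromatic number at most `2 t`). -/
theorem reed_seymour (G : SimpleGraph V) (S : Finset V) (t : ℕ) (ht : 1 ≤ t)
    (hG : ¬ HasModel G S t) (z : V → ℝ) (hz : ∀ v, 0 ≤ z v) :
    ∃ I ⊆ S, Indep G I ∧ ∑ v ∈ S, z v ≤ 2 * t * ∑ v ∈ I, z v := by
  classical
  have key : ∀ (n : ℕ) (U : Finset V) (F : Finset (Finset V)) (Y : Finset V → Finset V)
      (c : Finset V → ℕ), U.card ≤ n → RSb.St G S U t z F Y c →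
      ∃ I ⊆ S, Indep G I ∧ ∑ v ∈ S, z v ≤ 2 * t * ∑ v ∈ I, z v := by
    intro n
    induction n with
    | zero =>
      intro U F Y c hU h
      have h1 : U = ∅ := Finset.card_eq_zero.mp (by omega)
      subst h1
      exact RSb.final ht h
    | succ n ih =>
      intro U F Y c hU h
      rcases U.eq_empty_or_nonempty with h1 | h1
      · subst h1
        exact RSb.final ht h
      · obtain ⟨U', F', Y', c', h2, h3⟩ := RSb.step h h1 hG
        exact ih U' F' Y' c' (by omega) h3
  refine key S.card S ∅ (fun A => A) (fun _ => 0) le_rfl ?_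
  exact
    { US := Finset.Subset.refl _
      conn := fun A hA => absurd hA (Finset.notMem_empty A)
      sub := fun A hA => absurd hA (Finset.notMem_empty A)
      disjU := fun A hA => absurd hA (Finset.notMem_empty A)
      disj := fun A hA => absurd hA (Finset.notMem_empty A)
      cover := fun v hv => Or.inl hv
      Ysub := fun A hA => absurd hA (Finset.notMem_empty A)
      Yind := fun A hA => absurd hA (Finset.notMem_empty A)
      Yz := fun A hA => absurd hA (Finset.notMem_empty A)
      clt := fun A hA => absurd hA (Finset.notMem_empty A)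
      cne := fun A hA => absurd hA (Finset.notMem_empty A)
      tch := fun _ _ _ A hA => absurd hA (Finset.notMem_empty A)
      alt := fun A hA => absurd hA (Finset.notMem_empty A) }

end Vale.Agent.P060
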