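import Mathlib
import Vale.Agent.P060.Lin.LinDefs
import Vale.Agent.P060.Lin.RSb
import Vale.Agent.P060.Lin.Conc
import Vale.Agent.P060.Lin.MW

/-!
P060, linear bound, row STAR: many disjoint subsets of large chromatic number
(Reed and Seymour, multiplicative weights, Kalton and Roberts).
-/

namespace Vale.Agent.P060

open Finset

variable {V : Type} [Fintype V] [DecidableEq V]

namespace StarAux

/-- removing `s` independent sets greedily -/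
theorem greedy (G : SimpleGraph V) (S : Finset V) (t : ℕ) (ht : 1 ≤ t)
    (hRS : ∀ U ⊆ S, ∀ w : V → ℝ, (∀ v, 0 ≤ w v) →
      ∃ I ⊆ U, Indep G I ∧ ∑ v ∈ U, w v ≤ 2 * t * ∑ v ∈ I, w v)
    (w : V → ℝ) (hw : ∀ v, 0 ≤ w v) (s : ℕ) :
    ∃ U ⊆ S, (∑ v ∈ U, w v ≤ (1 - 1 / (2 * (t : ℝ))) ^ s * ∑ v ∈ S, w v) ∧
      ∀ h, Col G U h → Col G S (h + s) := by
  have ht' : (0 : ℝ) < t := by exact_mod_cast ht
  have hr0 : (0 : ℝ) ≤ 1 - 1 / (2 * (t : ℝ)) := by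
    have h1 : (1 : ℝ) ≤ t := by exact_mod_cast ht
    have : 1 / (2 * (t : ℝ)) ≤ 1 := by
      rw [div_le_one (by positivity)]; linarith
    linarith
  induction s with
  | zero => exact ⟨S, subset_rfl, by simp, fun h hh => by simpa using hh⟩
  | succ s ih =>
    obtain ⟨U, hU, h1, h2⟩ := ih
    obtain ⟨I, hI, hind, h3⟩ := hRS U hU w hw
    refine ⟨U \ I, sdiff_subset.trans hU, ?_, ?_⟩
    · have e : ∑ v ∈ U \ I, w v = ∑ v ∈ U, w v - ∑ v ∈ I, w v := by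
        rw [← Finset.sum_sdiff hI]; ring
      rw [e, pow_succ]
      have h4 : 1 / (2 * (t : ℝ)) * ∑ v ∈ U, w v ≤ ∑ v ∈ I, w v := by
        rw [div_mul_eq_mul_div, one_mul, div_le_iff₀ (by positivity)]
        linarith
      calc ∑ v ∈ U, w v - ∑ v ∈ I, w v ≤ (1 - 1 / (2 * (t : ℝ))) * ∑ v ∈ U, w v := by linarith
        _ ≤ (1 - 1 / (2 * (t : ℝ))) * ((1 - 1 / (2 * (t : ℝ))) ^ s * ∑ v ∈ S, w v) :=
            mul_le_mul_of_nonneg_left h1 hr0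
        _ = _ := by ring
    · intro h hh
      have h5 : Col G U (h + 1) :=
        (hh.union (Col.indep hind)).mono (by
          intro v hv
          by_cases hvI : v ∈ I
          · exact mem_union_right _ hvI
          · exact mem_union_left _ (mem_sdiff.mpr ⟨hv, hvI⟩)) le_rfl
      have := h2 _ h5
      rwa [show h + (s + 1) = h + 1 + s by ring]

theorem pow_le_inv (t L Q : ℕ) (ht : 1 ≤ t) (hL : Q ≤ 2 ^ L) :
    (1 - 1 / (2 * (t : ℝ))) ^ (2 * t * L) * Q ≤ 1 := by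
  have ht' : (0 : ℝ) < t := by exact_mod_cast ht
  have hr0 : (0 : ℝ) ≤ 1 - 1 / (2 * (t : ℝ)) := by
    have h1 : (1 : ℝ) ≤ t := by exact_mod_cast ht
    have : 1 / (2 * (t : ℝ)) ≤ 1 := by
      rw [div_le_one (by positivity)]; linarith
    linarith
  have h1 : (1 - 1 / (2 * (t : ℝ))) ^ (2 * t) ≤ 1 / 2 := by
    have e1 : 1 - 1 / (2 * (t : ℝ)) ≤ Real.exp (-(1 / (2 * (t : ℝ)))) := by
      have := Real.add_one_le_exp (-(1 / (2 * (t : ℝ)))); linarith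
    have e2 : (1 - 1 / (2 * (t : ℝ))) ^ (2 * t) ≤ Real.exp (-(1 / (2 * (t : ℝ)))) ^ (2 * t) :=
      pow_le_pow_left₀ hr0 e1 _
    have e3 : Real.exp (-(1 / (2 * (t : ℝ)))) ^ (2 * t) = Real.exp (-1) := by
      rw [← Real.exp_nat_mul]; congr 1; push_cast; field_simp
    have e4 : Real.exp (-1) ≤ 1 / 2 := by
      rw [Real.exp_neg, ← one_div]
      apply one_div_le_one_div_of_le (by norm_num)
      have := Real.add_one_le_exp (1 : ℝ); linarith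
    rw [e3] at e2
    exact e2.trans e4
  have h2 : (1 - 1 / (2 * (t : ℝ))) ^ (2 * t * L) ≤ (1 / 2) ^ L := by
    rw [pow_mul]
    exact pow_le_pow_left₀ (pow_nonneg hr0 _) h1 _
  have hQ' : (Q : ℝ) ≤ 2 ^ L := by exact_mod_cast hL
  calc (1 - 1 / (2 * (t : ℝ))) ^ (2 * t * L) * Q ≤ (1 / 2) ^ L * 2 ^ L :=
        mul_le_mul h2 hQ' (by positivity) (by positivity)
    _ = 1 := by rw [← mul_pow]; norm_num

theorem pow_bound (q : ℕ) : 72 * q ^ 2 ≤ 2 ^ (8 + 2 * q) := by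
  have h : q ^ 2 ≤ 2 ^ (2 * q) := by
    rw [mul_comm 2 q, pow_mul]
    exact Nat.pow_le_pow_left (Nat.lt_two_pow_self).le 2
  rw [pow_add]
  calc 72 * q ^ 2 ≤ 2 ^ 8 * q ^ 2 := Nat.mul_le_mul_right _ (by norm_num)
    _ ≤ 2 ^ 8 * 2 ^ (2 * q) := Nat.mul_le_mul_left _ h

end StarAux

/-- ROW STAR, from the Reed and Seymour bound. -/
theorem star_of_rs (G : SimpleGraph V) (S : Finset V) (t q h : ℕ) (ht : 1 ≤ t) (hq : 1 ≤ q)
    (hRS : ∀ U ⊆ S, ∀ w : V → ℝ, (∀ v, 0 ≤ w v) →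
      ∃ I ⊆ U, Indep G I ∧ ∑ v ∈ U, w v ≤ 2 * t * ∑ v ∈ I, w v)
    (hc : ¬ Col G S (3 * h + 2 * t * (8 + 2 * q))) :
    ∃ W : Fin q → Finset V, (∀ i, W i ⊆ S) ∧ (∀ i j, i ≠ j → Disjoint (W i) (W j)) ∧
      ∀ i, ¬ Col G (W i) h := by
  classical
  let F : Finset V → Prop := fun W => W ⊆ S ∧ ¬ Col G W (3 * h)
  have hF : ∀ w : V → ℝ, (∀ v, 0 ≤ w v) →
      ∃ W, F W ∧ ((72 * q ^ 2 : ℕ) : ℝ) * ∑ v ∈ W, w v ≤ ∑ v, w v := by
    intro w hw
    obtain ⟨U, hU, h1, h2⟩ := StarAux.greedy G S t ht hRS w hw (2 * t * (8 + 2 * q))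
    refine ⟨U, ⟨hU, fun hcol => hc (h2 _ hcol)⟩, ?_⟩
    have h3 := StarAux.pow_le_inv t (8 + 2 * q) (72 * q ^ 2) ht (StarAux.pow_bound q)
    have hS0 : 0 ≤ ∑ v ∈ S, w v := Finset.sum_nonneg fun v _ => hw v
    have hSV : ∑ v ∈ S, w v ≤ ∑ v, w v :=
      Finset.sum_le_sum_of_subset_of_nonneg (subset_univ _) fun v _ _ => hw v
    calc ((72 * q ^ 2 : ℕ) : ℝ) * ∑ v ∈ U, w v
        ≤ ((72 * q ^ 2 : ℕ) : ℝ) *
          ((1 - 1 / (2 * (t : ℝ))) ^ (2 * t * (8 + 2 * q)) * ∑ v ∈ S, w v) :=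
          mul_le_mul_of_nonneg_left h1 (Nat.cast_nonneg _)
      _ = ((1 - 1 / (2 * (t : ℝ))) ^ (2 * t * (8 + 2 * q)) * ((72 * q ^ 2 : ℕ) : ℝ)) *
          ∑ v ∈ S, w v := by ring
      _ ≤ 1 * ∑ v ∈ S, w v := mul_le_mul_of_nonneg_right h3 hS0
      _ ≤ ∑ v, w v := by rw [one_mul]; exact hSV
  obtain ⟨M, hM, A, hA1, hA2⟩ := Lin.mw F q hq hF
  obtain ⟨W, hW1, hW2⟩ := Lin.kr_sets q M hq hM A hA2
    (fun B => B ⊆ S ∧ ¬ Col G B h) (by
      intro i B hB1 hB2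
      by_contra hcon
      push Not at hcon
      have hcc : ∀ k, Col G (B k) h := fun k => hcon k ((hB1 k).trans (hA1 i).1)
      apply (hA1 i).2
      refine (((hcc 0).union (hcc 1)).union (hcc 2)).mono ?_ (by omega)
      intro v hv
      rw [hB2] at hv
      simp only [mem_biUnion, mem_univ, true_and] at hv
      obtain ⟨k, hk⟩ := hv
      fin_cases k
      · exact mem_union_left _ (mem_union_left _ hk)
      · exact mem_union_left _ (mem_union_right _ hk)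
      · exact mem_union_right _ hk)
  exact ⟨W, fun a => (hW1 a).1, hW2, fun a => (hW1 a).2⟩

/-- ROW STAR: in a `K_t`-minor-free graph of large chromatic number there are `q` disjoint
sets of large chromatic number. -/
theorem star (G : SimpleGraph V) (S : Finset V) (t q h : ℕ) (ht : 1 ≤ t) (hq : 1 ≤ q)
    (hG : ¬ HasModel G S t) (hc : ¬ Col G S (3 * h + 2 * t * (8 + 2 * q))) :
    ∃ W : Fin q → Finset V, (∀ i, W i ⊆ S) ∧ (∀ i j, i ≠ j → Disjoint (W i) (W j)) ∧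
      ∀ i, ¬ Col G (W i) h := by
  refine star_of_rs G S t q h ht hq ?_ hc
  intro U hU w hw
  exact reed_seymour G U t ht (fun ⟨B, h1, h2⟩ => hG ⟨B, fun i => (h1 i).trans hU, h2⟩) w hw

end Vale.Agent.P060
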