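import Vale.Agent.P060.Lin.LinDefs
import Vale.Agent.P060.Combine
import Vale.Agent.P060.Menger

/-!
# P060 LINEAR, row WAGNER: a graph which is not `2 ^ t`-colourable has a `K_t` model
-/

namespace Vale.Agent.P060

open Finset

variable {V : Type} [Fintype V] [DecidableEq V]

namespace Wagner

/-- The graph `G` restricted to `S`, on the same vertex type. -/
def res (G : SimpleGraph V) (S : Finset V) : SimpleGraph V where
  Adj u v := u ∈ S ∧ v ∈ S ∧ G.Adj u v
  symm := ⟨fun _ _ h => ⟨h.2.1, h.1, h.2.2.symm⟩⟩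
  loopless := ⟨fun _ h => G.loopless.irrefl _ h.2.2⟩

omit [Fintype V] [DecidableEq V] in
theorem res_le (G : SimpleGraph V) (S : Finset V) : res G S ≤ G := fun _ _ h => h.2.2

omit [Fintype V] [DecidableEq V] in
theorem res_reach {G : SimpleGraph V} {S : Finset V} {u v : V} (h : (res G S).Reachable u v)
    (hu : u ∈ S) : v ∈ S := by
  obtain ⟨p⟩ := h
  induction p with
  | nil => exact hu
  | cons h p ih => exact ih h.2.1

/-- Breadth first search layers. -/
theorem step (G : SimpleGraph V) (S : Finset V) (c : ℕ) (hc : 1 ≤ c)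
    (h : ¬ Col G S (2 * c)) :
    ∃ C U : Finset V, C ⊆ S ∧ U ⊆ S ∧ Conn G C ∧ Disjoint C U ∧
      (∀ v ∈ U, ∃ u ∈ C, G.Adj u v) ∧ ¬ Col G U c := by
  classical
  set H := res G S with hH
  -- layers
  let L : V → ℕ → Finset V := fun r i => univ.filter fun w => H.Reachable r w ∧ H.dist r w = i
  have hex : ∃ r ∈ S, ∃ i, ¬ Col G (L r i) c := by
    by_contra hcon
    push Not at hcon
    apply h
    have hcon' : ∀ (r : V) (i : ℕ), ∃ f : V → ℕ, r ∈ S → (∀ v ∈ L r i, f v < c) ∧
        ∀ u ∈ L r i, ∀ v ∈ L r i, G.Adj u v → f u ≠ f v := by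
      intro r i
      by_cases hr : r ∈ S
      · obtain ⟨f, hf⟩ := hcon r hr i
        exact ⟨f, fun _ => hf⟩
      · exact ⟨fun _ => 0, fun h => absurd h hr⟩
    choose f hf using hcon'
    let rt : V → V := fun v => (H.connectedComponentMk v).out
    have hrt : ∀ v, H.Reachable (rt v) v := fun v =>
      SimpleGraph.ConnectedComponent.exact (Quot.out_eq _)
    have hrS : ∀ v ∈ S, rt v ∈ S := fun v hv => res_reach (hrt v).symm hv
    have hmem : ∀ v, v ∈ L (rt v) (H.dist (rt v) v) := fun v =>
      mem_filter.2 ⟨mem_univ _, hrt v, rfl⟩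
    refine ⟨fun v => f (rt v) (H.dist (rt v) v) v + (H.dist (rt v) v % 2) * c, ?_, ?_⟩
    · intro v hv
      have h1 := (hf (rt v) (H.dist (rt v) v) (hrS v hv)).1 v (hmem v)
      have h2 : H.dist (rt v) v % 2 ≤ 1 := by omega
      have h3 : (H.dist (rt v) v % 2) * c ≤ 1 * c := Nat.mul_le_mul_right _ h2
      show f (rt v) (H.dist (rt v) v) v + (H.dist (rt v) v % 2) * c < 2 * c
      omega
    · intro u hu v hv huv
      have hadj : H.Adj u v := ⟨hu, hv, huv⟩
      have hruv : rt u = rt v := by
        have : H.connectedComponentMk u = H.connectedComponentMk v :=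
          SimpleGraph.ConnectedComponent.sound hadj.reachable
        show (H.connectedComponentMk u).out = (H.connectedComponentMk v).out
        rw [this]
      have h1 := hf (rt v) (H.dist (rt v) v) (hrS v hv)
      have h1' := hf (rt v) (H.dist (rt v) u) (hrS v hv)
      have hmv := hmem v
      have hmu := hmem u
      rw [hruv] at hmu
      have hd1 : H.dist (rt v) v ≤ H.dist (rt v) u + 1 := by
        obtain ⟨p, hp⟩ := (hruv ▸ hrt u : H.Reachable (rt v) u).exists_walk_length_eq_dist
        have := SimpleGraph.dist_le (p.concat hadj)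
        rw [SimpleGraph.Walk.length_concat, hp] at this
        exact this
      have hd2 : H.dist (rt v) u ≤ H.dist (rt v) v + 1 := by
        obtain ⟨p, hp⟩ := (hrt v).exists_walk_length_eq_dist
        have := SimpleGraph.dist_le (p.concat hadj.symm)
        rw [SimpleGraph.Walk.length_concat, hp] at this
        exact this
      show f (rt u) (H.dist (rt u) u) u + (H.dist (rt u) u % 2) * c ≠
        f (rt v) (H.dist (rt v) v) v + (H.dist (rt v) v % 2) * c
      rw [hruv]
      rcases eq_or_ne (H.dist (rt v) u) (H.dist (rt v) v) with he | he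
      · rw [he]
        rw [he] at hmu
        have := h1.2 u hmu v hmv huv
        omega
      · have hu' := h1'.1 u hmu
        have hv' := h1.1 v hmv
        have hpar : (H.dist (rt v) u % 2 = 0 ∧ H.dist (rt v) v % 2 = 1) ∨
            (H.dist (rt v) u % 2 = 1 ∧ H.dist (rt v) v % 2 = 0) := by omega
        rcases hpar with ⟨ha, hb⟩ | ⟨ha, hb⟩ <;> rw [ha, hb] <;> omega
  obtain ⟨r, hr, i, hi⟩ := hex
  have hi0 : i ≠ 0 := by
    rintro rfl
    apply hi
    refine (Col.card (L r 0)).mono subset_rfl (le_trans ?_ hc)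
    rw [Finset.card_le_one]
    intro a ha b hb
    have ha' := (mem_filter.1 ha).2
    have hb' := (mem_filter.1 hb).2
    rw [← ha'.1.dist_eq_zero_iff.1 ha'.2, ← hb'.1.dist_eq_zero_iff.1 hb'.2]
  let C : Finset V := univ.filter fun w => H.Reachable r w ∧ H.dist r w < i
  have hrC : r ∈ C := mem_filter.2 ⟨mem_univ _, SimpleGraph.Reachable.refl _, by
    rw [SimpleGraph.dist_self]; omega⟩
  have hp : ∀ v ∈ C, ∃ F : Finset V, F ⊆ C ∧ Conn G F ∧ r ∈ F ∧ v ∈ F := by
    intro v hv
    obtain ⟨hv1, hv2⟩ := (mem_filter.1 hv).2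
    obtain ⟨p, hp⟩ := hv1.exists_walk_length_eq_dist
    refine ⟨p.support.toFinset, ?_, MengerAux.conn_mono (res_le G S) (MengerAux.conn_support p),
      by simp, by simp⟩
    intro w hw
    rw [List.mem_toFinset] at hw
    refine mem_filter.2 ⟨mem_univ _, ⟨p.takeUntil w hw⟩, ?_⟩
    have h1 := SimpleGraph.dist_le (p.takeUntil w hw)
    have h2 := p.length_takeUntil_le_length hw
    omega
  choose! F hF using hp
  have hCU : C = C.biUnion F := by
    apply Finset.Subset.antisymm
    · intro v hv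
      exact mem_biUnion.2 ⟨v, hv, (hF v hv).2.2.2⟩
    · intro w hw
      obtain ⟨v, hv, hw'⟩ := mem_biUnion.1 hw
      exact (hF v hv).1 hw'
  refine ⟨C, L r i, ?_, ?_, ?_, ?_, ?_, hi⟩
  · intro v hv
    exact res_reach (mem_filter.1 hv).2.1 hr
  · intro v hv
    exact res_reach (mem_filter.1 hv).2.1 hr
  · rw [hCU]
    exact Combine.conn_biUnion C F r ⟨r, hrC⟩ (fun v hv => (hF v hv).2.2.1)
      fun v hv => (hF v hv).2.1
  · rw [Finset.disjoint_left]
    intro v hv hv'
    have h1 := (mem_filter.1 hv).2.2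
    have h2 := (mem_filter.1 hv').2.2
    omega
  · intro v hv
    obtain ⟨hv1, hv2⟩ := (mem_filter.1 hv).2
    obtain ⟨p, hp⟩ := hv1.symm.exists_walk_length_eq_dist
    cases p with
    | nil =>
      exfalso
      rw [SimpleGraph.dist_self] at hv2
      exact hi0 hv2.symm
    | @cons _ u _ hadj q =>
      refine ⟨u, mem_filter.2 ⟨mem_univ _, ⟨q.reverse⟩, ?_⟩, hadj.2.2.symm⟩
      have h1 := SimpleGraph.dist_le q.reverse
      rw [SimpleGraph.Walk.length_reverse] at h1
      rw [SimpleGraph.Walk.length_cons, SimpleGraph.dist_comm, hv2] at hp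
      omega

/-- Adding an apex branch set to a model. -/
theorem cone {G : SimpleGraph V} {S C U : Finset V} {t : ℕ} (hC : C ⊆ S) (hU : U ⊆ S)
    (hconn : Conn G C) (hd : Disjoint C U) (hadj : ∀ v ∈ U, ∃ u ∈ C, G.Adj u v)
    (h : HasModel G U t) : HasModel G S (t + 1) := by
  obtain ⟨B, h1, h2, h3, h4⟩ := h
  have hne : ∀ i, ∃ x, x ∈ B i := by
    intro i
    obtain ⟨x⟩ := (h2 i).nonempty
    exact ⟨x.1, x.2⟩
  refine ⟨Fin.cons C B, ?_, ?_, ?_, ?_⟩
  · intro i
    refine Fin.cases ?_ (fun i => ?_) i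
    · simpa using hC
    · simpa using (h1 i).trans hU
  · intro i
    refine Fin.cases ?_ (fun i => ?_) i
    · simpa using hconn
    · simpa using h2 i
  · intro i j
    refine Fin.cases ?_ (fun i => ?_) i <;> refine Fin.cases ?_ (fun j => ?_) j
    · intro h; exact absurd rfl h
    · intro _
      simp only [Fin.cons_zero, Fin.cons_succ]
      exact hd.mono_right (h1 j)
    · intro _
      simp only [Fin.cons_zero, Fin.cons_succ]
      exact (hd.mono_right (h1 i)).symm
    · intro hij
      simp only [Fin.cons_succ]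
      exact h3 i j fun h => hij (by rw [h])
  · intro i j
    refine Fin.cases ?_ (fun i => ?_) i <;> refine Fin.cases ?_ (fun j => ?_) j
    · intro h; exact absurd rfl h
    · intro _
      simp only [Fin.cons_zero, Fin.cons_succ]
      obtain ⟨x, hx⟩ := hne j
      obtain ⟨u, hu, hux⟩ := hadj x (h1 j hx)
      exact ⟨u, hu, x, hx, hux⟩
    · intro _
      simp only [Fin.cons_zero, Fin.cons_succ]
      obtain ⟨x, hx⟩ := hne i
      obtain ⟨u, hu, hux⟩ := hadj x (h1 i hx)
      exact ⟨x, hx, u, hu, hux.symm⟩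
    · intro hij
      simp only [Fin.cons_succ]
      exact h4 i j fun h => hij (by rw [h])

end Wagner

theorem wagner' (G : SimpleGraph V) : ∀ (t : ℕ) (S : Finset V), ¬ Col G S (2 ^ t) →
    HasModel G S t
  | 0, S, _ => ⟨fun _ => ∅, fun i => i.elim0, fun i => i.elim0, fun i => i.elim0,
      fun i => i.elim0⟩
  | t + 1, S, h => by
    rw [pow_succ, mul_comm] at h
    obtain ⟨C, U, hC, hU, hconn, hd, hadj, hcol⟩ := Wagner.step G S (2 ^ t) Nat.one_le_two_pow h
    exact Wagner.cone hC hU hconn hd hadj (wagner' G t U hcol)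

/-- ROW WAGNER (crude bound). -/
theorem wagner (G : SimpleGraph V) (t : ℕ) : ∀ S : Finset V, ¬ HasModel G S t →
    Col G S (2 ^ t) := by
  intro S h
  by_contra hc
  exact h (wagner' G t S hc)

end Vale.Agent.P060
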