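import Mathlib
import Vale.Agent.P060.Lin.LinDefs
import Vale.Agent.P060.Lin.Star
import Vale.Agent.P060.Lin.GN
import Vale.Agent.P060.Lin.Attach
import Vale.Agent.P060.Lin.Finish
import Vale.Agent.P060.Lin.Wagner

/-!
# P060 LINEAR, row IND: the linear bound by induction on `t`
-/

namespace Vale.Agent.P060

open Finset

variable {V : Type} [Fintype V] [DecidableEq V]

namespace Ind

omit [Fintype V] [DecidableEq V] in
/-- Colourings of the restricted graph. -/
theorem col_res {G : SimpleGraph V} {S : Finset V} {k : ℕ} (h : Col (Wagner.res G S) S k) :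
    Col G S k := by
  obtain ⟨f, h1, h2⟩ := h
  exact ⟨f, h1, fun a ha b hb hab => h2 a ha b hb ⟨ha, hb, hab⟩⟩

omit [Fintype V] [DecidableEq V] in
/-- Fewer branch sets and a bigger host. -/
theorem model_mono {G : SimpleGraph V} {S T : Finset V} {s t : ℕ} (h : HasModel G S t)
    (hST : S ⊆ T) (hst : s ≤ t) : HasModel G T s := by
  obtain ⟨B, h1, h2, h3, h4⟩ := h
  exact ⟨fun i => B (Fin.castLE hst i), fun i => (h1 _).trans hST, fun i => h2 _,
    fun i j hij => h3 _ _ fun h => hij (Fin.castLE_injective hst h),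
    fun i j hij => h4 _ _ fun h => hij (Fin.castLE_injective hst h)⟩

/-- A model in the restricted graph lies inside `S`. -/
theorem model_res {G : SimpleGraph V} {S : Finset V} {t : ℕ} (ht : 2 ≤ t)
    (h : HasModel (Wagner.res G S) univ t) : HasModel G S t := by
  obtain ⟨B, -, h2, h3, h4⟩ := h
  refine ⟨B, fun i x hx => ?_, fun i => MengerAux.conn_mono (Wagner.res_le G S) (h2 i), h3,
    fun i j hij => ?_⟩
  · obtain ⟨j, hj⟩ : ∃ j : Fin t, i ≠ j := by
      by_cases hi : i.1 = 0
      · exact ⟨⟨1, by omega⟩, fun h => by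
          have := congrArg Fin.val h
          simp only at this
          omega⟩
      · exact ⟨⟨0, by omega⟩, fun h => by
          have := congrArg Fin.val h
          simp only at this
          omega⟩
    obtain ⟨u, hu, v, -, huv⟩ := h4 i j hj
    have h5 := (h2 i).preconnected ⟨u, hu⟩ ⟨x, hx⟩
    have h6 : (Wagner.res G S).Reachable u x :=
      h5.map (SimpleGraph.Embedding.induce _).toHom
    exact Wagner.res_reach h6 huv.1
  · obtain ⟨u, hu, v, hv, huv⟩ := h4 i j hij
    exact ⟨u, hu, v, hv, huv.2.2⟩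

end Ind

/-- ROW IND: the linear bound. -/
theorem linear_bound (G : SimpleGraph V) (t : ℕ) (S : Finset V) (hG : ¬ HasModel G S t) :
    Col G S (2 ^ 100 * t) := by
  induction t using Nat.strong_induction_on generalizing G S with
  | _ t ih =>
  by_contra hcol
  have ht1 : 1 ≤ t := by
    by_contra h0
    have h1 : t = 0 := by omega
    subst h1
    exact hG ⟨fun _ => ∅, fun i => i.elim0, fun i => i.elim0, fun i => i.elim0,
      fun i => i.elim0⟩
  by_cases ht : t ≤ 100
  · have h1 : 2 ^ t ≤ 2 ^ 100 * t :=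
      (Nat.pow_le_pow_right (by norm_num) ht).trans (Nat.le_mul_of_pos_right _ ht1)
    exact hcol ((wagner G t S hG).mono subset_rfl h1)
  · rw [not_le] at ht
    obtain ⟨m, hm1, hm2⟩ : ∃ m, 64 * m ≤ t + 63 ∧ t ≤ 64 * m := ⟨(t + 63) / 64, by omega, by omega⟩
    obtain ⟨κ, hκ⟩ : ∃ κ, κ = 1000 * (4096 * (4 * m) + 1) := ⟨_, rfl⟩
    have hcol' : ¬ Col (Wagner.res G S) S (2 ^ 100 * t) := fun h => hcol (Ind.col_res h)
    have hnm : ∀ T : Finset V, ¬ HasModel (Wagner.res G S) T t := fun T h =>
      hG (Ind.model_res (by omega) (Ind.model_mono h (subset_univ _) le_rfl))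
    generalize Wagner.res G S = G' at hcol' hnm
    have hp : (2 : ℕ) ^ 100 = 1267650600228229401496703205376 := by norm_num
    have hp98 : (2 : ℕ) ^ 98 = 316912650057057350374175801344 := by norm_num
    obtain ⟨S1, hS1, hS1c, hS1col⟩ := gn G' S (2 ^ 100 * t) κ (by omega) (by rw [hp]; omega) hcol'
    have hstar : ¬ Col G' S1 (3 * (2 ^ 98 * t) + 2 * t * (8 + 2 * 4097)) := fun h =>
      hS1col (h.mono subset_rfl (by rw [hp, hp98]; omega))
    obtain ⟨W, hW1, hW2, hW3⟩ := star G' S1 t 4097 (2 ^ 98 * t) ht1 (by norm_num) (hnm S1) hstar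
    have hgn := fun i => gn G' (W i) (2 ^ 98 * t) κ (by omega) (by rw [hp98]; omega) (hW3 i)
    choose T hT1 hT2 hT3 using hgn
    have hcard : ∀ i, κ < (T i).card := by
      intro i
      by_contra hcon
      exact hT3 i ((Col.card (T i)).mono subset_rfl (by rw [hp98]; omega))
    let ix : Fin 64 × Fin 64 → Fin 4097 := fun a => Fin.castSucc (finProdFinEquiv a)
    have hix : Function.Injective ix := fun a b h =>
      finProdFinEquiv.injective (Fin.castSucc_injective _ h)
    have hixl : ∀ a, ix a ≠ Fin.last 4096 := fun a => (Fin.castSucc_lt_last _).ne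
    have hdisj : ∀ i j, i ≠ j → Disjoint (T i) (T j) := fun i j hij =>
      Finset.disjoint_of_subset_left (hT1 i) (Finset.disjoint_of_subset_right (hT1 j)
        (hW2 i j hij))
    have hpi : Fintype.card (Fin 64 × Fin 64) = 4096 := by
      rw [Fintype.card_prod, Fintype.card_fin]
    obtain ⟨B, -, hB1, hB2, hB3, hB4⟩ := attach G' (π := Fin 64 × Fin 64) (4 * m) κ
      (2 ^ 100 * (2 * (4 * m))) (by omega) S1 (T (Fin.last 4096)) (fun a => T (ix a)) hS1c
      (fun a => (hT1 _).trans (hW1 _)) ((hT1 _).trans (hW1 _))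
      (fun a b hab => hdisj _ _ fun h => hab (hix h))
      (fun a => hdisj _ _ (hixl a)) (hcard _).le (fun a => hT2 _)
      (by rw [hpi, hκ])
      (fun a h => hT3 _ (h.mono subset_rfl (by rw [hpi, hp, hp98]; omega)))
      (fun a D _ hDc => by
        by_contra hno
        exact hDc (ih (2 * (4 * m)) (by omega) G' D hno))
    have hfin := finish G' 64 m κ (by norm_num) (by omega) univ (T (Fin.last 4096))
      (subset_univ _) (hT2 _) (hcard _) (by rw [hκ]; omega) B (fun j => subset_univ _) hB1 hB2 hB3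
      hB4
    exact hnm univ (Ind.model_mono hfin subset_rfl hm2)

end Vale.Agent.P060
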