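import Vale.Agent.P060.LinkA
import Vale.Agent.P060.LinkB
import Vale.Agent.P060.Lin.Ext

/-!
P060 linear, row ROOT, the tight case: a separation of order `|R|` (proof text: P060/ROOT97.md).
-/

namespace Vale.Agent.P060.Lin.Root

open Finset Vale.Agent.P060 LinkB

variable {V : Type} [Fintype V] [DecidableEq V]

/-- a model `B` in `S` that is not separated from the roots `R` by fewer than `|R|` vertices -/
structure RM {N : ℕ} (G : SimpleGraph V) (S R : Finset V) (B : Fin N → Finset V) : Prop where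
  sub : R ⊆ S
  bsub : ∀ i, B i ⊆ S
  conn : ∀ i, Conn G (B i)
  disj : ∀ i j, i ≠ j → Disjoint (B i) (B j)
  adj : ∀ i j, i ≠ j → ∃ x ∈ B i, ∃ y ∈ B j, G.Adj x y
  sep : ∀ C D : Finset V, Sep G S C D → R ⊆ C → (∃ l, B l ⊆ D \ C) → R.card ≤ (C ∩ D).card

/-- the rooted model; the joining edges do not have both ends in `R` -/
def RC (G : SimpleGraph V) (S R : Finset V) : Prop :=
  ∃ M : V → Finset V, (∀ r ∈ R, r ∈ M r ∧ M r ⊆ S ∧ Conn G (M r)) ∧
    (∀ r ∈ R, ∀ r' ∈ R, r ≠ r' → Disjoint (M r) (M r')) ∧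
    ∀ r ∈ R, ∀ r' ∈ R, r ≠ r' → ∃ x ∈ M r, ∃ y ∈ M r', G.Adj x y ∧ ¬ (x ∈ R ∧ y ∈ R)

theorem sep_adj {G : SimpleGraph V} {S A B : Finset V} (h : Sep G S A B) {x y : V}
    (hx : x ∈ A) (hx' : x ∉ B) (hy : y ∈ S) (hxy : G.Adj x y) : y ∈ A := by
  by_contra hyA
  have hyB : y ∈ B := by
    rw [← h.1, mem_union] at hy
    exact hy.resolve_left hyA
  exact h.2 x (mem_sdiff.2 ⟨hx, hx'⟩) y (mem_sdiff.2 ⟨hyB, hyA⟩) hxy

theorem sep_adj' {G : SimpleGraph V} {S A B : Finset V} (h : Sep G S A B) {x y : V}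
    (hx : x ∈ B) (hx' : x ∉ A) (hy : y ∈ S) (hxy : G.Adj x y) : y ∈ B := by
  by_contra hyB
  have hyA : y ∈ A := by
    rw [← h.1, mem_union] at hy
    exact hy.resolve_right hyB
  exact h.2 y (mem_sdiff.2 ⟨hyA, hyB⟩) x (mem_sdiff.2 ⟨hx, hx'⟩) hxy.symm

section Tight

variable {N : ℕ} {G : SimpleGraph V} {S R A B' : Finset V} {B : Fin N → Finset V}

/-- every branch set meets `B'` -/
theorem meets (h : RM G S R B) (hs : Sep G S A B') {l : Fin N} (hl : B l ⊆ B' \ A) (j : Fin N) :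
    ∃ b ∈ B j, b ∈ B' := by
  by_cases hj : j = l
  · subst hj
    obtain ⟨⟨v, hv⟩⟩ := (h.conn j).nonempty
    exact ⟨v, hv, (mem_sdiff.1 (hl hv)).1⟩
  · obtain ⟨x, hx, y, hy, hxy⟩ := h.adj j l hj
    have hy' := mem_sdiff.1 (hl hy)
    exact ⟨x, hx, sep_adj' hs hy'.1 hy'.2 (h.bsub j hx) hxy.symm⟩

/-- a branch set that meets `A` meets the middle -/
theorem mid_of_meets (h : RM G S R B) (hs : Sep G S A B') {l : Fin N} (hl : B l ⊆ B' \ A)
    (j : Fin N) {x : V} (hx : x ∈ B j) (hxA : x ∈ A) : ∃ k ∈ B j, k ∈ A ∩ B' := by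
  obtain ⟨b, hb, hbB⟩ := meets h hs hl j
  by_cases hbA : b ∈ A
  · exact ⟨b, hb, mem_inter.2 ⟨hbA, hbB⟩⟩
  · obtain ⟨p, hp, hpA, q, hq, hqA, hpq⟩ := exists_cross (h.conn j) hx hb hxA hbA
    refine ⟨p, hp, mem_inter.2 ⟨hpA, ?_⟩⟩
    by_contra hpB
    exact hqA (sep_adj hs hpA hpB (h.bsub j hq) hpq)

theorem sub_of_no_mid (h : RM G S R B) (hs : Sep G S A B') {l : Fin N} (hl : B l ⊆ B' \ A)
    (j : Fin N) (hj : ∀ k ∈ B j, k ∉ A ∩ B') : B j ⊆ B' \ A := by
  intro x hx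
  have hxA : x ∉ A := by
    intro hxA
    obtain ⟨k, hk, hk'⟩ := mid_of_meets h hs hl j hx hxA
    exact hj k hk hk'
  have hxS := h.bsub j hx
  rw [← hs.1, mem_union] at hxS
  exact mem_sdiff.2 ⟨hxS.resolve_left hxA, hxA⟩

theorem addK_adj_of_adj {K : Finset V} {x y : V} (hxy : G.Adj x y) : (addK G K).Adj x y :=
  ⟨hxy.ne, Or.inl hxy⟩

theorem conn_part (h : RM G S R B) (hs : Sep G S A B') {l : Fin N} (hl : B l ⊆ B' \ A)
    (j : Fin N) : Conn (addK G (A ∩ B')) (B j ∩ B') := by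
  by_cases hmid : ∀ k ∈ B j, k ∉ A ∩ B'
  · have h1 := sub_of_no_mid h hs hl j hmid
    have h2 : B j ∩ B' = B j := inter_eq_left.2 (h1.trans sdiff_subset)
    rw [h2]
    exact conn_mono_on (h.conn j) (fun a _ b _ hab => addK_adj_of_adj hab)
  · push Not at hmid
    obtain ⟨z, hz, hzK⟩ := hmid
    have hzB' : z ∈ B j ∩ B' := mem_inter.2 ⟨hz, (mem_inter.1 hzK).2⟩
    set T := B j ∩ B' with hT
    have hall : T ⊆ cmp (addK G (A ∩ B')) T z := by
      intro v hv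
      by_contra hvC
      -- the component of v in G[T] contains no vertex of the middle
      have hC1 : ∀ k ∈ cmp G T v, k ∉ A ∩ B' := by
        intro k hk hkK
        apply hvC
        have hkT : k ∈ T := cmp_sub hk
        have hkz : k ∈ cmp (addK G (A ∩ B')) T z := by
          by_cases hkz : z = k
          · rw [← hkz]; exact self_mem_cmp hzB'
          · exact cmp_closed (self_mem_cmp hzB') hkT ⟨hkz, Or.inr ⟨hzK, hkK⟩⟩
        obtain ⟨_, U, hUT, hU, hvU, hkU⟩ := mem_cmp.1 hk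
        have hU' : Conn (addK G (A ∩ B')) U :=
          conn_mono_on hU (fun a _ b _ hab => addK_adj_of_adj hab)
        obtain ⟨_, U2, hU2T, hU2, hzU2, hkU2⟩ := mem_cmp.1 hkz
        exact mem_cmp.2 ⟨hv, U ∪ U2, union_subset hUT hU2T, conn_union_mem hU' hU2 hkU hkU2,
          mem_union_right _ hzU2, mem_union_left _ hvU⟩
      have hzC : z ∉ cmp G T v := fun hz' => hC1 z hz' hzK
      obtain ⟨p, hp, hpC, q, hq, hqC, hpq⟩ :=
        exists_cross (h.conn j) (mem_inter.1 hv).1 hz (self_mem_cmp hv) hzC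
      have hpT : p ∈ T := cmp_sub hpC
      have hpB : p ∈ B' := (mem_inter.1 hpT).2
      have hpA : p ∉ A := fun hpA => hC1 p hpC (mem_inter.2 ⟨hpA, hpB⟩)
      have hqB : q ∈ B' := sep_adj' hs hpB hpA (h.bsub j hq) hpq
      exact hqC (cmp_closed hpC (mem_inter.2 ⟨hq, hqB⟩) hpq)
    have : cmp (addK G (A ∩ B')) T z = T := Subset.antisymm cmp_sub hall
    rw [← this]
    exact cmp_conn hzB'

/-- the model in `B'` with the middle completed -/
theorem rm_part (h : RM G S R B) (hs : Sep G S A B') (hRA : R ⊆ A) {l : Fin N}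
    (hl : B l ⊆ B' \ A) (hcard : (A ∩ B').card = R.card) :
    RM (addK G (A ∩ B')) B' (A ∩ B') (fun j => B j ∩ B') := by
  refine ⟨inter_subset_right, fun i => inter_subset_right, conn_part h hs hl, ?_, ?_, ?_⟩
  · intro i j hij
    exact disjoint_of_subset_left inter_subset_left
      (disjoint_of_subset_right inter_subset_left (h.disj i j hij))
  · intro i j hij
    obtain ⟨x, hx, y, hy, hxy⟩ := h.adj i j hij
    by_cases hxB : x ∈ B' ∧ y ∈ B'
    · exact ⟨x, mem_inter.2 ⟨hx, hxB.1⟩, y, mem_inter.2 ⟨hy, hxB.2⟩, addK_adj_of_adj hxy⟩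
    · have hxyA : x ∈ A ∧ y ∈ A := by
        have hxS := h.bsub i hx
        have hyS := h.bsub j hy
        by_cases hx1 : x ∈ B'
        · have hy1 : y ∉ B' := fun hy1 => hxB ⟨hx1, hy1⟩
          have hyA : y ∈ A := by
            rw [← hs.1, mem_union] at hyS
            exact hyS.resolve_right hy1
          exact ⟨sep_adj hs hyA hy1 hxS hxy.symm, hyA⟩
        · have hxA : x ∈ A := by
            rw [← hs.1, mem_union] at hxS
            exact hxS.resolve_right hx1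
          exact ⟨hxA, sep_adj hs hxA hx1 hyS hxy⟩
      obtain ⟨k, hk, hkK⟩ := mid_of_meets h hs hl i hx hxyA.1
      obtain ⟨k', hk', hkK'⟩ := mid_of_meets h hs hl j hy hxyA.2
      refine ⟨k, mem_inter.2 ⟨hk, (mem_inter.1 hkK).2⟩, k', mem_inter.2 ⟨hk', (mem_inter.1 hkK').2⟩,
        ?_, Or.inr ⟨hkK, hkK'⟩⟩
      rintro rfl
      exact disjoint_left.1 (h.disj i j hij) hk hk'
  · rintro C D hCD hKC ⟨j, hj⟩
    have hmid : ∀ k ∈ B j, k ∉ A ∩ B' := by
      intro k hk hkK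
      have h1 := hj (mem_inter.2 ⟨hk, (mem_inter.1 hkK).2⟩)
      exact (mem_sdiff.1 h1).2 (hKC hkK)
    have h1 := sub_of_no_mid h hs hl j hmid
    have h2 : B j ∩ B' = B j := inter_eq_left.2 (h1.trans sdiff_subset)
    simp only [h2] at hj
    have hCD' : Sep G B' C D := ⟨hCD.1, fun a ha b hb hab => hCD.2 a ha b hb (addK_adj_of_adj hab)⟩
    obtain ⟨h3, h4, h5⟩ := sep_comp hs hCD' hKC
    have h6 := h.sep (A ∪ C) D h3 (hRA.trans subset_union_left) ⟨j, by rw [h5]; exact hj⟩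
    rw [h4] at h6
    rw [hcard]
    exact h6

/-- the tight case -/
theorem tight (h : RM G S R B) (hs : Sep G S A B') (hRA : R ⊆ A) {l : Fin N}
    (hl : B l ⊆ B' \ A) (hcard : (A ∩ B').card = R.card)
    (ih : RM (addK G (A ∩ B')) B' (A ∩ B') (fun j => B j ∩ B') →
      RC (addK G (A ∩ B')) B' (A ∩ B')) : RC G S R := by
  classical
  obtain ⟨M1, hM1, hM2, hM3⟩ := ih (rm_part h hs hRA hl hcard)
  set K := A ∩ B' with hK
  have hAS : A ⊆ S := by rw [← hs.1]; exact subset_union_left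
  have hBS : B' ⊆ S := by rw [← hs.1]; exact subset_union_right
  -- Menger in A
  have hfam : MengerAux.Fam G A R K R.card := by
    refine menger G A R K R.card hRA inter_subset_left ?_
    intro C D hCD hRC hKD
    have hs' : Sep G S B' A := MengerAux.sep_symm hs
    have hCD' : Sep G A D C := MengerAux.sep_symm hCD
    obtain ⟨h3, h4, h5⟩ := sep_comp hs' hCD' (by rw [inter_comm]; exact hKD)
    have h6 := h.sep C (B' ∪ D) (MengerAux.sep_symm h3) hRC ⟨l, ?_⟩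
    · rw [inter_comm C, h4, inter_comm D] at h6
      exact h6
    · intro v hv
      have hv' := mem_sdiff.1 (hl hv)
      refine mem_sdiff.2 ⟨mem_union_left _ hv'.1, fun hvC => hv'.2 ?_⟩
      rw [← hCD.1]
      exact mem_union_left _ hvC
  obtain ⟨L, hL1, hL2, hL3, hL4, hL5⟩ := fam_index hfam
  have hz : ∀ r, r ∈ R → ∃ z, L r ∩ K = {z} := fun r hr => card_eq_one.1 (hL4 r hr)
  choose! z hz using hz
  have hzm : ∀ r ∈ R, z r ∈ L r ∧ z r ∈ K := fun r hr => by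
    have : z r ∈ L r ∩ K := by rw [hz r hr]; simp
    exact mem_inter.1 this
  have hLK : ∀ r ∈ R, ∀ v ∈ L r, v ∈ K → v = z r := fun r hr v hv hvK => by
    have : v ∈ L r ∩ K := mem_inter.2 ⟨hv, hvK⟩
    rw [hz r hr] at this
    simpa using this
  have hzne : ∀ r ∈ R, ∀ r' ∈ R, r ≠ r' → z r ≠ z r' := by
    intro r hr r' hr' hne heq
    exact disjoint_left.1 (hL5 r hr r' hr' hne) (hzm r hr).1 (heq ▸ (hzm r' hr').1)
  have hMK : ∀ k ∈ K, ∀ v ∈ M1 k, v ∈ K → v = k := by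
    intro k hk v hv hvK
    by_contra hne
    exact disjoint_left.1 (hM2 k hk v hvK (Ne.symm hne)) hv (hM1 v hvK).1
  have hMconn : ∀ k ∈ K, Conn G (M1 k) := by
    intro k hk
    refine conn_mono_on (hM1 k hk).2.2 ?_
    intro a ha b hb hab
    rcases hab.2 with h1 | ⟨h1, h2⟩
    · exact h1
    · exact absurd ((hMK k hk a ha h1).trans (hMK k hk b hb h2).symm) hab.1
  have hLM : ∀ r ∈ R, ∀ r' ∈ R, r ≠ r' → Disjoint (L r) (M1 (z r')) := by
    intro r hr r' hr' hne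
    rw [disjoint_left]
    intro v hv hv'
    have hvK : v ∈ K := mem_inter.2 ⟨hL1 r hr hv, (hM1 _ (hzm r' hr').2).2.1 hv'⟩
    exact hzne r hr r' hr' hne ((hLK r hr v hv hvK).symm.trans (hMK _ (hzm r' hr').2 v hv' hvK))
  refine ⟨fun r => L r ∪ M1 (z r), ?_, ?_, ?_⟩
  · intro r hr
    refine ⟨mem_union_left _ ?_, union_subset ((hL1 r hr).trans hAS)
      ((hM1 _ (hzm r hr).2).2.1.trans hBS),
      conn_union_mem (hL2 r hr) (hMconn _ (hzm r hr).2) (hzm r hr).1 (hM1 _ (hzm r hr).2).1⟩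
    have : r ∈ L r ∩ R := by rw [hL3 r hr]; simp
    exact (mem_inter.1 this).1
  · intro r hr r' hr' hne
    rw [disjoint_union_left, disjoint_union_right, disjoint_union_right]
    exact ⟨⟨hL5 r hr r' hr' hne, hLM r hr r' hr' hne⟩,
      (hLM r' hr' r hr (Ne.symm hne)).symm,
      hM2 _ (hzm r hr).2 _ (hzm r' hr').2 (hzne r hr r' hr' hne)⟩
  · intro r hr r' hr' hne
    obtain ⟨x, hx, y, hy, hxy, hnot⟩ := hM3 _ (hzm r hr).2 _ (hzm r' hr').2 (hzne r hr r' hr' hne)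
    have hadj : G.Adj x y := by
      rcases hxy.2 with h1 | h1
      · exact h1
      · exact absurd h1 hnot
    refine ⟨x, mem_union_right _ hx, y, mem_union_right _ hy, hadj, ?_⟩
    rintro ⟨hxR, hyR⟩
    exact hnot ⟨mem_inter.2 ⟨hRA hxR, (hM1 _ (hzm r hr).2).2.1 hx⟩,
      mem_inter.2 ⟨hRA hyR, (hM1 _ (hzm r' hr').2).2.1 hy⟩⟩

end Tight

end Vale.Agent.P060.Lin.Root
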