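import Vale.Agent.P060.LinkC
import Vale.Agent.P060.Lin.LinDefs
import Vale.Agent.P060.Lin.RootTight

/-!
P060 linear, row ROOT: base case, contraction step, and the theorem.
-/

namespace Vale.Agent.P060.Lin.Root

open Finset Vale.Agent.P060 LinkB

variable {V : Type} [Fintype V] [DecidableEq V]

section Base

variable {N : ℕ} {G : SimpleGraph V} {S R : Finset V} {B : Fin N → Finset V}

/-- base case: every edge inside a branch set has both ends in `R` -/
theorem base (h : RM G S R B) (hN : 2 * R.card ≤ N)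
    (hb : ∀ i, ∀ u ∈ B i, ∀ v ∈ B i, G.Adj u v → u ∈ R ∧ v ∈ R) : RC G S R := by
  classical
  set I : Finset (Fin N) := univ.filter (fun i => Disjoint (B i) R) with hI
  -- the branch sets that meet R
  have hcard : R.card ≤ I.card := by
    have h1 : (univ \ I).card ≤ R.card := by
      have h2 : ∀ i ∈ univ \ I, ∃ v ∈ R, v ∈ B i := by
        intro i hi
        simp only [hI, mem_sdiff, mem_univ, true_and, mem_filter] at hi
        rw [disjoint_left] at hi
        push Not at hi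
        obtain ⟨v, hv, hv'⟩ := hi
        exact ⟨v, hv', hv⟩
      have h3 : ∀ i : Fin N, ∃ v : V, i ∈ univ \ I → v ∈ R ∧ v ∈ B i := by
        intro i
        by_cases hi : i ∈ univ \ I
        · obtain ⟨v, hv, hv'⟩ := h2 i hi
          exact ⟨v, fun _ => ⟨hv, hv'⟩⟩
        · obtain ⟨⟨v, _⟩⟩ := (h.conn i).nonempty
          exact ⟨v, fun h' => absurd h' hi⟩
      choose f hf using h3
      refine card_le_card_of_injOn f (fun i hi => (hf i hi).1) ?_
      intro i hi j hj hij
      by_contra hne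
      exact disjoint_left.1 (h.disj i j hne) (hf i hi).2 (hij ▸ (hf j hj).2)
    have h4 : (univ \ I).card = N - I.card := by
      rw [card_sdiff_of_subset (subset_univ _), card_univ, Fintype.card_fin]
    omega
  -- they are singletons
  have hsing : ∀ i ∈ I, ∀ u ∈ B i, ∀ v ∈ B i, u = v := by
    intro i hi u hu v hv
    by_contra hne
    have hd : Disjoint (B i) R := (mem_filter.1 hi).2
    obtain ⟨p, hp, hpC, q, hq, hqC, hpq⟩ :=
      exists_cross (C := {u}) (h.conn i) hu hv (mem_singleton_self _)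
        (by simpa using (Ne.symm hne))
    exact disjoint_left.1 hd hp (hb i p hp q hq hpq).1
  set W : Finset V := I.biUnion B with hW
  have hWS : W ⊆ S := by
    intro v hv
    obtain ⟨i, _, hv⟩ := mem_biUnion.1 hv
    exact h.bsub i hv
  have hWcard : R.card ≤ W.card := by
    rw [hW, card_biUnion (fun i _ j _ hij => h.disj i j hij)]
    refine hcard.trans ?_
    calc I.card = ∑ i ∈ I, 1 := by simp
      _ ≤ ∑ i ∈ I, (B i).card := sum_le_sum fun i _ => by
        obtain ⟨⟨v, hv⟩⟩ := (h.conn i).nonempty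
        exact card_pos.2 ⟨v, hv⟩
  have hfam : MengerAux.Fam G S R W R.card := by
    refine menger G S R W R.card h.sub hWS ?_
    intro C D hCD hRC hWD
    by_contra hlt
    push Not at hlt
    have : ∃ w ∈ W, w ∉ C := by
      by_contra hcon
      push Not at hcon
      have : W ⊆ C ∩ D := fun w hw => mem_inter.2 ⟨hcon w hw, hWD hw⟩
      have := card_le_card this
      omega
    obtain ⟨w, hw, hwC⟩ := this
    obtain ⟨i, hi, hwi⟩ := mem_biUnion.1 hw
    have := h.sep C D hCD hRC ⟨i, fun v hv => by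
      rw [hsing i hi v hv w hwi]
      exact mem_sdiff.2 ⟨hWD hw, hwC⟩⟩
    omega
  obtain ⟨L, hL1, hL2, hL3, hL4, hL5⟩ := fam_index hfam
  refine ⟨L, ?_, hL5, ?_⟩
  · intro r hr
    have : r ∈ L r ∩ R := by rw [hL3 r hr]; simp
    exact ⟨(mem_inter.1 this).1, hL1 r hr, hL2 r hr⟩
  · intro r hr r' hr' hne
    obtain ⟨w, hw⟩ := card_eq_one.1 (hL4 r hr)
    obtain ⟨w', hw'⟩ := card_eq_one.1 (hL4 r' hr')
    have h1 : w ∈ L r ∩ W := by rw [hw]; simp
    have h2 : w' ∈ L r' ∩ W := by rw [hw']; simp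
    obtain ⟨h1a, h1b⟩ := mem_inter.1 h1
    obtain ⟨h2a, h2b⟩ := mem_inter.1 h2
    obtain ⟨i, hi, hwi⟩ := mem_biUnion.1 h1b
    obtain ⟨j, hj, hwj⟩ := mem_biUnion.1 h2b
    have hww : w ≠ w' := by
      rintro rfl
      exact disjoint_left.1 (hL5 r hr r' hr' hne) h1a h2a
    have hij : i ≠ j := by
      rintro rfl
      exact hww (hsing i hi w hwi w' hwj)
    obtain ⟨x, hx, y, hy, hxy⟩ := h.adj i j hij
    have e1 := hsing i hi x hx w hwi
    have e2 := hsing j hj y hy w' hwj
    subst e1; subst e2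
    refine ⟨x, h1a, y, h2a, hxy, ?_⟩
    rintro ⟨hxR, _⟩
    exact disjoint_left.1 (mem_filter.1 hi).2 hx hxR

end Base

section Contract

variable {N : ℕ} {G : SimpleGraph V} {S R : Finset V} {B : Fin N → Finset V} {u v : V}

omit [Fintype V] [DecidableEq V] in
theorem contr_adj_of_adj {a b : V} (h : G.Adj a b) : (contr G u v).Adj a b := ⟨h.ne, Or.inl h⟩

theorem conn_erase (huv : G.Adj u v) {T : Finset V} (hT : Conn G T) (hu : u ∈ T) :
    Conn (contr G u v) (T.erase v) := by
  classical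
  have huT : u ∈ T.erase v := mem_erase.2 ⟨huv.ne, hu⟩
  have hall : T.erase v ⊆ cmp (contr G u v) (T.erase v) u := by
    intro w hw
    by_contra hwC
    have hwv : w ≠ v := (mem_erase.1 hw).1
    obtain ⟨p, hp, hpC, q, hq, hqC, hpq⟩ :=
      exists_cross (C := insert v (cmp (contr G u v) (T.erase v) u)) hT hu (mem_erase.1 hw).2
        (mem_insert_of_mem (self_mem_cmp huT))
        (by rw [mem_insert]; rintro (h | h)
            · exact hwv h
            · exact hwC h)
    rw [mem_insert, not_or] at hqC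
    have hqT : q ∈ T.erase v := mem_erase.2 ⟨hqC.1, hq⟩
    rcases mem_insert.1 hpC with rfl | hpC
    · have hqu : u ≠ q := by
        rintro rfl
        exact hqC.2 (self_mem_cmp huT)
      exact hqC.2 (cmp_closed (self_mem_cmp huT) hqT ⟨hqu, Or.inr (Or.inl ⟨rfl, hpq⟩)⟩)
    · exact hqC.2 (cmp_closed hpC hqT (contr_adj_of_adj hpq))
  have : cmp (contr G u v) (T.erase v) u = T.erase v := Subset.antisymm cmp_sub hall
  rw [← this]
  exact cmp_conn huT

/-- the contracted model (everything except the separation condition) -/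
theorem rm_contr (h : RM G S R B) (huv : G.Adj u v) (hvR : v ∉ R) {i : Fin N} (hu : u ∈ B i)
    (hv : v ∈ B i)
    (hsep : ∀ C D : Finset V, Sep (contr G u v) (S.erase v) C D → R ⊆ C →
      (∃ l, (B l).erase v ⊆ D \ C) → R.card ≤ (C ∩ D).card) :
    RM (contr G u v) (S.erase v) R (fun j => (B j).erase v) := by
  classical
  have hBv : ∀ j, j ≠ i → v ∉ B j := fun j hj hvj => disjoint_left.1 (h.disj j i hj) hvj hv
  refine ⟨fun r hr => mem_erase.2 ⟨fun h' => hvR (h' ▸ hr), h.sub hr⟩,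
    fun j => erase_subset_erase _ (h.bsub j), ?_, ?_, ?_, hsep⟩
  · intro j
    by_cases hj : j = i
    · subst hj
      exact conn_erase huv (h.conn j) hu
    · rw [erase_eq_of_notMem (hBv j hj)]
      exact conn_mono_on (h.conn j) (fun a _ b _ hab => contr_adj_of_adj hab)
  · intro j k hjk
    exact disjoint_of_subset_left (erase_subset _ _)
      (disjoint_of_subset_right (erase_subset _ _) (h.disj j k hjk))
  · intro j k hjk
    obtain ⟨x, hx, y, hy, hxy⟩ := h.adj j k hjk
    by_cases hxv : x = v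
    · subst hxv
      have hji : j = i := by
        by_contra hji
        exact hBv j hji hx
      have hyv : y ≠ x := hxy.ne.symm
      refine ⟨u, mem_erase.2 ⟨huv.ne, hji ▸ hu⟩, y, mem_erase.2 ⟨hyv, hy⟩, ?_,
        Or.inr (Or.inl ⟨rfl, hxy⟩)⟩
      rintro rfl
      exact disjoint_left.1 (h.disj j k hjk) (hji ▸ hu) hy
    · by_cases hyv : y = v
      · subst hyv
        have hki : k = i := by
          by_contra hki
          exact hBv k hki hy
        refine ⟨x, mem_erase.2 ⟨hxv, hx⟩, u, mem_erase.2 ⟨huv.ne, hki ▸ hu⟩, ?_,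
          Or.inr (Or.inr ⟨rfl, hxy.symm⟩)⟩
        rintro rfl
        exact disjoint_left.1 (h.disj j k hjk) hx (hki ▸ hu)
      · exact ⟨x, mem_erase.2 ⟨hxv, hx⟩, y, mem_erase.2 ⟨hyv, hy⟩, contr_adj_of_adj hxy⟩

/-- lift of a rooted model of the contraction -/
theorem rc_lift (huv : G.Adj u v) (hvR : v ∉ R) (hvS : v ∈ S) (hR : R ⊆ S)
    (h : RC (contr G u v) (S.erase v) R) : RC G S R := by
  classical
  obtain ⟨M, h1, h2, h3⟩ := h
  have hvM : ∀ r ∈ R, v ∉ M r := fun r hr hv => (mem_erase.1 ((h1 r hr).2.1 hv)).1 rfl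
  have hmem : ∀ r w, w ∈ (if u ∈ M r then insert v (M r) else M r) ↔
      w ∈ M r ∨ (w = v ∧ u ∈ M r) := by
    intro r w
    split_ifs with hx
    · simp only [mem_insert]; tauto
    · tauto
  refine ⟨fun r => if u ∈ M r then insert v (M r) else M r, ?_, ?_, ?_⟩
  · intro r hr
    refine ⟨(hmem r r).2 (Or.inl (h1 r hr).1), ?_, ?_⟩
    · intro w hw
      rcases (hmem r w).1 hw with hw | ⟨rfl, _⟩
      · exact (mem_erase.1 ((h1 r hr).2.1 hw)).2
      · exact hvS
    · dsimp only
      split_ifs with hx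
      · exact conn_insert_of_contr huv hx (h1 r hr).2.2
      · refine conn_mono_on (h1 r hr).2.2 ?_
        intro a ha b hb hab
        obtain ⟨_, h5 | ⟨h5, _⟩ | ⟨h5, _⟩⟩ := hab
        · exact h5
        · exact absurd (h5 ▸ ha) hx
        · exact absurd (h5 ▸ hb) hx
  · intro r hr r' hr' hne
    rw [disjoint_left]
    intro w hw hw'
    have hd := disjoint_left.1 (h2 r hr r' hr' hne)
    rcases (hmem r w).1 hw with hw | ⟨rfl, hx⟩ <;> rcases (hmem r' w).1 hw' with hw' | ⟨h5, hx'⟩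
    · exact hd hw hw'
    · exact hvM r hr (h5 ▸ hw)
    · exact hvM r' hr' hw'
    · exact hd hx hx'
  · intro r hr r' hr' hne
    obtain ⟨x, hx, y, hy, hxy, hnot⟩ := h3 r hr r' hr' hne
    obtain ⟨_, h5 | ⟨h5, h6⟩ | ⟨h5, h6⟩⟩ := hxy
    · exact ⟨x, (hmem r x).2 (Or.inl hx), y, (hmem r' y).2 (Or.inl hy), h5, hnot⟩
    · exact ⟨v, (hmem r v).2 (Or.inr ⟨rfl, h5 ▸ hx⟩), y, (hmem r' y).2 (Or.inl hy), h6,
        fun h7 => hvR h7.1⟩
    · exact ⟨x, (hmem r x).2 (Or.inl hx), v, (hmem r' v).2 (Or.inr ⟨rfl, h5 ▸ hy⟩), h6.symm,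
        fun h7 => hvR h7.2⟩

/-- a violating separation of the contraction gives a tight separation -/
theorem lift_sep (h : RM G S R B) (huv : G.Adj u v) (hvR : v ∉ R) {i : Fin N} (hu : u ∈ B i)
    (hv : v ∈ B i) {C D : Finset V} (hs : Sep (contr G u v) (S.erase v) C D) (hRC : R ⊆ C)
    {l : Fin N} (hl : (B l).erase v ⊆ D \ C) (hlt : (C ∩ D).card < R.card) :
    ∃ A B' : Finset V, Sep G S A B' ∧ R ⊆ A ∧ B l ⊆ B' \ A ∧ (A ∩ B').card = R.card ∧
      B'.card < S.card := by
  classical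
  have hvS : v ∈ S := h.bsub i hv
  have huS : u ∈ S.erase v := mem_erase.2 ⟨huv.ne, h.bsub i hu⟩
  have hvC : v ∉ C := fun h' => (mem_erase.1 (hs.1 ▸ mem_union_left D h')).1 rfl
  have hvD : v ∉ D := fun h' => (mem_erase.1 (hs.1 ▸ mem_union_right C h')).1 rfl
  have hmA : ∀ w, w ∈ (if u ∈ C then insert v C else C) ↔ w ∈ C ∨ (w = v ∧ u ∈ C) := by
    intro w
    split_ifs with hx
    · simp only [mem_insert]; tauto
    · tauto
  have hmB : ∀ w, w ∈ (if u ∈ D then insert v D else D) ↔ w ∈ D ∨ (w = v ∧ u ∈ D) := by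
    intro w
    split_ifs with hx
    · simp only [mem_insert]; tauto
    · tauto
  set A := (if u ∈ C then insert v C else C) with hA
  set B' := (if u ∈ D then insert v D else D) with hB'
  have huCD : u ∈ C ∨ u ∈ D := by
    rw [← hs.1, mem_union] at huS
    exact huS
  have hsepG : Sep G S A B' := by
    refine ⟨?_, ?_⟩
    · ext w
      rw [mem_union, hmA, hmB]
      constructor
      · rintro ((hw | ⟨rfl, _⟩) | (hw | ⟨rfl, _⟩))
        · exact (mem_erase.1 (hs.1 ▸ mem_union_left D hw)).2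
        · exact hvS
        · exact (mem_erase.1 (hs.1 ▸ mem_union_right C hw)).2
        · exact hvS
      · intro hw
        by_cases hwv : w = v
        · subst hwv
          rcases huCD with h1 | h1
          · exact Or.inl (Or.inr ⟨rfl, h1⟩)
          · exact Or.inr (Or.inr ⟨rfl, h1⟩)
        · have : w ∈ C ∪ D := by rw [hs.1]; exact mem_erase.2 ⟨hwv, hw⟩
          rcases mem_union.1 this with h1 | h1
          · exact Or.inl (Or.inl h1)
          · exact Or.inr (Or.inl h1)
    · intro a ha b hb hab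
      rw [mem_sdiff, hmA, hmB] at ha
      rw [mem_sdiff, hmA, hmB] at hb
      obtain ⟨ha1, ha2⟩ := ha
      obtain ⟨hb1, hb2⟩ := hb
      push Not at ha2 hb2
      rcases ha1 with ha1 | ⟨rfl, ha1⟩
      · rcases hb1 with hb1 | ⟨rfl, hb1⟩
        · exact hs.2 a (mem_sdiff.2 ⟨ha1, ha2.1⟩) b (mem_sdiff.2 ⟨hb1, hb2.1⟩)
            (contr_adj_of_adj hab)
        · have huC : u ∉ C := hb2.2 rfl
          have hau : a ≠ u := fun h' => huC (h' ▸ ha1)
          exact hs.2 a (mem_sdiff.2 ⟨ha1, ha2.1⟩) u (mem_sdiff.2 ⟨hb1, huC⟩)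
            ⟨hau, Or.inr (Or.inr ⟨rfl, hab.symm⟩)⟩
      · have huD : u ∉ D := ha2.2 rfl
        rcases hb1 with hb1 | ⟨rfl, hb1⟩
        · have hub : u ≠ b := fun h' => huD (h' ▸ hb1)
          exact hs.2 u (mem_sdiff.2 ⟨ha1, huD⟩) b (mem_sdiff.2 ⟨hb1, hb2.1⟩)
            ⟨hub, Or.inr (Or.inl ⟨rfl, hab⟩)⟩
        · exact hab.ne rfl
  have hRA : R ⊆ A := fun r hr => (hmA r).2 (Or.inl (hRC hr))
  have hlB : B l ⊆ B' \ A := by
    intro w hw
    rw [mem_sdiff, hmA, hmB]
    by_cases hwv : w = v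
    · subst hwv
      have hli : l = i := by
        by_contra hli
        exact disjoint_left.1 (h.disj l i hli) hw hv
      have h1 := mem_sdiff.1 (hl (mem_erase.2 ⟨huv.ne, hli ▸ hu⟩))
      refine ⟨Or.inr ⟨rfl, h1.1⟩, ?_⟩
      rintro (h2 | ⟨_, h2⟩)
      · exact hvC h2
      · exact h1.2 h2
    · have h1 := mem_sdiff.1 (hl (mem_erase.2 ⟨hwv, hw⟩))
      refine ⟨Or.inl h1.1, ?_⟩
      rintro (h2 | ⟨h2, _⟩)
      · exact h1.2 h2
      · exact hwv h2
  have hle := h.sep A B' hsepG hRA ⟨l, hlB⟩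
  have hsub : A ∩ B' ⊆ insert v (C ∩ D) := by
    intro w hw
    rw [mem_inter, hmA, hmB] at hw
    rw [mem_insert, mem_inter]
    tauto
  have hcard2 : (A ∩ B').card ≤ (C ∩ D).card + 1 :=
    (card_le_card hsub).trans (card_insert_le _ _)
  have hcard : (A ∩ B').card = R.card := by omega
  have hvAB : v ∈ A ∩ B' := by
    by_contra hvn
    have : A ∩ B' ⊆ C ∩ D := fun w hw => by
      rcases mem_insert.1 (hsub hw) with rfl | h1
      · exact absurd hw hvn
      · exact h1
    have := card_le_card this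
    omega
  refine ⟨A, B', hsepG, hRA, hlB, hcard, ?_⟩
  have hBS : B' ⊆ S := by rw [← hsepG.1]; exact subset_union_right
  refine card_lt_card ((ssubset_iff_of_subset hBS).2 ?_)
  by_contra hcon
  push Not at hcon
  have : insert v R ⊆ A ∩ B' := by
    intro w hw
    rcases mem_insert.1 hw with rfl | hw
    · exact hvAB
    · exact mem_inter.2 ⟨hRA hw, hcon w (h.sub hw)⟩
  have := card_le_card this
  rw [card_insert_of_notMem hvR] at this
  omega

end Contract

/-- the rooted model theorem -/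
theorem root_main {N : ℕ} : ∀ (n : ℕ) (G : SimpleGraph V) (S R : Finset V) (B : Fin N → Finset V),
    S.card ≤ n → 2 * R.card ≤ N → RM G S R B → RC G S R := by
  classical
  intro n
  induction n with
  | zero =>
    intro G S R B hn hN h
    have hS : S = ∅ := card_eq_zero.1 (by omega)
    have hR : R = ∅ := subset_empty.1 (hS ▸ h.sub)
    subst hR
    exact ⟨fun _ => ∅, by simp, by simp, by simp⟩
  | succ n ih =>
    intro G S R B hn hN h
    by_cases hb : ∀ i, ∀ u ∈ B i, ∀ v ∈ B i, G.Adj u v → u ∈ R ∧ v ∈ R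
    · exact base h hN hb
    · push Not at hb
      obtain ⟨i, u₀, hu₀, v₀, hv₀, huv₀, hnot⟩ := hb
      -- choose the names so that v is not a root
      obtain ⟨u, v, hu, hv, huv, hvR⟩ : ∃ u v, u ∈ B i ∧ v ∈ B i ∧ G.Adj u v ∧ v ∉ R := by
        by_cases h1 : u₀ ∈ R
        · exact ⟨u₀, v₀, hu₀, hv₀, huv₀, hnot h1⟩
        · exact ⟨v₀, u₀, hv₀, hu₀, huv₀.symm, h1⟩
      have hvS : v ∈ S := h.bsub i hv
      by_cases hsep : ∀ C D : Finset V, Sep (contr G u v) (S.erase v) C D → R ⊆ C →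
          (∃ l, (B l).erase v ⊆ D \ C) → R.card ≤ (C ∩ D).card
      · refine rc_lift huv hvR hvS h.sub (ih _ _ _ _ ?_ hN (rm_contr h huv hvR hu hv hsep))
        rw [card_erase_of_mem hvS]
        omega
      · push Not at hsep
        obtain ⟨C, D, hs, hRC, ⟨l, hl⟩, hlt⟩ := hsep
        obtain ⟨A, B', h1, h2, h3, h4, h5⟩ := lift_sep h huv hvR hu hv hs hRC hl hlt
        exact tight h h1 h2 h3 h4 (ih _ _ _ _ (by omega) (by rw [h4]; exact hN))

end Vale.Agent.P060.Lin.Root

namespace Vale.Agent.P060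

open Finset Lin.Root

variable {V : Type} [Fintype V] [DecidableEq V]

/-- ROW ROOT (Robertson and Seymour: rooted model), helper97's proof. -/
theorem rooted97 (G : SimpleGraph V) (D : Finset V) (a : ℕ) (hD : HConn G D a)
    (hm : HasModel G D (2 * a)) (z : Fin a → V) (hz : Function.Injective z)
    (hzD : ∀ i, z i ∈ D) :
    ∃ T : Fin a → Finset V, (∀ i, T i ⊆ D) ∧ (∀ i, Conn G (T i)) ∧ (∀ i, z i ∈ T i) ∧
      (∀ i j, i ≠ j → Disjoint (T i) (T j)) ∧
      ∀ i j, i ≠ j → ∃ x ∈ T i, ∃ y ∈ T j, G.Adj x y := by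
  classical
  obtain ⟨B, hB1, hB2, hB3, hB4⟩ := hm
  have hRc : (univ.image z).card = a := by
    rw [card_image_of_injective _ hz, card_univ, Fintype.card_fin]
  have hRD : univ.image z ⊆ D := by
    intro w hw
    obtain ⟨i, _, rfl⟩ := mem_image.1 hw
    exact hzD i
  have hrm : RM G D (univ.image z) B := by
    refine ⟨hRD, hB1, hB2, hB3, hB4, ?_⟩
    rintro C E hs hRC ⟨l, hl⟩
    rw [hRc]
    by_contra hlt
    push Not at hlt
    obtain ⟨⟨w, hw⟩⟩ := (hB2 l).nonempty
    have h1 : (E \ C).Nonempty := ⟨w, hl hw⟩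
    have h2 : (C \ E).Nonempty := by
      by_contra hcon
      rw [not_nonempty_iff_eq_empty, sdiff_eq_empty_iff_subset] at hcon
      have : univ.image z ⊆ C ∩ E := fun w hw => mem_inter.2 ⟨hRC hw, hcon (hRC hw)⟩
      have := card_le_card this
      rw [hRc] at this
      omega
    have := hD C E hs h2 h1
    omega
  obtain ⟨M, h1, h2, h3⟩ := root_main D.card G D (univ.image z) B le_rfl (by rw [hRc]) hrm
  have hzi : ∀ i, z i ∈ univ.image z := fun i => mem_image_of_mem _ (mem_univ i)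
  refine ⟨fun i => M (z i), fun i => (h1 _ (hzi i)).2.1, fun i => (h1 _ (hzi i)).2.2,
    fun i => (h1 _ (hzi i)).1, fun i j hij => h2 _ (hzi i) _ (hzi j) (hz.ne hij), ?_⟩
  intro i j hij
  obtain ⟨x, hx, y, hy, hxy, _⟩ := h3 _ (hzi i) _ (hzi j) (hz.ne hij)
  exact ⟨x, hx, y, hy, hxy⟩

end Vale.Agent.P060
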